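/-
R224 / S0346 : INTERFACE of the group half (helper276).  Every node is a `Prop`; modules prove
`theorem node_xxx (s : Sys) (h1 : Node..) ... : NodeXxx s`.  See the row note 9216 for the paper proof.
-/
import Crest.Agent.R224.Defs

set_option autoImplicit false

noncomputable section

open MeasureTheory Set Filter Topology

namespace Crest.Agent.R224

/-! ## Part I : analysis (no boundary yet) -/

/-- Green kernel of a nonamenable group -/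
structure IsGreen {G : Type} [Group G] (S : Finset G) (Gr : G → G → ℝ) : Prop where
  nonneg : ∀ x y, 0 ≤ Gr x y
  symm : ∀ x y, Gr x y = Gr y x
  inv : ∀ g x y, Gr (g * x) (g * y) = Gr x y
  eqn : ∀ x y, Gr x y = (open Classical in if x = y then (1 : ℝ) else 0) + Pop S (fun z => Gr z y) x
  bdd : ∃ C, ∀ x y, Gr x y ≤ C
  zero : ∀ y, Tendsto (fun x => Gr x y) cofinite (𝓝 0)
  l2 : ∃ C, ∀ u : G → ℝ, (∀ x, 0 ≤ u x) → Summable (fun x => u x ^ 2) →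
    (∀ x, Summable fun y => Gr x y * u y) ∧ Summable (fun x => (∑' y, Gr x y * u y) ^ 2) ∧
    ∑' x, (∑' y, Gr x y * u y) ^ 2 ≤ C * ∑' x, u x ^ 2


/-- N2: decomposition of a (bounded) Dirichlet function -/
def NDecomp : Prop := ∀ (G : Type) [Group G] (S : Finset G), Std S → Nonam S → Infinite G →
  ∀ f : G → ℝ, Dir S f → ∃ f0 h : G → ℝ, (∀ x, f x = f0 x + h x) ∧ Summable (fun x => f0 x ^ 2) ∧
    (∀ x, Pop S h x = h x) ∧ Dir S h ∧ ∀ C, (∀ x, |f x| ≤ C) → ∀ x, |h x| ≤ C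

/-- class `S` of the note -/
structure ClsS {G : Type} [Group G] (S : Finset G) (f : G → ℝ) : Prop where
  dir : Dir S f
  bdd : ∃ C, ∀ x, |f x| ≤ C
  fin : ∀ᵐ t : ℝ, FinC S {x | f x < t}

/-- N4: the monotone trick -/
def NMono : Prop := ∀ (G : Type) [Group G] (S : Finset G), TopHyp S → Nonam S → Infinite G →
  (∃ f, Dir S f ∧ ¬ ∃ c : ℝ, Summable fun x => (f x - c) ^ 2) →
  ∃ f, ClsS S f ∧ ∃ a b : ℝ, a < b ∧ {x | f x ≤ a}.Infinite ∧ {x | b ≤ f x}.Infinite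

/-- N5: max with a generic shift -/
def NMax : Prop := ∀ (G : Type) [Group G] (S : Finset G), TopHyp S → Infinite G →
  ∀ f g : G → ℝ, ClsS S f → ClsS S g → ∀ᵐ s : ℝ, ClsS S (fun x => max (f x) (g x + s))

/-- N6: component functions -/
def NComp : Prop := ∀ (G : Type) [Group G] (S : Finset G), TopHyp S → Infinite G →
  ∀ f : G → ℝ, ClsS S f → ∀ t : ℝ, ∀ Y : Set G, Y ⊆ {x | f x < t} → Conn S Y →
    (∀ x ∈ Y, ∀ y, Adj S x y → f y < t → y ∈ Y) →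
    ClsS S (open Classical in fun x => if x ∈ Y then t - f x else 0)

/-- N7: convergence property for two functions of class `S` -/
def NCP2 : Prop := ∀ (G : Type) [Group G] (S : Finset G), TopHyp S → Infinite G →
  ∀ f g : G → ℝ, ClsS S f → ClsS S g → ∀ ε : ℝ, 0 < ε → ∃ K : Finset G, ∀ x, x ∉ K → ∀ y,
    |f y - f x| ≤ ε ∨ |g (x⁻¹ * y) - g x⁻¹| ≤ ε

/-- N8: existence of the compactification -/
def NBdry : Prop := ∀ (G : Type) [Group G] (S : Finset G), TopHyp S → Nonam S → Infinite G →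
  (∃ f, Dir S f ∧ ¬ ∃ c : ℝ, Summable fun x => (f x - c) ^ 2) →
  ∃ (Z : Type) (_ : MetricSpace Z) (_ : CompactSpace Z) (_ : MulAction G Z) (ι : G → Z)
    (𝓕 : Set (Z → ℝ)), IsBdry S ι 𝓕

/-- N9: existence of harmonic measures -/
def NHarm : Prop := ∀ (G : Type) [Group G] (S : Finset G) (Z : Type) [MetricSpace Z]
  [CompactSpace Z] [MulAction G Z] [MeasurableSpace Z] [BorelSpace Z] (ι : G → Z)
  (𝓕 : Set (Z → ℝ)), TopHyp S → Nonam S → Infinite G → IsBdry S ι 𝓕 →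
  ∃ ν : G → Measure Z, IsHarm S ι ν

/-! ## Part II : the system -/

structure Sys where
  G : Type
  grp : Group G
  inf : Infinite G
  S : Finset G
  top : TopHyp S
  non : Nonam S
  Z : Type
  met : MetricSpace Z
  cpt : CompactSpace Z
  act : MulAction G Z
  mea : MeasurableSpace Z
  bor : BorelSpace Z
  ι : G → Z
  𝓕 : Set (Z → ℝ)
  bdry : IsBdry S ι 𝓕
  ν : G → Measure Z
  harm : IsHarm S ι ν

instance (s : Sys) : Group s.G := s.grp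
instance (s : Sys) : Infinite s.G := s.inf
instance (s : Sys) : MetricSpace s.Z := s.met
instance (s : Sys) : CompactSpace s.Z := s.cpt
instance (s : Sys) : MulAction s.G s.Z := s.act
instance (s : Sys) : MeasurableSpace s.Z := s.mea
instance (s : Sys) : BorelSpace s.Z := s.bor

namespace Sys

variable (s : Sys)

/-- pairs (cut point, component) -/
def Pairs : Set (s.Z × Set s.Z) :=
  {q | IsCut s.ι q.1 ∧ ∃ θ ∈ T s.ι, θ ≠ q.1 ∧ q.2 = Compo s.ι q.1 θ}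

/-- a path with steps in `S * S` inside `Y` -/
def Path2 (Y : Set s.G) (x y : s.G) : Prop :=
  Relation.ReflTransGen (fun a b => (∃ u ∈ s.S, ∃ v ∈ s.S, b = a * u * v) ∧ a ∈ Y ∧ b ∈ Y) x y

def c0 : ℝ := 1 / (4 * (s.S.card : ℝ) ^ 2)

/-- well-balanced vertex for a partition of the block -/
def WB (a b : s.Z) (δ : ℝ) (U V : Set s.Z) (x : s.G) : Prop :=
  ∀ p : s.Z, δ ≤ hh s.ν (sat s.ι a b (U \ {p})) x ∧ δ ≤ hh s.ν (sat s.ι a b (V \ {p})) x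

/-- the setwise stabiliser of the block -/
def StabB (a b : s.Z) : Set s.G :=
  {g | (fun z => g • z) '' (Blk s.ι a b) = Blk s.ι a b}

end Sys

/-! ### elementary topology of the boundary -/

/-- P1: the boundary is connected -/
def PConn (s : Sys) : Prop := ∀ U, RO s.ι U → RO s.ι (T s.ι \ U) → U.Nonempty →
  (T s.ι \ U).Nonempty → False

/-- P2: `U ∪ {η}` is connected -/
def PHalf (s : Sys) : Prop := ∀ η U ξ W, Clp s.ι η U → Clp s.ι ξ W → η ≠ ξ → ξ ∉ U →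
  (U ∪ {η} ⊆ W ∨ Disjoint (U ∪ {η}) W)

/-- P3: Boolean algebra of clopen sets at `η` -/
def PAlg (s : Sys) : Prop := ∀ η U V, Clp s.ι η U → Clp s.ι η V →
  Clp s.ι η (cmp s.ι η U) ∧ Clp s.ι η (U ∩ V) ∧ Clp s.ι η (U ∪ V) ∧ Clp s.ι η (U \ V) ∧
  ∀ g : s.G, Clp s.ι (g • η) ((fun z => g • z) '' U)

/-- P4: boundary values of `hh U` -/
def PLim (s : Sys) : Prop := ∀ η U, Clp s.ι η U → ∀ ε : ℝ, 0 < ε →
  (∀ θ ∈ U, ∃ δ : ℝ, 0 < δ ∧ ∀ x, dist (s.ι x) θ < δ → 1 - ε < hh s.ν U x) ∧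
  (∀ θ ∈ cmp s.ι η U, ∃ δ : ℝ, 0 < δ ∧ ∀ x, dist (s.ι x) θ < δ → hh s.ν U x < ε)

/-- P5: balanced vertices accumulate only at `η` -/
def PBal (s : Sys) : Prop := ∀ η U, Clp s.ι η U → ∀ c ε : ℝ, 0 < c → 0 < ε →
  {x | x ∈ Bal s.ν c U ∧ ε ≤ dist (s.ι x) η}.Finite

/-- P6: level sets of `f ∈ 𝓕` at infinity, cut pieces (uses t2, ffin, lc) -/
def PSep (s : Sys) : Prop := ∀ f ∈ s.𝓕, ∀ᵐ t : ℝ, ∀ a ∈ T s.ι, ∀ b ∈ T s.ι, f a < t → t < f b →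
  ∃ ζ ∈ T s.ι, f ζ = t ∧ ∀ ε : ℝ, 0 < ε → ∃ K : Set s.Z, IsClosed K ∧ K ⊆ T s.ι ∧
    (∀ z ∈ K, f z = t ∧ dist z ζ < ε) ∧
    ∃ U V, RO s.ι U ∧ RO s.ι V ∧ Disjoint U V ∧ U ∪ V = T s.ι \ K ∧ a ∈ V ∧ b ∈ U

/-- P7: almost every level set is null -/
def PNullLev (s : Sys) : Prop := ∀ f ∈ s.𝓕, ∀ᵐ t : ℝ, ∀ x, s.ν x {z | f z = t} = 0

/-! ### discreteness -/

/-- B: Theorem B' -/
def NThmB (s : Sys) : Prop := ∀ x y, Adj s.S x y → {η | Cross s.ι s.ν x y η}.Finite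

/-- C1: local finiteness -/
def NLF (s : Sys) : Prop := ∀ c : ℝ, 0 < c → ∀ x,
  {η | ∃ U, Clp s.ι η U ∧ x ∈ Bal s.ν c U}.Finite

/-- C2: there are countably many true cut points -/
def NCtbl (s : Sys) : Prop := {η | IsCut s.ι η}.Countable

/-! ### dynamics -/

/-- D1: properness on triples -/
def NTriple (s : Sys) : Prop := ∀ ε : ℝ, 0 < ε →
  {g : s.G | ∃ a ∈ T s.ι, ∃ b ∈ T s.ι, ∃ c ∈ T s.ι, ε ≤ dist a b ∧ ε ≤ dist a c ∧ ε ≤ dist b c ∧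
    ε ≤ dist (g • a) (g • b) ∧ ε ≤ dist (g • a) (g • c) ∧ ε ≤ dist (g • b) (g • c)}.Finite

/-- D2: (c1) of the note -/
def NC1 (s : Sys) : Prop := ∀ η ∈ T s.ι, ∀ τ ∈ T s.ι, ∀ τ' ∈ T s.ι, τ ≠ η → τ' ≠ η →
  ∀ p p' : ℕ → s.G, (∀ n, p n • η = η) → (∀ n, p' n • η = η) →
  Tendsto (fun n => s.ι (p n)) atTop (𝓝 τ) → Tendsto (fun n => s.ι (p' n)) atTop (𝓝 τ') → τ = τ'

/-- D3: dynamical core of the null lemma -/
def NNullDyn (s : Sys) : Prop := ∀ (P : Subgroup s.G) (η : s.Z), η ∈ T s.ι →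
  (∀ g ∈ P, g • η = η) → ∀ x x' : ℕ → s.G, (∀ n, (x n)⁻¹ * x' n ∈ P) →
  ∀ τ ∈ T s.ι, ∀ τ' ∈ T s.ι, τ ≠ τ' →
  Tendsto (fun n => s.ι (x n)) atTop (𝓝 τ) → Tendsto (fun n => s.ι (x' n)) atTop (𝓝 τ') →
  (Set.range fun n => ((x n : s.G) : s.G ⧸ P)).Finite

/-- D4: components of `T \ {η}` are open -/
def NOpen (s : Sys) : Prop := ∀ η ∈ T s.ι, ∀ θ ∈ T s.ι, θ ≠ η → Clp s.ι η (Compo s.ι η θ)

/-- D5: null lemma -/
def NNull (s : Sys) : Prop := ∀ c ε : ℝ, 0 < c → 0 < ε →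
  {q | q ∈ s.Pairs ∧ ∃ x ∈ Bal s.ν c q.2, ∃ x' ∈ Bal s.ν c q.2, ε ≤ dist (s.ι x) (s.ι x')}.Finite

/-- D6: only finitely many components (or co-components) are large and of mass `≤ 1 - c` -/
def NShrink (s : Sys) : Prop := ∀ c ε : ℝ, 0 < c → 0 < ε → ∀ x : s.G,
  {q | q ∈ s.Pairs ∧ hh s.ν q.2 x ≤ 1 - c ∧ ∃ z ∈ q.2, ∃ z' ∈ q.2, ε ≤ dist z z'}.Finite ∧
  {q | q ∈ s.Pairs ∧ hh s.ν (cmp s.ι q.1 q.2) x ≤ 1 - c ∧
    ∃ z ∈ cmp s.ι q.1 q.2, ∃ z' ∈ cmp s.ι q.1 q.2, ε ≤ dist z z'}.Finite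

/-! ### blocks -/

/-- E1: a block on which `f` varies -/
def NBlock (s : Sys) : Prop := ∀ f ∈ s.𝓕, ∀ a ∈ T s.ι, ∀ b ∈ T s.ι, f a ≠ f b →
  ∃ a' b', Unsep s.ι a' b' ∧ f a' ≠ f b'

/-- E2: structure of `T` relative to a block -/
def NPart (s : Sys) : Prop := ∀ a b, Unsep s.ι a b →
  a ∈ Blk s.ι a b ∧ b ∈ Blk s.ι a b ∧ IsClosed (Blk s.ι a b) ∧
  (∀ η, IsCut s.ι η → η ∈ Blk s.ι a b →
    Clp s.ι η (Dn s.ι a b η) ∧ (Dn s.ι a b η).Nonempty ∧ Disjoint (Dn s.ι a b η) (Blk s.ι a b)) ∧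
  (∀ η η', IsCut s.ι η → η ∈ Blk s.ι a b → IsCut s.ι η' → η' ∈ Blk s.ι a b → η ≠ η' →
    Disjoint (Dn s.ι a b η) (Dn s.ι a b η')) ∧
  (∀ z ∈ T s.ι, z ∈ Blk s.ι a b ∨ ∃ η, IsCut s.ι η ∧ η ∈ Blk s.ι a b ∧ z ∈ Dn s.ι a b η)

/-- E3: the retraction is continuous (preimages of relatively open sets) -/
def NRetr (s : Sys) : Prop := ∀ a b, Unsep s.ι a b → ∀ O : Set s.Z, IsOpen O →
  RO s.ι (sat s.ι a b (O ∩ Blk s.ι a b))

/-- E4: the block is connected -/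
def NBlkConn (s : Sys) : Prop := ∀ a b, Unsep s.ι a b → ∀ O O' : Set s.Z, IsOpen O → IsOpen O' →
  Blk s.ι a b ⊆ O ∪ O' → (O ∩ Blk s.ι a b).Nonempty → (O' ∩ Blk s.ι a b).Nonempty →
  (O ∩ O' ∩ Blk s.ι a b).Nonempty

/-- E5: cofiniteness of the stabiliser of the block -/
def NCofin (s : Sys) : Prop := ∀ a b, Unsep s.ι a b → ∀ c : ℝ, 0 < c →
  ∃ F : Finset s.G, ∀ x ∈ XB s.ι s.ν a b c, ∃ γ ∈ s.StabB a b, ∃ y ∈ F, x = γ * y

/-- E6: equivariance under the stabiliser of the block -/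
def NEquiv (s : Sys) : Prop := ∀ a b, Unsep s.ι a b → ∀ γ ∈ s.StabB a b, γ⁻¹ ∈ s.StabB a b ∧
  (∀ A, A ⊆ Blk s.ι a b → sat s.ι a b ((fun z => γ • z) '' A) = (fun z => γ • z) '' sat s.ι a b A) ∧
  (∀ c x, x ∈ XB s.ι s.ν a b c → γ * x ∈ XB s.ι s.ν a b c)

/-- E7: uniform spread -/
def NSpread (s : Sys) : Prop := ∀ a b, Unsep s.ι a b → ∀ c : ℝ, 0 < c →
  ∃ c3 : ℝ, 0 < c3 ∧ ∀ x ∈ XB s.ι s.ν a b c, ∀ p q : s.Z,
    c3 ≤ hh s.ν (sat s.ι a b (Blk s.ι a b \ {p, q})) x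

/-- E8: `XB` is coarsely connected and accumulates at every point of the block, with local
connection to every point of the block -/
def NXB (s : Sys) : Prop := ∀ a b, Unsep s.ι a b →
  (∀ x ∈ XB s.ι s.ν a b s.c0, ∀ y ∈ XB s.ι s.ν a b s.c0, s.Path2 (XB s.ι s.ν a b s.c0) x y) ∧
  (∀ θ ∈ Blk s.ι a b, ∀ ε : ℝ, 0 < ε → ∃ x ∈ XB s.ι s.ν a b s.c0, dist (s.ι x) θ < ε) ∧
  (∀ θ ∈ Blk s.ι a b, ∀ ε : ℝ, 0 < ε → ∃ δ : ℝ, 0 < δ ∧ ∀ x ∈ XB s.ι s.ν a b s.c0,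
    dist (s.ι x) θ < δ → ∀ δ' : ℝ, 0 < δ' → ∃ x', dist (s.ι x') θ < δ' ∧
      s.Path2 (XB s.ι s.ν a b s.c0 ∩ {y | dist (s.ι y) θ < ε}) x x')

/-! ### final step -/

/-- F1: order lemma -/
def NOrder (s : Sys) : Prop := ∀ ε : ℕ → ℝ, (∀ j, 0 < ε j) → ∃ L : ℕ → Finset s.G, ∀ J : ℕ,
  ∃ κ : ℝ, 0 < κ ∧ ∀ Q : Finset s.G, ∀ y ∈ Q, ∃ x ∈ Q,
    (x = y ∨ κ ≤ dist (s.ι y⁻¹) (s.ι (y⁻¹ * x))) ∧
    ∀ j ≤ J, ∀ z ∈ Q, x⁻¹ * z ∈ L j ∨ dist (s.ι x⁻¹) (s.ι (x⁻¹ * z)) < ε j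

/-- F2: types near a point of the block.  If no well-balanced vertex of `XB` lies within `ε` of
`θ`, then the partition has a constant side near `θ`, with a radius independent of the
partition. -/
def NSide (s : Sys) : Prop := ∀ a b, Unsep s.ι a b → ∀ c3 δ : ℝ, 0 < δ →
  (1 + (s.S.card : ℝ) ^ 2) * δ < c3 →
  (∀ x ∈ XB s.ι s.ν a b s.c0, ∀ p q : s.Z,
    c3 ≤ hh s.ν (sat s.ι a b (Blk s.ι a b \ {p, q})) x) →
  ∀ θ ∈ Blk s.ι a b, ∀ ε : ℝ, 0 < ε → ∃ r : ℝ, 0 < r ∧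
  ∀ K U V : Set s.Z, IsClosed K → K ⊆ Blk s.ι a b → (∀ η ∈ K, ¬ IsCut s.ι η) →
    (∀ x, hh s.ν K x = 0) →
    (∃ O, IsOpen O ∧ O ∩ Blk s.ι a b = U) → (∃ O, IsOpen O ∧ O ∩ Blk s.ι a b = V) →
    Disjoint U V → U ∪ V = Blk s.ι a b \ K → (∀ z ∈ K, ε ≤ dist z θ) →
    (∀ x ∈ XB s.ι s.ν a b s.c0, dist (s.ι x) θ < ε → ¬ s.WB a b δ U V x) →
    (∀ z ∈ T s.ι, dist z θ < r → z ∈ sat s.ι a b U) ∨
    (∀ z ∈ T s.ι, dist z θ < r → z ∈ sat s.ι a b V)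

/-- F3: all the nodes together are contradictory -/
def NFinal : Prop := ∀ s : Sys, PConn s → PHalf s → PAlg s → PLim s → PBal s → PSep s →
  PNullLev s → NLF s → NCtbl s → NOpen s → NNull s → NBlock s → NPart s → NRetr s →
  NBlkConn s → NCofin s → NEquiv s → NSpread s → NXB s → NOrder s → NSide s → False

/-! ## Result of the group half -/

def GroupHalf : Prop := ∀ (G : Type) [Group G] (S : Finset G), TopHyp S → Nonam S → Infinite G →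
  ∀ f : G → ℝ, Dir S f → ∃ c : ℝ, Summable fun x => (f x - c) ^ 2

end Crest.Agent.R224
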