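/-
R224 / S0346: common basic lemmas about a system `s : Sys` (helper821).
-/
import Crest.Agent.R224.Iface

set_option autoImplicit false

noncomputable section

open MeasureTheory Set Filter Topology

namespace Crest.Agent.R224

/-! ### generic path lemma -/

theorem exists_step {α : Type*} {r : α → α → Prop} {P : α → Prop} {a b : α}
    (h : Relation.ReflTransGen r a b) (ha : P a) (hb : ¬ P b) :
    ∃ c d, Relation.ReflTransGen r a c ∧ r c d ∧ Relation.ReflTransGen r d b ∧ P c ∧ ¬ P d := by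
  induction h with
  | refl => exact absurd ha hb
  | @tail c d h1 h2 ih =>
    by_cases hc : P c
    · exact ⟨c, d, h1, h2, .refl, hc, hb⟩
    · obtain ⟨e, f, k1, k2, k3, k4, k5⟩ := ih hc
      exact ⟨e, f, k1, k2, k3.tail h2, k4, k5⟩

/-! ### relatively open sets -/

section ro

variable {G : Type} {Z : Type} [MetricSpace Z] {ι : G → Z}

theorem ro_iff {U : Set Z} : RO ι U ↔ U ⊆ T ι ∧ ∀ z ∈ U, ∃ ε > 0, ∀ z' ∈ T ι, dist z' z < ε → z' ∈ U := by
  constructor
  · rintro ⟨O, hO, rfl⟩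
    refine ⟨inter_subset_right, fun z hz => ?_⟩
    obtain ⟨ε, hε, h⟩ := Metric.isOpen_iff.1 hO z hz.1
    exact ⟨ε, hε, fun z' hz' hd => ⟨h hd, hz'⟩⟩
  · rintro ⟨h1, h2⟩
    refine ⟨⋃ z ∈ U, ⋃ ε ∈ {ε : ℝ | 0 < ε ∧ ∀ z' ∈ T ι, dist z' z < ε → z' ∈ U},
      Metric.ball z ε, ?_, ?_⟩
    · exact isOpen_biUnion fun z _ => isOpen_biUnion fun ε _ => Metric.isOpen_ball
    · ext z
      simp only [mem_inter_iff, mem_iUnion, Metric.mem_ball, exists_prop, mem_ofPred_eq]
      constructor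
      · rintro ⟨⟨y, hy, ε, ⟨hε, h⟩, hz⟩, hzT⟩
        exact h z hzT hz
      · intro hz
        obtain ⟨ε, hε, h⟩ := h2 z hz
        exact ⟨⟨z, hz, ε, ⟨hε, h⟩, by simpa using hε⟩, h1 hz⟩

theorem RO.sub {U : Set Z} (h : RO ι U) : U ⊆ T ι := (ro_iff.1 h).1

theorem RO.inter {U V : Set Z} (hU : RO ι U) (hV : RO ι V) : RO ι (U ∩ V) := by
  obtain ⟨O, hO, rfl⟩ := hU
  obtain ⟨O', hO', rfl⟩ := hV
  refine ⟨O ∩ O', hO.inter hO', ?_⟩
  ext z; simp only [mem_inter_iff]; tauto

theorem RO.union {U V : Set Z} (hU : RO ι U) (hV : RO ι V) : RO ι (U ∪ V) := by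
  obtain ⟨O, hO, rfl⟩ := hU
  obtain ⟨O', hO', rfl⟩ := hV
  refine ⟨O ∪ O', hO.union hO', ?_⟩
  ext z; simp only [mem_inter_iff, mem_union]; tauto

theorem RO.sUnion {C : Set (Set Z)} (h : ∀ U ∈ C, RO ι U) : RO ι (⋃₀ C) := by
  rw [ro_iff]
  refine ⟨sUnion_subset fun U hU => (h U hU).sub, ?_⟩
  rintro z ⟨U, hU, hz⟩
  obtain ⟨ε, hε, h'⟩ := (ro_iff.1 (h U hU)).2 z hz
  exact ⟨ε, hε, fun z' hz' hd => ⟨U, hU, h' z' hz' hd⟩⟩

theorem RO.of_isOpen {O : Set Z} (hO : IsOpen O) : RO ι (O ∩ T ι) := ⟨O, hO, rfl⟩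

theorem RO.inter_isOpen {U O : Set Z} (hU : RO ι U) (hO : IsOpen O) : RO ι (U ∩ O) := by
  obtain ⟨O', hO', rfl⟩ := hU
  exact ⟨O' ∩ O, hO'.inter hO, by ext z; simp only [mem_inter_iff]; tauto⟩

end ro

/-! ### elementary facts about a system -/

namespace Sys

variable (s : Sys)

instance (x : s.G) : IsProbabilityMeasure (s.ν x) := s.harm.prob x

theorem card_pos : 0 < (s.S.card : ℝ) := by
  have : 0 < s.S.card := Finset.card_pos.2 ⟨1, s.top.one⟩
  exact_mod_cast this

theorem one_le_card : 1 ≤ (s.S.card : ℝ) := by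
  have : 0 < s.S.card := Finset.card_pos.2 ⟨1, s.top.one⟩
  exact_mod_cast this

theorem adj_symm {x y : s.G} (h : Adj s.S x y) : Adj s.S y x := by
  have := s.top.inv _ h
  simpa [Adj, mul_inv_rev] using this

theorem adj_mul {x y : s.G} (g : s.G) (h : Adj s.S x y) : Adj s.S (g * x) (g * y) := by
  unfold Adj at *
  rwa [mul_inv_rev, mul_assoc, inv_mul_cancel_left]

theorem conn_univ (x y : s.G) : Relation.ReflTransGen (fun a b => Adj s.S a b) x y := by
  have key : ∀ g : s.G, g ∈ Subgroup.closure (s.S : Set s.G) →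
      ∀ x : s.G, Relation.ReflTransGen (fun a b => Adj s.S a b) x (x * g) := by
    intro g hg
    induction hg using Subgroup.closure_induction with
    | mem u hu =>
      intro x
      refine Relation.ReflTransGen.single ?_
      simpa [Adj] using hu
    | one => intro x; rw [mul_one]
    | mul a b _ _ ha hb =>
      intro x
      have := (ha x).trans (hb (x * a))
      rwa [mul_assoc] at this
    | inv a _ ha =>
      intro x
      have h := ha (x * a⁻¹)
      rw [inv_mul_cancel_right] at h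
      have hsymm : ∀ {u v : s.G}, Relation.ReflTransGen (fun a b => Adj s.S a b) u v →
          Relation.ReflTransGen (fun a b => Adj s.S a b) v u := by
        intro u v huv
        induction huv with
        | refl => exact .refl
        | tail _ h2 ih => exact ih.head (s.adj_symm h2)
      exact hsymm h
  have := key (x⁻¹ * y) (by rw [s.top.gen]; trivial) x
  rwa [mul_inv_cancel_left] at this

theorem countable_G : Countable s.G := by
  have hs : Function.Surjective (fun l : List {u : s.G // u ∈ s.S} => (l.map Subtype.val).prod) := by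
    intro g
    have h := s.conn_univ 1 g
    induction h with
    | refl => exact ⟨[], rfl⟩
    | @tail a b _ h2 ih =>
      obtain ⟨l, hl⟩ := ih
      refine ⟨l ++ [⟨a⁻¹ * b, h2⟩], ?_⟩
      simp only [List.map_append, List.prod_append, List.map_cons, List.map_nil, List.prod_cons,
        List.prod_nil, mul_one] at hl ⊢
      rw [hl, mul_inv_cancel_left]
  exact hs.countable

/-! #### masses -/

theorem hh_nonneg (A : Set s.Z) (x : s.G) : 0 ≤ hh s.ν A x := measureReal_nonneg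

theorem hh_le_one (A : Set s.Z) (x : s.G) : hh s.ν A x ≤ 1 := measureReal_le_one

theorem hh_mono {A B : Set s.Z} (h : A ⊆ B) (x : s.G) : hh s.ν A x ≤ hh s.ν B x :=
  measureReal_mono h

theorem harnack {x y : s.G} (h : Adj s.S x y) {A : Set s.Z} (hA : MeasurableSet A) :
    hh s.ν A y ≤ s.S.card * hh s.ν A x := by
  have h1 := s.harm.harm x A hA
  unfold Pop at h1
  have h2 : (s.ν y).real A ≤ ∑ g ∈ s.S, (s.ν (x * g)).real A := by
    have := Finset.single_le_sum (f := fun g => (s.ν (x * g)).real A)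
      (fun g _ => measureReal_nonneg) h
    simpa [mul_inv_cancel_left] using this
  unfold hh
  rw [h1, mul_div_cancel₀ _ s.card_pos.ne']
  exact h2

/-- Harnack along a path: a positive constant depending only on the two vertices -/
theorem harnack_path (x y : s.G) : ∃ C : ℝ, 1 ≤ C ∧ ∀ A : Set s.Z, MeasurableSet A →
    hh s.ν A y ≤ C * hh s.ν A x := by
  have h := s.conn_univ x y
  induction h with
  | refl => exact ⟨1, le_rfl, fun A _ => by rw [one_mul]⟩
  | @tail a b _ h2 ih =>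
    obtain ⟨C, hC, h⟩ := ih
    refine ⟨s.S.card * C, ?_, fun A hA => ?_⟩
    · nlinarith [s.one_le_card]
    · calc hh s.ν A b ≤ s.S.card * hh s.ν A a := s.harnack h2 hA
        _ ≤ s.S.card * (C * hh s.ν A x) := by
            exact mul_le_mul_of_nonneg_left (h A hA) s.card_pos.le
        _ = _ := by ring

theorem hh_smul (g x : s.G) {A : Set s.Z} (hA : MeasurableSet A) :
    hh s.ν ((fun z => g • z) '' A) (g * x) = hh s.ν A x := by
  unfold hh Measure.real
  rw [s.harm.equiv g x A hA]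

/-! #### the boundary -/

theorem isClosed_T : IsClosed (T s.ι) := by
  unfold T
  rw [isClosed_compl_iff]
  have : range s.ι = ⋃ g, {s.ι g} := by ext z; simp [eq_comm]
  rw [this]
  exact isOpen_iUnion fun g => s.bdry.isol g

theorem isCompact_T : IsCompact (T s.ι) := s.isClosed_T.isCompact

theorem smul_T {g : s.G} {z : s.Z} (h : z ∈ T s.ι) : g • z ∈ T s.ι := by
  rintro ⟨k, hk⟩
  apply h
  refine ⟨g⁻¹ * k, ?_⟩
  rw [← s.bdry.eqv, hk, inv_smul_smul]


theorem exists_near (θ : s.Z) {ε : ℝ} (hε : 0 < ε) : ∃ x, dist (s.ι x) θ < ε := by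
  obtain ⟨z, hz, ⟨x, rfl⟩⟩ := Metric.dense_iff.1 s.bdry.dense θ ε hε
  exact ⟨x, hz⟩

/-- near a boundary point there is no vertex of a given finite set -/
theorem exists_ball_notMem {θ : s.Z} (hθ : θ ∈ T s.ι) {K : Set s.G} (hK : K.Finite) :
    ∃ δ > 0, ∀ x, dist (s.ι x) θ < δ → x ∉ K := by
  have hc : IsClosed (s.ι '' K) := (hK.image _).isClosed
  have hn : θ ∉ s.ι '' K := by
    rintro ⟨x, _, rfl⟩
    exact hθ ⟨x, rfl⟩
  obtain ⟨δ, hδ, h⟩ := Metric.isOpen_iff.1 hc.isOpen_compl θ hn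
  exact ⟨δ, hδ, fun x hx hxK => h hx ⟨x, hxK, rfl⟩⟩

/-- isolation radius -/
theorem isol_radius (g : s.G) : ∃ r > 0, ∀ z, dist z (s.ι g) < r → z = s.ι g := by
  obtain ⟨r, hr, h⟩ := Metric.isOpen_iff.1 (s.bdry.isol g) (s.ι g) rfl
  exact ⟨r, hr, fun z hz => h hz⟩

/-- right multiplication by a fixed element is close to the identity near infinity -/
theorem near_mul (g : s.G) {ε : ℝ} (hε : 0 < ε) :
    ∃ K : Finset s.G, ∀ x ∉ K, dist (s.ι (x * g)) (s.ι x) ≤ ε := by
  classical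
  obtain ⟨r, hr, hr'⟩ := s.isol_radius g
  obtain ⟨K, hK⟩ := s.bdry.cp (min ε (r / 2)) (lt_min hε (half_pos hr))
  refine ⟨insert g⁻¹ K, fun x hx => ?_⟩
  rw [Finset.mem_insert, not_or] at hx
  rcases hK x hx.2 (s.ι (x * g)) with h | h
  · exact h.trans (min_le_left _ _)
  · exfalso
    rw [s.bdry.eqv, inv_mul_cancel_left] at h
    have h2 : dist (s.ι x⁻¹) (s.ι g) < r := by
      rw [dist_comm]
      exact (h.trans (min_le_right _ _)).trans_lt (half_lt_self hr)
    have := s.bdry.inj (hr' _ h2)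
    exact hx.1 (by rw [← this, inv_inv])

theorem near_adj {ε : ℝ} (hε : 0 < ε) :
    ∃ K : Finset s.G, ∀ x ∉ K, ∀ y, Adj s.S x y → dist (s.ι y) (s.ι x) ≤ ε := by
  classical
  choose K hK using fun g : s.G => s.near_mul g hε
  refine ⟨s.S.biUnion K, fun x hx y hxy => ?_⟩
  have h1 : x ∉ K (x⁻¹ * y) := fun h => hx (Finset.mem_biUnion.2 ⟨_, hxy, h⟩)
  have := hK _ x h1
  rwa [mul_inv_cancel_left] at this

/-- a sequence of vertices converging to `τ` keeps its limit after right multiplication -/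
theorem tendsto_mul_right {x : ℕ → s.G} {τ : s.Z} (hτ : τ ∈ T s.ι)
    (hx : Tendsto (fun n => s.ι (x n)) atTop (𝓝 τ)) (g : s.G) :
    Tendsto (fun n => s.ι (x n * g)) atTop (𝓝 τ) := by
  rw [Metric.tendsto_atTop] at hx ⊢
  intro ε hε
  obtain ⟨K, hK⟩ := s.near_mul g (half_pos hε)
  obtain ⟨δ, hδ, hδ'⟩ := s.exists_ball_notMem hτ K.finite_toSet
  obtain ⟨N, hN⟩ := hx (min δ (ε / 2)) (lt_min hδ (half_pos hε))
  refine ⟨N, fun n hn => ?_⟩
  have h1 := hN n hn
  have h2 := hK (x n) (fun h => hδ' _ (h1.trans_le (min_le_left _ _)) (Finset.mem_coe.2 h))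
  have h3 := h1.trans_le (min_le_right δ (ε / 2))
  calc dist (s.ι (x n * g)) τ ≤ dist (s.ι (x n * g)) (s.ι (x n)) + dist (s.ι (x n)) τ :=
        dist_triangle _ _ _
    _ < ε / 2 + ε / 2 := by linarith
    _ = ε := by ring

/-- a sequence of vertices without constant subsequence accumulates on the boundary -/
theorem subseq_T (x : ℕ → s.G) (hx : ∀ g, {n | x n = g}.Finite) :
    ∃ τ ∈ T s.ι, ∃ φ : ℕ → ℕ, StrictMono φ ∧ Tendsto (fun n => s.ι (x (φ n))) atTop (𝓝 τ) := by
  obtain ⟨τ, φ, hφ, hlim⟩ := CompactSpace.tendsto_subseq (fun n => s.ι (x n))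
  refine ⟨τ, ?_, φ, hφ, hlim⟩
  rintro ⟨g, rfl⟩
  have h1 : ∀ᶠ n in atTop, s.ι (x (φ n)) = s.ι g :=
    hlim ((s.bdry.isol g).mem_nhds rfl)
  obtain ⟨N, hN⟩ := eventually_atTop.1 h1
  have h2 : (φ '' Ici N).Infinite := (Ici_infinite N).image hφ.injective.injOn
  apply h2
  refine (hx g).subset ?_
  rintro _ ⟨n, hn, rfl⟩
  exact s.bdry.inj (hN n hn)

/-- points of the boundary have convergent subsequences in the boundary -/
theorem subseq_of_mem_T (z : ℕ → s.Z) (hz : ∀ n, z n ∈ T s.ι) :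
    ∃ τ ∈ T s.ι, ∃ φ : ℕ → ℕ, StrictMono φ ∧ Tendsto (fun n => z (φ n)) atTop (𝓝 τ) := by
  obtain ⟨τ, hτ, φ, hφ, h⟩ := s.isCompact_T.tendsto_subseq hz
  exact ⟨τ, hτ, φ, hφ, h⟩


end Sys

/-! #### clopen sets at a point -/

section clp

variable {s : Sys}

theorem RO.meas {U : Set s.Z} (h : RO s.ι U) : MeasurableSet U := by
  obtain ⟨O, hO, rfl⟩ := h
  exact hO.measurableSet.inter s.isClosed_T.measurableSet

theorem Clp.meas {η : s.Z} {U : Set s.Z} (h : Clp s.ι η U) : MeasurableSet U := h.ro.meas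

theorem Clp.sub {η : s.Z} {U : Set s.Z} (h : Clp s.ι η U) : U ⊆ T s.ι := h.ro.sub

theorem Clp.hh_add {η : s.Z} {U : Set s.Z} (h : Clp s.ι η U) (x : s.G) :
    hh s.ν U x + hh s.ν (cmp s.ι η U) x = 1 := by
  have hd : Disjoint U (cmp s.ι η U) := by
    rw [Set.disjoint_left]
    rintro z hz ⟨_, _, h3⟩
    exact h3 hz
  have h1 : (s.ν x).real (U ∪ cmp s.ι η U) = hh s.ν U x + hh s.ν (cmp s.ι η U) x :=
    measureReal_union hd h.ro'.meas
  rw [← h1]
  have h2 : s.ν x (U ∪ cmp s.ι η U)ᶜ = 0 := by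
    refine measure_mono_null (t := (T s.ι)ᶜ ∪ {η}) ?_ ?_
    · intro z hz
      simp only [mem_compl_iff, mem_union, cmp, mem_ofPred_eq, not_or, mem_singleton_iff] at hz ⊢
      by_contra hcon
      rw [not_or, not_not] at hcon
      exact hz.2 ⟨hcon.1, hcon.2, hz.1⟩
    · exact measure_union_null (s.harm.supp x) (s.harm.atomless x η)
  have h3 : MeasurableSet (U ∪ cmp s.ι η U) := h.meas.union h.ro'.meas
  have h4 := prob_compl_eq_zero_iff (μ := s.ν x) h3
  rw [h4] at h2
  simp [Measure.real, h2]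

/-- **crossing**: a connected set of vertices on which the mass of `U` crosses the level `1 - c`
contains a balanced vertex -/
theorem Sys.crossing {U : Set s.Z} (hU : MeasurableSet U) {Y : Set s.G} (hY : Conn s.S Y)
    {y0 y : s.G} (h0 : y0 ∈ Y) (h1 : y ∈ Y) {c : ℝ} (hc0 : hh s.ν U y0 ≤ 1 - c)
    (hc1 : 1 - c < hh s.ν U y) : ∃ x ∈ Y, x ∈ Bal s.ν (min c ((1 - c) / s.S.card)) U := by
  obtain ⟨a, b, k1, k2, k3, k4, k5⟩ := exists_step (P := fun z => hh s.ν U z ≤ 1 - c)
    (hY y0 h0 y h1) hc0 (not_le.2 hc1)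
  refine ⟨a, k2.2.1, ?_, ?_⟩
  · have := s.harnack k2.1 hU
    refine (min_le_right _ _).trans ?_
    rw [div_le_iff₀ s.card_pos, mul_comm]
    exact (not_le.1 k5).le.trans this
  · exact k4.trans (sub_le_sub_left (min_le_left _ _) _)

end clp

end Crest.Agent.R224
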