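import Crest.Agent.R224.Defs

/-!
Row 224, group half (helper912): sets whose wall has finitely many components (`FinC`):
complements, intersections, unions, pieces; components; connected walls from `H¹(X;𝔽₂)=0`.
The internal notions (`CConn`, `wall`, `wadj`, `FinComp`) are equivalent to those of `Defs`
(`Conn`, `bd`, `tstep`, `FinC`), see the end of the file.
-/

set_option autoImplicit false

namespace Crest.Agent.R224.FC

open Relation

variable {G : Type} [Group G]

variable {B : Finset G}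

theorem refl (hB : Std B) (x : G) : Adj B x x := by
  simpa [Adj] using hB.one

theorem symm (hB : Std B) {x y : G} (h : Adj B x y) : Adj B y x := by
  have := hB.inv _ h
  simpa [Adj, mul_inv_rev] using this


theorem adj_smul {x y : G} (g : G) : Adj B (g * x) (g * y) ↔ Adj B x y := by
  simp [Adj, mul_assoc]

/-- Adjacency inside a set. -/
def adjIn (B : Finset G) (A : Set G) (x y : G) : Prop := x ∈ A ∧ y ∈ A ∧ Adj B x y

/-- `A` is connected in the Rips graph (empty set allowed). -/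
def CConn (B : Finset G) (A : Set G) : Prop :=
  ∀ x ∈ A, ∀ y ∈ A, ReflTransGen (adjIn B A) x y

theorem adjIn_symm (hB : Std B) {A : Set G} {x y : G} (h : adjIn B A x y) :
    adjIn B A y x := ⟨h.2.1, h.1, symm hB h.2.2⟩

theorem rtg_symm {α : Type*} {r : α → α → Prop} (hr : ∀ {x y}, r x y → r y x) {x y : α}
    (h : ReflTransGen r x y) : ReflTransGen r y x := by
  induction h with
  | refl => exact .refl
  | tail _ h2 ih => exact ReflTransGen.head (hr h2) ih

theorem rtg_map {α β : Type*} {r : α → α → Prop} {s : β → β → Prop} (f : α → β)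
    (hf : ∀ x y, r x y → s (f x) (f y)) {x y : α} (h : ReflTransGen r x y) :
    ReflTransGen s (f x) (f y) := by
  induction h with
  | refl => exact .refl
  | tail _ h2 ih => exact ih.tail (hf _ _ h2)

theorem rtg_adjIn_symm (hB : Std B) {A : Set G} {x y : G}
    (h : ReflTransGen (adjIn B A) x y) : ReflTransGen (adjIn B A) y x :=
  rtg_symm (fun h => adjIn_symm hB h) h

theorem adjIn_mono {A A' : Set G} (hA : A ⊆ A') {x y : G} (h : adjIn B A x y) :
    adjIn B A' x y := ⟨hA h.1, hA h.2.1, h.2.2⟩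

theorem rtg_adjIn_mono {A A' : Set G} (hA : A ⊆ A') {x y : G}
    (h : ReflTransGen (adjIn B A) x y) : ReflTransGen (adjIn B A') x y :=
  rtg_map id (fun _ _ h => adjIn_mono hA h) h

/-- The whole group is connected. -/
theorem conn_univ (hB : Std B) : CConn B (Set.univ : Set G) := by
  have key : ∀ z : G, ∀ x : G, ReflTransGen (adjIn B (Set.univ : Set G)) x (x * z) := by
    intro z
    have hz : z ∈ Subgroup.closure (B : Set G) := by rw [hB.gen]; trivial
    induction hz using Subgroup.closure_induction with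
    | mem b hb =>
        intro x
        refine ReflTransGen.single ⟨trivial, trivial, ?_⟩
        simpa [Adj] using hb
    | one => intro x; simpa using ReflTransGen.refl
    | mul a b _ _ iha ihb =>
        intro x
        rw [← mul_assoc]
        exact (iha x).trans (ihb (x * a))
    | inv a _ ih =>
        intro x
        have := ih (x * a⁻¹)
        rw [inv_mul_cancel_right] at this
        exact rtg_adjIn_symm hB this
  intro x _ y _
  have := key (x⁻¹ * y) x
  simpa using this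

/-- Crossing edges of `A` (oriented from `A` to its complement). -/
def wall (B : Finset G) (A : Set G) : Set (G × G) :=
  {e | e.1 ∈ A ∧ e.2 ∉ A ∧ Adj B e.1 e.2}

/-- All four end points of two edges are pairwise adjacent. -/
def near (B : Finset G) (e e' : G × G) : Prop :=
  Adj B e.1 e'.1 ∧ Adj B e.1 e'.2 ∧ Adj B e.2 e'.1 ∧ Adj B e.2 e'.2

/-- Wall adjacency: two crossing edges of `A` all of whose end points are pairwise adjacent. -/
def wadj (B : Finset G) (A : Set G) (e e' : G × G) : Prop :=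
  e ∈ wall B A ∧ e' ∈ wall B A ∧ near B e e'

theorem near_symm (hB : Std B) {e e' : G × G} (h : near B e e') : near B e' e :=
  ⟨symm hB h.1, symm hB h.2.2.1, symm hB h.2.1, symm hB h.2.2.2⟩

theorem wadj_symm (hB : Std B) {A : Set G} {e e' : G × G} (h : wadj B A e e') :
    wadj B A e' e := ⟨h.2.1, h.1, near_symm hB h.2.2⟩

/-- `H¹(X;𝔽₂) = 0` for the Rips complex of scale `B`. -/
def TH1 (B : Finset G) : Prop :=
  ∀ ψ : G → G → ZMod 2,
    (∀ x y z, Adj B x y → Adj B y z → Adj B x z → ψ x y + ψ y z = ψ x z) →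
    ∃ E : G → ZMod 2, ∀ x y, Adj B x y → ψ x y = E x + E y

theorem zmod2_add_self (a : ZMod 2) : a + a = 0 := CharTwo.add_self_eq_zero a

theorem zmod2_eq_of_add_eq_zero {a b : ZMod 2} (h : a + b = 0) : a = b :=
  CharTwo.add_eq_zero.mp h

/-- On a connected set a function whose coboundary vanishes is constant. -/
theorem const_of_conn {A : Set G} (hA : CConn B A) {α : Type*} (E : G → α)
    (hE : ∀ x y, x ∈ A → y ∈ A → Adj B x y → E x = E y) :
    ∀ x ∈ A, ∀ y ∈ A, E x = E y := by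
  intro x hx y hy
  have := hA x hx y hy
  induction this with
  | refl => rfl
  | tail _ h2 ih => exact (ih h2.1).trans (hE _ _ h2.1 h2.2.1 h2.2.2)

open Classical in
/-- The wall of a connected set with connected complement is connected. -/
theorem wall_conn (hB : Std B) (h1 : TH1 B) {A : Set G} (hA : CConn B A) (hA' : CConn B Aᶜ) :
    ∀ e ∈ wall B A, ∀ e' ∈ wall B A, ReflTransGen (wadj B A) e e' := by
  intro e0 he0 e' he'
  set W : Set (G × G) := {e | e ∈ wall B A ∧ ReflTransGen (wadj B A) e0 e} with hW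
  set ψ : G → G → ZMod 2 := fun x y => if (x, y) ∈ W ∨ (y, x) ∈ W then 1 else 0 with hψ
  have hWw : ∀ {e}, e ∈ W → e ∈ wall B A := fun h => h.1
  have hstep : ∀ {e e'}, e ∈ W → wadj B A e e' → e' ∈ W := by
    intro e e' he h
    exact ⟨h.2.1, he.2.tail h⟩
  have hstep' : ∀ {e e'}, wadj B A e e' → (e ∈ W ↔ e' ∈ W) := by
    intro e e' h
    exact ⟨fun he => hstep he h, fun he => hstep he (wadj_symm hB h)⟩
  -- values of ψ
  have hψ_in : ∀ x y, x ∈ A → y ∈ A → ψ x y = 0 := by
    intro x y hx hy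
    simp only [hψ]
    rw [if_neg]
    rintro (h | h)
    · exact h.1.2.1 hy
    · exact h.1.2.1 hx
  have hψ_out : ∀ x y, x ∉ A → y ∉ A → ψ x y = 0 := by
    intro x y hx hy
    simp only [hψ]
    rw [if_neg]
    rintro (h | h)
    · exact hx h.1.1
    · exact hy h.1.1
  have hψ_symm : ∀ x y, ψ x y = ψ y x := by
    intro x y; simp only [hψ]; congr 1; exact propext or_comm
  have hψ_io : ∀ x y, x ∈ A → y ∉ A → ψ x y = if (x, y) ∈ W then 1 else 0 := by
    intro x y hx hy
    simp only [hψ]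
    congr 1
    refine propext ⟨?_, Or.inl⟩
    rintro (h | h)
    · exact h
    · exact absurd h.1.1 hy
  have hcyc : ∀ x y z, Adj B x y → Adj B y z → Adj B x z → ψ x y + ψ y z = ψ x z := by
    -- the two-crossing cases
    have hA2 : ∀ x y z, x ∈ A → y ∉ A → z ∉ A → Adj B x y → Adj B y z → Adj B x z →
        ψ x y = ψ x z := by
      intro x y z hx hy hz hxy hyz hxz
      rw [hψ_io x y hx hy, hψ_io x z hx hz]
      have : wadj B A (x, y) (x, z) :=
        ⟨⟨hx, hy, hxy⟩, ⟨hx, hz, hxz⟩, refl hB x, hxz, symm hB hxy, hyz⟩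
      congr 1
      exact propext (hstep' this)
    have hA1 : ∀ x y z, x ∉ A → y ∈ A → z ∈ A → Adj B x y → Adj B y z → Adj B x z →
        ψ x y = ψ x z := by
      intro x y z hx hy hz hxy hyz hxz
      rw [hψ_symm x y, hψ_symm x z, hψ_io y x hy hx, hψ_io z x hz hx]
      have : wadj B A (y, x) (z, x) :=
        ⟨⟨hy, hx, symm hB hxy⟩, ⟨hz, hx, symm hB hxz⟩, hyz, symm hB hxy, hxz, refl hB x⟩
      congr 1
      exact propext (hstep' this)
    intro x y z hxy hyz hxz
    by_cases hx : x ∈ A <;> by_cases hy : y ∈ A <;> by_cases hz : z ∈ A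
    · rw [hψ_in x y hx hy, hψ_in y z hy hz, hψ_in x z hx hz, add_zero]
    · rw [hψ_in x y hx hy, zero_add, hψ_symm y z, hψ_symm x z]
      exact hA1 z y x hz hy hx (symm hB hyz) (symm hB hxy) (symm hB hxz)
    · rw [hψ_in x z hx hz, hψ_symm x y, hA1 y x z hy hx hz (symm hB hxy) hxz hyz,
        zmod2_add_self]
    · rw [hψ_out y z hy hz, add_zero]
      exact hA2 x y z hx hy hz hxy hyz hxz
    · rw [hψ_in y z hy hz, add_zero]
      exact hA1 x y z hx hy hz hxy hyz hxz
    · rw [hψ_out x z hx hz, hψ_symm x y, hA2 y x z hy hx hz (symm hB hxy) hxz hyz,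
        zmod2_add_self]
    · rw [hψ_out x y hx hy, zero_add, hψ_symm y z, hψ_symm x z]
      exact hA2 z y x hz hy hx (symm hB hyz) (symm hB hxy) (symm hB hxz)
    · rw [hψ_out x y hx hy, hψ_out y z hy hz, hψ_out x z hx hz, add_zero]
  obtain ⟨E, hE⟩ := h1 ψ hcyc
  have hEA : ∀ x ∈ A, ∀ y ∈ A, E x = E y := by
    refine const_of_conn hA E ?_
    intro x y hx hy hxy
    have := hE x y hxy
    rw [hψ_in x y hx hy] at this
    exact zmod2_eq_of_add_eq_zero this.symm
  have hEA' : ∀ x ∈ Aᶜ, ∀ y ∈ Aᶜ, E x = E y := by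
    refine const_of_conn hA' E ?_
    intro x y hx hy hxy
    have := hE x y hxy
    rw [hψ_out x y hx hy] at this
    exact zmod2_eq_of_add_eq_zero this.symm
  have h0 : ψ e0.1 e0.2 = 1 := by
    rw [hψ_io _ _ he0.1 he0.2.1, if_pos]
    exact ⟨he0, ReflTransGen.refl⟩
  have h2 : ψ e'.1 e'.2 = 1 := by
    rw [hE _ _ he'.2.2, hEA _ he'.1 _ he0.1, hEA' _ he'.2.1 _ he0.2.1, ← hE _ _ he0.2.2, h0]
  rw [hψ_io _ _ he'.1 he'.2.1] at h2
  by_contra hcon
  rw [if_neg] at h2
  · exact zero_ne_one h2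
  · rintro ⟨_, h⟩
    exact hcon h

/-- The wall of `A` has finitely many components. -/
def FinComp (B : Finset G) (A : Set G) : Prop :=
  ∃ F : Finset (G × G), ∀ e ∈ wall B A, ∃ e0 ∈ F, e0 ∈ wall B A ∧ ReflTransGen (wadj B A) e0 e

theorem finComp_of_conn {A : Set G}
    (h : ∀ e ∈ wall B A, ∀ e' ∈ wall B A, ReflTransGen (wadj B A) e e') : FinComp B A := by
  classical
  by_cases hne : (wall B A).Nonempty
  · obtain ⟨e0, he0⟩ := hne
    exact ⟨{e0}, fun e he => ⟨e0, by simp, he0, h e0 he0 e he⟩⟩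
  · rw [Set.not_nonempty_iff_eq_empty] at hne
    exact ⟨∅, fun e he => by rw [hne] at he; exact absurd he (Set.notMem_empty e)⟩

theorem finComp_of_finite {A : Set G} (h : (wall B A).Finite) : FinComp B A := by
  classical
  refine ⟨h.toFinset, fun e he => ⟨e, by simpa using he, he, ReflTransGen.refl⟩⟩

theorem wall_compl (hB : Std B) (A : Set G) (e : G × G) :
    e ∈ wall B Aᶜ ↔ e.swap ∈ wall B A := by
  simp only [wall, Set.mem_ofPred_eq, Set.mem_compl_iff, not_not, Prod.fst_swap, Prod.snd_swap]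
  constructor
  · rintro ⟨h1, h2, h3⟩; exact ⟨h2, h1, symm hB h3⟩
  · rintro ⟨h1, h2, h3⟩; exact ⟨h2, h1, symm hB h3⟩

theorem near_swap {e e' : G × G} (h : near B e e') : near B e.swap e'.swap := by
  obtain ⟨h1, h2, h3, h4⟩ := h
  exact ⟨h4, h3, h2, h1⟩

theorem wadj_compl (hB : Std B) {A : Set G} {e e' : G × G} (h : wadj B A e e') :
    wadj B Aᶜ e.swap e'.swap := by
  refine ⟨(wall_compl hB A _).2 (by simpa using h.1), (wall_compl hB A _).2 (by simpa using h.2.1),
    near_swap h.2.2⟩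

theorem rtg_wadj_compl (hB : Std B) {A : Set G} {e e' : G × G}
    (h : ReflTransGen (wadj B A) e e') : ReflTransGen (wadj B Aᶜ) e.swap e'.swap :=
  rtg_map Prod.swap (fun _ _ h => wadj_compl hB h) h

theorem finComp_compl (hB : Std B) {A : Set G} (h : FinComp B A) : FinComp B Aᶜ := by
  classical
  obtain ⟨F, hF⟩ := h
  refine ⟨F.image Prod.swap, fun e he => ?_⟩
  obtain ⟨e0, he0, he0w, hr⟩ := hF e.swap ((wall_compl hB A e).1 he)
  refine ⟨e0.swap, Finset.mem_image_of_mem _ he0, (wall_compl hB A _).2 (by simpa using he0w), ?_⟩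
  simpa using rtg_wadj_compl hB hr






/-- `Y` is a union of components of `A`. -/
def IsPiece (B : Finset G) (A Y : Set G) : Prop :=
  Y ⊆ A ∧ ∀ x y, x ∈ Y → y ∈ A → Adj B x y → y ∈ Y




/-- The component of `x` in `A`. -/
def comp (B : Finset G) (A : Set G) (x : G) : Set G :=
  {y | y ∈ A ∧ ReflTransGen (adjIn B A) x y}

theorem isPiece_comp {A : Set G} (x : G) : IsPiece B A (comp B A x) := by
  refine ⟨fun y hy => hy.1, fun y z hy hz hyz => ⟨hz, hy.2.tail ⟨hy.1, hz, hyz⟩⟩⟩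

theorem mem_comp_self {A : Set G} {x : G} (hx : x ∈ A) : x ∈ comp B A x :=
  ⟨hx, ReflTransGen.refl⟩

theorem conn_comp (hB : Std B) {A : Set G} (x : G) : CConn B (comp B A x) := by
  have key : ∀ y, ReflTransGen (adjIn B A) x y → y ∈ A →
      x ∈ A ∧ ReflTransGen (adjIn B (comp B A x)) x y := by
    intro y hxy
    induction hxy with
    | refl => intro hx; exact ⟨hx, ReflTransGen.refl⟩
    | @tail b c hb hbc ih =>
        intro hc
        obtain ⟨hx, h2⟩ := ih hbc.1
        exact ⟨hx, h2.tail ⟨⟨hbc.1, hb⟩, ⟨hc, hb.tail hbc⟩, hbc.2.2⟩⟩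
  intro y hy z hz
  exact (rtg_adjIn_symm hB (key y hy.2 hy.1).2).trans (key z hz.2 hz.1).2

/-- A set with finitely many wall components has finitely many components (graph connected). -/
theorem finite_comps (hB : Std B) {A : Set G} (h : FinComp B A) :
    ∃ P : Finset G, (∀ p ∈ P, p ∈ A) ∧ ∀ x ∈ A, ∃ p ∈ P, ReflTransGen (adjIn B A) p x := by
  classical
  obtain ⟨F, hF⟩ := h
  refine ⟨(F.image Prod.fst ∪ {1}).filter (· ∈ A), fun p hp => (Finset.mem_filter.1 hp).2, ?_⟩
  intro x hx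
  -- walk from `x` towards `1`
  have hconn := conn_univ hB x trivial 1 trivial
  have key : ∀ z, ReflTransGen (adjIn B (Set.univ : Set G)) x z →
      (z ∈ A ∧ ReflTransGen (adjIn B A) x z) ∨
      ∃ e ∈ wall B A, ReflTransGen (adjIn B A) x e.1 := by
    intro z hz
    induction hz with
    | refl => exact Or.inl ⟨hx, ReflTransGen.refl⟩
    | @tail b c _ hbc ih =>
        rcases ih with ⟨hb, hr⟩ | h
        · by_cases hc : c ∈ A
          · exact Or.inl ⟨hc, hr.tail ⟨hb, hc, hbc.2.2⟩⟩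
          · exact Or.inr ⟨(b, c), ⟨hb, hc, hbc.2.2⟩, hr⟩
        · exact Or.inr h
  have wchain : ∀ {a b : G × G}, ReflTransGen (wadj B A) a b →
      ReflTransGen (adjIn B A) a.1 b.1 := by
    intro a b hab
    exact rtg_map Prod.fst (fun _ _ h => ⟨h.1.1, h.2.1.1, h.2.2.1⟩) hab
  rcases key 1 hconn with ⟨h1, hr⟩ | ⟨e, he, hr⟩
  · exact ⟨1, by simp [h1], rtg_adjIn_symm hB hr⟩
  · obtain ⟨e0, he0, he0w, hr'⟩ := hF e he
    refine ⟨e0.1, ?_, (wchain hr').trans (rtg_adjIn_symm hB hr)⟩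
    simp only [Finset.mem_filter, Finset.mem_union, Finset.mem_image]
    exact ⟨Or.inl ⟨e0, he0, rfl⟩, he0w.1⟩



/-! ### Adapters to `Defs` -/

theorem bd_iff (A : Set G) (e : G × G) : e ∈ bd B A ↔ e ∈ wall B A := by
  constructor
  · rintro ⟨h1, h2, h3⟩; exact ⟨h2, h3, h1⟩
  · rintro ⟨h1, h2, h3⟩; exact ⟨h3, h1, h2⟩

theorem bd_eq (A : Set G) : bd B A = wall B A := by
  ext e; exact bd_iff A e


theorem rtg_cst_iff {A : Set G} {x y : G} :
    ReflTransGen (fun a b => Adj B a b ∧ a ∈ A ∧ b ∈ A) x y ↔ ReflTransGen (adjIn B A) x y :=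
  ⟨fun h => rtg_map id (fun _ _ h => ⟨h.2.1, h.2.2, h.1⟩) h,
   fun h => rtg_map id (fun _ _ h => ⟨h.2.2, h.1, h.2.1⟩) h⟩

theorem conn_iff {A : Set G} : Conn B A ↔ CConn B A :=
  ⟨fun h x hx y hy => rtg_cst_iff.1 (h x hx y hy), fun h x hx y hy => rtg_cst_iff.2 (h x hx y hy)⟩

/-- The step relation used in `Defs.FinC`. -/
def wst (B : Finset G) (A : Set G) (a b : G × G) : Prop := tstep B a b ∧ a ∈ bd B A ∧ b ∈ bd B A

theorem wadj_of_wst (hB : Std B) {A : Set G} {e e' : G × G} (h : wst B A e e') :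
    wadj B A e e' := by
  obtain ⟨h1, h2, h3⟩ := h
  rw [bd_iff] at h2 h3
  refine ⟨h2, h3, ?_⟩
  rcases h1 with ⟨h1, h4⟩ | ⟨h1, h4⟩
  · refine ⟨?_, ?_, ?_, h4⟩
    · rw [h1]; exact refl hB _
    · rw [h1]; exact h3.2.2
    · rw [← h1]; exact symm hB h2.2.2
  · refine ⟨h4, ?_, ?_, ?_⟩
    · rw [← h1]; exact h2.2.2
    · rw [h1]; exact symm hB h3.2.2
    · rw [h1]; exact refl hB _

theorem rtg_wst_of_wadj (hB : Std B) {A : Set G} {e e' : G × G} (h : wadj B A e e') :
    ReflTransGen (wst B A) e e' := by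
  obtain ⟨h1, h2, h3⟩ := h
  have hm : (e.1, e'.2) ∈ bd B A := ⟨h3.2.1, h1.1, h2.2.1⟩
  have s1 : wst B A e (e.1, e'.2) :=
    ⟨Or.inl ⟨rfl, h3.2.2.2⟩, (bd_iff A e).2 h1, hm⟩
  have s2 : wst B A (e.1, e'.2) e' := ⟨Or.inr ⟨rfl, h3.1⟩, hm, (bd_iff A e').2 h2⟩
  exact (ReflTransGen.single s1).tail s2

theorem rtg_wst_iff (hB : Std B) {A : Set G} {e e' : G × G} :
    ReflTransGen (wst B A) e e' ↔ ReflTransGen (wadj B A) e e' := by
  constructor
  · intro h
    exact rtg_map id (fun _ _ h => wadj_of_wst hB h) h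
  · intro h
    induction h with
    | refl => exact .refl
    | tail _ h2 ih => exact ih.trans (rtg_wst_of_wadj hB h2)

theorem finC_iff (hB : Std B) {A : Set G} : FinC B A ↔ FinComp B A := by
  classical
  constructor
  · rintro ⟨F, hF, hFs, h⟩
    refine ⟨hF.toFinset, fun e he => ?_⟩
    obtain ⟨q, hq, hr⟩ := h e ((bd_iff A e).2 he)
    exact ⟨q, by simpa using hq, (bd_iff A q).1 (hFs hq), (rtg_wst_iff hB).1 hr⟩
  · rintro ⟨F, h⟩
    refine ⟨{e | e ∈ F ∧ e ∈ bd B A}, F.finite_toSet.subset (fun e he => he.1),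
      fun e he => he.2, fun p hp => ?_⟩
    obtain ⟨q, hq, hqw, hr⟩ := h p ((bd_iff A p).1 hp)
    exact ⟨q, ⟨hq, (bd_iff A q).2 hqw⟩, (rtg_wst_iff hB).2 hr⟩

/-- The wall of a connected set with connected complement is connected (`tstep`-chains). -/
theorem bd_conn (hB : TopHyp B) {A : Set G} (hA : Conn B A) (hA' : Conn B Aᶜ) :
    ∀ e ∈ bd B A, ∀ e' ∈ bd B A,
      ReflTransGen (fun a b => tstep B a b ∧ a ∈ bd B A ∧ b ∈ bd B A) e e' := by
  intro e he e' he'
  exact (rtg_wst_iff hB.toStd).2 (wall_conn hB.toStd hB.h1 (conn_iff.1 hA) (conn_iff.1 hA')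
    e ((bd_iff A e).1 he) e' ((bd_iff A e').1 he'))

theorem finC_of_conn (hB : TopHyp B) {A : Set G} (hA : Conn B A) (hA' : Conn B Aᶜ) : FinC B A := by
  rw [finC_iff hB.toStd]
  exact finComp_of_conn (wall_conn hB.toStd hB.h1 (conn_iff.1 hA) (conn_iff.1 hA'))

theorem finC_of_finite (hB : Std B) {A : Set G} (h : (bd B A).Finite) : FinC B A := by
  rw [finC_iff hB]; rw [bd_eq] at h; exact finComp_of_finite h

theorem finC_compl (hB : Std B) {A : Set G} (h : FinC B A) : FinC B Aᶜ := by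
  rw [finC_iff hB] at *; exact finComp_compl hB h




theorem finite_components (hB : Std B) {A : Set G} (h : FinC B A) :
    ∃ P : Finset G, (∀ p ∈ P, p ∈ A) ∧
      ∀ x ∈ A, ∃ p ∈ P, ReflTransGen (fun a b => Adj B a b ∧ a ∈ A ∧ b ∈ A) p x := by
  rw [finC_iff hB] at h
  obtain ⟨P, hP, h2⟩ := finite_comps hB h
  refine ⟨P, hP, fun x hx => ?_⟩
  obtain ⟨p, hp, hr⟩ := h2 x hx
  exact ⟨p, hp, rtg_cst_iff.2 hr⟩

end Crest.Agent.R224.FC
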