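/-
R224 / S0346 : node NSide (types of vertices near a point of the block).   helper876
-/
import Crest.Agent.R224.Iface

set_option autoImplicit false

noncomputable section

open MeasureTheory Set Filter Topology

namespace Crest.Agent.R224

namespace SideAux

variable (s : Sys)

theorem isOpen_range : IsOpen (Set.range s.ι) := by
  have : Set.range s.ι = ⋃ g : s.G, ({s.ι g} : Set s.Z) := by
    ext z; simp [eq_comm]
  rw [this]
  exact isOpen_iUnion fun g => s.bdry.isol g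

theorem isClosed_T : IsClosed (T s.ι) := (isOpen_range s).isClosed_compl

theorem ro_meas {U : Set s.Z} (h : RO s.ι U) : MeasurableSet U := by
  obtain ⟨O, hO, rfl⟩ := h
  exact hO.measurableSet.inter (isClosed_T s).measurableSet


/-- finitely many vertices stay away from a point of the boundary -/
theorem away (K : Finset s.G) {θ : s.Z} (hθ : θ ∈ T s.ι) :
    ∃ ρ : ℝ, 0 < ρ ∧ ∀ x : s.G, dist (s.ι x) θ < ρ → x ∉ K := by
  have hc : IsClosed (s.ι '' (K : Set s.G)) := (K.finite_toSet.image _).isClosed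
  have hn : θ ∉ s.ι '' (K : Set s.G) := by
    rintro ⟨g, -, rfl⟩
    exact hθ ⟨g, rfl⟩
  obtain ⟨ρ, hρ, hb⟩ := Metric.isOpen_iff.1 hc.isOpen_compl θ hn
  refine ⟨ρ, hρ, fun x hx hxK => ?_⟩
  exact hb (Metric.mem_ball.2 hx) ⟨x, hxK, rfl⟩

/-- concentration: a set which misses a neighbourhood of `u` in `T` has small mass near `u` -/
theorem conc_near {W W' : Set s.Z} (hW : RO s.ι W) {u : s.Z} (hu : u ∈ W) (hd : Disjoint W W')
    (hT : W' ⊆ T s.ι) {δ : ℝ} (hδ : 0 < δ) :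
    ∃ ρ : ℝ, 0 < ρ ∧ ∀ x : s.G, dist (s.ι x) u < ρ → hh s.ν W' x < δ := by
  obtain ⟨O, hO, rfl⟩ := hW
  obtain ⟨ρ, hρ, hb⟩ := Metric.isOpen_iff.1 hO u hu.1
  set e : ℝ := min (ρ / 2) (δ / 2) with he
  have he0 : 0 < e := lt_min (by linarith) (by linarith)
  obtain ⟨K, hK⟩ := s.harm.conc e he0
  obtain ⟨ρ', hρ', hK'⟩ := away s K hu.2
  refine ⟨min ρ' (ρ / 2), lt_min hρ' (by linarith), fun x hx => ?_⟩
  have h1 : x ∉ K := hK' x (hx.trans_le (min_le_left _ _))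
  have h2 : dist (s.ι x) u < ρ / 2 := hx.trans_le (min_le_right _ _)
  have := s.harm.prob x
  have hsub : W' ⊆ {z | e ≤ dist z (s.ι x)} := by
    intro z hz
    have hzT := hT hz
    have hzO : z ∉ O := fun h => (Set.disjoint_left.1 hd) ⟨h, hzT⟩ hz
    have : ρ ≤ dist z u := by
      by_contra hcon
      exact hzO (hb (Metric.mem_ball.2 (not_le.1 hcon)))
    have h3 : dist z u ≤ dist z (s.ι x) + dist (s.ι x) u := dist_triangle _ _ _
    have : ρ / 2 ≤ dist z (s.ι x) := by linarith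
    exact (min_le_left _ _).trans this
  calc hh s.ν W' x ≤ (s.ν x).real {z | e ≤ dist z (s.ι x)} := measureReal_mono hsub
    _ ≤ e := hK x h1
    _ ≤ δ / 2 := min_le_right _ _
    _ < δ := by linarith

theorem card_pos : 0 < (s.S.card : ℝ) := by
  have : 0 < s.S.card := Finset.card_pos.2 ⟨1, s.top.one⟩
  exact_mod_cast this

theorem one_le_card : (1 : ℝ) ≤ (s.S.card : ℝ) := by
  have : 0 < s.S.card := Finset.card_pos.2 ⟨1, s.top.one⟩
  exact_mod_cast this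

/-- Harnack, one step -/
theorem harnack1 {A : Set s.Z} (hA : MeasurableSet A) (x : s.G) {u : s.G} (hu : u ∈ s.S) :
    hh s.ν A (x * u) ≤ (s.S.card : ℝ) * hh s.ν A x := by
  have h := s.harm.harm x A hA
  unfold Pop at h
  unfold hh
  rw [h, mul_div_cancel₀ _ (card_pos s).ne']
  exact Finset.single_le_sum (f := fun t => (s.ν (x * t)).real A)
    (fun t _ => measureReal_nonneg) hu

/-- Harnack, one step backwards -/
theorem harnack1' {A : Set s.Z} (hA : MeasurableSet A) (x : s.G) {u : s.G} (hu : u ∈ s.S) :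
    hh s.ν A x ≤ (s.S.card : ℝ) * hh s.ν A (x * u) := by
  have := harnack1 s hA (x * u) (s.top.inv u hu)
  rwa [mul_inv_cancel_right] at this

theorem harnack2' {A : Set s.Z} (hA : MeasurableSet A) (x : s.G) {u v : s.G} (hu : u ∈ s.S)
    (hv : v ∈ s.S) : hh s.ν A x ≤ (s.S.card : ℝ) ^ 2 * hh s.ν A (x * u * v) := by
  calc hh s.ν A x ≤ (s.S.card : ℝ) * hh s.ν A (x * u) := harnack1' s hA x hu
    _ ≤ (s.S.card : ℝ) * ((s.S.card : ℝ) * hh s.ν A (x * u * v)) :=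
        mul_le_mul_of_nonneg_left (harnack1' s hA _ hv) (card_pos s).le
    _ = _ := by ring

/-! ### saturation -/

variable {s}

theorem sat_mono {a b : s.Z} {A B : Set s.Z} (h : A ⊆ B) : sat s.ι a b A ⊆ sat s.ι a b B := by
  rintro z (⟨h1, h2⟩ | ⟨η, h1, h2, h3, h4⟩)
  · exact Or.inl ⟨h h1, h2⟩
  · exact Or.inr ⟨η, h1, h h2, h3, h4⟩

theorem Dn_sub_T {a b η : s.Z} : Dn s.ι a b η ⊆ T s.ι := fun _ h => h.1

theorem sat_sub_T {a b : s.Z} {A : Set s.Z} : sat s.ι a b A ⊆ T s.ι := by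
  rintro z (⟨h1, h2⟩ | ⟨η, h1, h2, h3, h4⟩)
  · exact h2.1
  · exact Dn_sub_T h4

theorem sat_mem {a b : s.Z} {A : Set s.Z} {z : s.Z} (h : z ∈ A) (hB : z ∈ Blk s.ι a b) :
    z ∈ sat s.ι a b A := Or.inl ⟨h, hB⟩

theorem sat_disj (hP : NPart s) {a b : s.Z} (hab : Unsep s.ι a b) {A B : Set s.Z}
    (h : Disjoint A B) : Disjoint (sat s.ι a b A) (sat s.ι a b B) := by
  obtain ⟨-, -, -, h4, h5, -⟩ := hP a b hab
  rw [Set.disjoint_left] at h ⊢
  rintro z (⟨h1, h2⟩ | ⟨η, k1, k2, k3, k4⟩) (⟨h1', h2'⟩ | ⟨η', k1', k2', k3', k4'⟩)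
  · exact h h1 h1'
  · exact Set.disjoint_left.1 (h4 η' k1' k3').2.2 k4' h2
  · exact Set.disjoint_left.1 (h4 η k1 k3).2.2 k4 h2'
  · by_cases he : η = η'
    · subst he; exact h k2 k2'
    · exact Set.disjoint_left.1 (h5 η η' k1 k3 k1' k3' he) k4 k4'

theorem sat_nocut {a b : s.Z} {K : Set s.Z} (hK : ∀ η ∈ K, ¬ IsCut s.ι η) :
    sat s.ι a b K ⊆ K := by
  rintro z (⟨h1, h2⟩ | ⟨η, h1, h2, h3, h4⟩)
  · exact h1
  · exact absurd h1 (hK η h2)


/-- a point of `sat A` and its base point -/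
theorem sat_base {a b : s.Z} {A : Set s.Z} {z : s.Z} (h : z ∈ sat s.ι a b A) :
    ∃ u ∈ A, u ∈ Blk s.ι a b ∧ ∀ B : Set s.Z, u ∈ B → z ∈ sat s.ι a b B := by
  rcases h with ⟨h1, h2⟩ | ⟨η, h1, h2, h3, h4⟩
  · exact ⟨z, h1, h2, fun B hB => Or.inl ⟨hB, h2⟩⟩
  · exact ⟨η, h2, h3, fun B hB => Or.inr ⟨η, h1, hB, h3, h4⟩⟩

variable (s) in
/-- a partition of the block: the hypotheses of `NSide` -/
structure Prt (a b : s.Z) (K U V : Set s.Z) : Prop where
  kc : IsClosed K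
  kb : K ⊆ Blk s.ι a b
  knc : ∀ η ∈ K, ¬ IsCut s.ι η
  knull : ∀ x, hh s.ν K x = 0
  uo : ∃ O, IsOpen O ∧ O ∩ Blk s.ι a b = U
  vo : ∃ O, IsOpen O ∧ O ∩ Blk s.ι a b = V
  disj : Disjoint U V
  un : U ∪ V = Blk s.ι a b \ K

theorem Prt.symm {a b : s.Z} {K U V : Set s.Z} (h : Prt s a b K U V) : Prt s a b K V U :=
  ⟨h.kc, h.kb, h.knc, h.knull, h.vo, h.uo, h.disj.symm, by rw [union_comm]; exact h.un⟩

theorem ro_sat (hR : NRetr s) {a b : s.Z} (hab : Unsep s.ι a b) {U : Set s.Z}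
    (hU : ∃ O, IsOpen O ∧ O ∩ Blk s.ι a b = U) : RO s.ι (sat s.ι a b U) := by
  obtain ⟨O, hO, rfl⟩ := hU
  exact hR a b hab O hO

theorem ro_sat_diff (hR : NRetr s) {a b : s.Z} (hab : Unsep s.ι a b) {U : Set s.Z}
    (hU : ∃ O, IsOpen O ∧ O ∩ Blk s.ι a b = U) (p : s.Z) : RO s.ι (sat s.ι a b (U \ {p})) := by
  refine ro_sat hR hab ?_
  obtain ⟨O, hO, rfl⟩ := hU
  refine ⟨O \ {p}, hO.sdiff isClosed_singleton, ?_⟩
  ext z; simp only [mem_inter_iff, Set.mem_sdiff, mem_singleton_iff]; tauto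

/-- no step between types -/
theorem no_step (hR : NRetr s) {a b : s.Z} (hab : Unsep s.ι a b) {c3 δ : ℝ} (hδ : 0 < δ)
    (hc : (1 + (s.S.card : ℝ) ^ 2) * δ < c3) {K U V : Set s.Z} (hp : Prt s a b K U V)
    {x y : s.G} (hx : ∀ p q : s.Z, c3 ≤ hh s.ν (sat s.ι a b (Blk s.ι a b \ {p, q})) x)
    (hxy : x = y ∨ ∃ u ∈ s.S, ∃ v ∈ s.S, y = x * u * v)
    {p q : s.Z} (h1 : hh s.ν (sat s.ι a b (U \ {p})) x < δ)
    (h2 : hh s.ν (sat s.ι a b (V \ {q})) y < δ) : False := by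
  have h2' : hh s.ν (sat s.ι a b (V \ {q})) x < (s.S.card : ℝ) ^ 2 * δ := by
    have hm := ro_meas s (ro_sat_diff hR hab hp.vo q)
    have hc1 := one_le_card s
    have hc2 : (1 : ℝ) ≤ (s.S.card : ℝ) ^ 2 := one_le_pow₀ hc1
    rcases hxy with rfl | ⟨u, hu, v, hv, rfl⟩
    · nlinarith
    · calc _ ≤ (s.S.card : ℝ) ^ 2 * hh s.ν (sat s.ι a b (V \ {q})) (x * u * v) :=
            harnack2' s hm x hu hv
        _ < (s.S.card : ℝ) ^ 2 * δ := by
            apply mul_lt_mul_of_pos_left h2 (by positivity)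
  have hsub : sat s.ι a b (Blk s.ι a b \ {p, q}) ⊆
      sat s.ι a b (U \ {p}) ∪ sat s.ι a b (V \ {q}) ∪ K := by
    intro z hz
    obtain ⟨w, hw, hwB, hw'⟩ := sat_base hz
    have hwp : w ≠ p := fun h => hw.2 (by simp [h])
    have hwq : w ≠ q := fun h => hw.2 (by simp [h])
    by_cases hK : w ∈ K
    · exact Or.inr (sat_nocut hp.knc (hw' K hK))
    · have : w ∈ U ∪ V := by rw [hp.un]; exact ⟨hwB, hK⟩
      rcases this with h | h
      · exact Or.inl (Or.inl (hw' _ ⟨h, by simpa using hwp⟩))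
      · exact Or.inl (Or.inr (hw' _ ⟨h, by simpa using hwq⟩))
  have := s.harm.prob x
  have h3 : hh s.ν (sat s.ι a b (Blk s.ι a b \ {p, q})) x ≤
      hh s.ν (sat s.ι a b (U \ {p})) x + hh s.ν (sat s.ι a b (V \ {q})) x + hh s.ν K x := by
    unfold hh
    calc _ ≤ _ := measureReal_mono hsub
      _ ≤ _ := measureReal_union_le _ _
      _ ≤ _ := by gcongr; exact measureReal_union_le _ _
  rw [hp.knull x] at h3
  have := hx p q
  linarith

/-- one half of the statement -/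
theorem half (hP : NPart s) (hR : NRetr s) (hX : NXB s)
    {a b : s.Z} (hab : Unsep s.ι a b) {c3 δ : ℝ} (hδ : 0 < δ)
    (hc : (1 + (s.S.card : ℝ) ^ 2) * δ < c3)
    (hsp : ∀ x ∈ XB s.ι s.ν a b s.c0, ∀ p q : s.Z,
      c3 ≤ hh s.ν (sat s.ι a b (Blk s.ι a b \ {p, q})) x)
    {θ : s.Z} {ε : ℝ} {d1 : ℝ}
    (hd1 : ∀ x ∈ XB s.ι s.ν a b s.c0, dist (s.ι x) θ < d1 → ∀ δ' : ℝ, 0 < δ' →
      ∃ x', dist (s.ι x') θ < δ' ∧
      s.Path2 (XB s.ι s.ν a b s.c0 ∩ {y | dist (s.ι y) θ < ε}) x x')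
    {K U V : Set s.Z} (hp : Prt s a b K U V)
    (hW : ∀ x ∈ XB s.ι s.ν a b s.c0, dist (s.ι x) θ < ε → ¬ s.WB a b δ U V x)
    (hθV : θ ∈ V) {u : s.Z} (hu : dist u θ < d1) (huU : u ∈ U) : False := by
  have hUB : U ⊆ Blk s.ι a b := by
    intro z hz
    have : z ∈ Blk s.ι a b \ K := by rw [← hp.un]; exact Or.inl hz
    exact this.1
  have hVB : V ⊆ Blk s.ι a b := by
    intro z hz
    have : z ∈ Blk s.ι a b \ K := by rw [← hp.un]; exact Or.inr hz
    exact this.1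
  have hUo := ro_sat hR hab hp.uo
  have hVo := ro_sat hR hab hp.vo
  have hdis := sat_disj hP hab hp.disj
  obtain ⟨ρ1, hρ1, h1⟩ := conc_near s hUo (sat_mem huU (hUB huU)) hdis sat_sub_T hδ
  obtain ⟨ρ2, hρ2, h2⟩ := conc_near s hVo (sat_mem hθV (hVB hθV)) hdis.symm sat_sub_T hδ
  obtain ⟨x, hxX, hx⟩ := (hX a b hab).2.1 u (hUB huU) (min ρ1 (d1 - dist u θ))
    (lt_min hρ1 (by linarith))
  have hx1 : hh s.ν (sat s.ι a b V) x < δ := h1 x (hx.trans_le (min_le_left _ _))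
  have hx2 : dist (s.ι x) θ < d1 := by
    have := dist_triangle (s.ι x) u θ
    have := hx.trans_le (min_le_right ρ1 (d1 - dist u θ))
    linarith
  obtain ⟨x', hx', hpath⟩ := hd1 x hxX hx2 ρ2 hρ2
  have hx'1 : hh s.ν (sat s.ι a b U) x' < δ := h2 x' hx'
  have := s.harm.prob
  -- propagate along the path
  have key : ∀ y, s.Path2 (XB s.ι s.ν a b s.c0 ∩ {y | dist (s.ι y) θ < ε}) x y →
      y ∈ XB s.ι s.ν a b s.c0 ∧ ∃ q, hh s.ν (sat s.ι a b (V \ {q})) y < δ := by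
    intro y hy
    induction hy with
    | refl =>
      exact ⟨hxX, θ, (measureReal_mono (sat_mono sdiff_subset)).trans_lt hx1⟩
    | @tail y1 y2 _ hstep ih =>
      obtain ⟨⟨w, hw, v, hv, rfl⟩, hy1, hy2⟩ := hstep
      refine ⟨hy2.1, ?_⟩
      by_contra hcon
      have hnw := hW _ hy2.1 hy2.2
      apply hnw
      push Not at hcon
      intro p
      refine ⟨?_, hcon p⟩
      by_contra hlt
      obtain ⟨-, q, hq⟩ := ih
      exact no_step hR hab hδ hc hp.symm (hsp y1 hy1.1) (Or.inr ⟨w, hw, v, hv, rfl⟩) hq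
        (not_le.1 hlt)
  obtain ⟨hx'X, q, hq⟩ := key x' hpath
  exact no_step hR hab hδ hc hp.symm (hsp x' hx'X) (Or.inl rfl) hq
    ((measureReal_mono (sat_mono sdiff_subset)).trans_lt hx'1 : 
      hh s.ν (sat s.ι a b (U \ {θ})) x' < δ)

end SideAux

open SideAux in
theorem nSide (s : Sys) (hP : NPart s) (hR : NRetr s) (hX : NXB s) : NSide s := by
  intro a b hab c3 δ hδ hc hsp θ hθ ε hε
  obtain ⟨d1, hd1, hd⟩ := (hX a b hab).2.2 θ hθ ε hε
  have hRO := hR a b hab (Metric.ball θ (min d1 ε)) Metric.isOpen_ball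
  have hθT : θ ∈ T s.ι := hθ.1
  obtain ⟨O, hO, hOe⟩ := hRO
  have hθO : θ ∈ O := by
    have : θ ∈ sat s.ι a b (Metric.ball θ (min d1 ε) ∩ Blk s.ι a b) :=
      sat_mem ⟨Metric.mem_ball_self (lt_min hd1 hε), hθ⟩ hθ
    rw [← hOe] at this
    exact this.1
  obtain ⟨r, hr, hball⟩ := Metric.isOpen_iff.1 hO θ hθO
  refine ⟨r, hr, ?_⟩
  intro K U V hKc hKB hKn hK0 hU hV hUV hun hKθ hW
  have hp : Prt s a b K U V := ⟨hKc, hKB, hKn, hK0, hU, hV, hUV, hun⟩
  have hθK : θ ∉ K := fun h => by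
    have := hKθ θ h
    rw [dist_self] at this
    linarith
  have base : ∀ z ∈ T s.ι, dist z θ < r → ∃ u ∈ U ∪ V, dist u θ < d1 ∧ ∀ B : Set s.Z, u ∈ B →
      z ∈ sat s.ι a b B := by
    intro z hz hzr
    have : z ∈ sat s.ι a b (Metric.ball θ (min d1 ε) ∩ Blk s.ι a b) := by
      rw [← hOe]; exact ⟨hball hzr, hz⟩
    obtain ⟨u, hu, huB, hu'⟩ := sat_base this
    have hu1 : dist u θ < min d1 ε := hu.1
    refine ⟨u, ?_, hu1.trans_le (min_le_left _ _), hu'⟩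
    rw [hun]
    refine ⟨huB, fun hK => ?_⟩
    have := hKθ u hK
    have := hu1.trans_le (min_le_right _ _)
    linarith
  have hθUV : θ ∈ U ∪ V := by rw [hun]; exact ⟨hθ, hθK⟩
  rcases hθUV with h | h
  · left
    intro z hz hzr
    obtain ⟨u, hu, hud, hu'⟩ := base z hz hzr
    rcases hu with hu | hu
    · exact hu' U hu
    · exfalso
      refine half hP hR hX hab hδ hc hsp hd hp.symm ?_ h hud hu
      intro x hx hxε hwb
      exact hW x hx hxε fun p => ⟨(hwb p).2, (hwb p).1⟩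
  · right
    intro z hz hzr
    obtain ⟨u, hu, hud, hu'⟩ := base z hz hzr
    rcases hu with hu | hu
    · exfalso
      exact half hP hR hX hab hδ hc hsp hd hp hW h hud hu
    · exact hu' V hu

end Crest.Agent.R224
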