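import Crest.Agent.R224.FinalBase
import Crest.Agent.R224.DBas
import Crest.Agent.R224.Side
import Crest.Agent.R224.Iface
import Crest.Agent.R224.FinC

-- ▼ part R224/Final
section

set_option autoImplicit false

noncomputable section

open MeasureTheory Set Filter Topology

namespace Crest.Agent.R224

namespace Fin276

variable {s : Sys} {a b : s.Z}

theorem c0_pos (s : Sys) : 0 < s.c0 := by
  have := s.card_pos
  unfold Sys.c0
  positivity

theorem Part_symm {K U V : Set s.Z} (P : Part s a b K U V) : Part s a b K V U :=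
  ⟨P.cl, P.sub, P.nocut, P.null, P.roV, P.roU, P.dis.symm, by rw [Set.union_comm]; exact P.un⟩

theorem Part_ro (hR : NRetr s) (hu : Unsep s.ι a b) {K U V : Set s.Z} (P : Part s a b K U V) :
    RO s.ι (sat s.ι a b U) := by
  obtain ⟨O, hO, hOU⟩ := P.roU
  rw [← hOU]
  exact hR a b hu O hO

theorem sat_diff_meas (hR : NRetr s) (hu : Unsep s.ι a b) {U : Set s.Z} (hU : ROB s a b U)
    (p : s.Z) : MeasurableSet (sat s.ι a b (U \ {p})) := by
  obtain ⟨O, hO, hOU⟩ := hU
  have : U \ {p} = (O ∩ {p}ᶜ) ∩ Blk s.ι a b := by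
    rw [← hOU]; ext z; simp only [Set.mem_sdiff, mem_inter_iff, mem_singleton_iff, mem_compl_iff]; tauto
  rw [this]
  exact (hR a b hu (O ∩ {p}ᶜ) (hO.inter isOpen_compl_singleton)).meas

/-- Fact A -/
theorem factA (hP : NPart s) (hR : NRetr s) (hu : Unsep s.ι a b) {K U V : Set s.Z}
    (P : Part s a b K U V) {δ : ℝ} (hδ : 0 < δ) (ζ : s.Z) {r : ℝ} (hK : ∀ z ∈ K, dist z ζ < r) :
    {x | x ∈ XB s.ι s.ν a b s.c0 ∧ s.WB a b δ U V x ∧ r ≤ dist (s.ι x) ζ}.Finite := by
  by_contra hinf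
  have hinf' : {x | x ∈ XB s.ι s.ν a b s.c0 ∧ s.WB a b δ U V x ∧ r ≤ dist (s.ι x) ζ}.Infinite :=
    hinf
  let x := hinf'.natEmbedding
  obtain ⟨τ, hτ, φ, hφ, hlim⟩ := s.subseq_T (fun n => (x n : s.G)) (by
    intro g
    refine Set.Subsingleton.finite ?_
    intro m hm n hn
    apply x.injective
    apply Subtype.ext
    exact (show (x m : s.G) = g from hm).trans (show (x n : s.G) = g from hn).symm)
  have h1 : r ≤ dist τ ζ :=
    ge_of_tendsto (hlim.dist tendsto_const_nhds) (Eventually.of_forall fun n => (x (φ n)).2.2.2)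
  rcases P.cover hP hu hτ with h | h | h
  · obtain ⟨ρ, hρ, hc⟩ := SideAux.conc_near s (Part_ro hR hu P) h (sat_disj hP hu P.dis)
      sat_sub_T hδ
    obtain ⟨n, hn⟩ := (Metric.tendsto_nhds.1 hlim ρ hρ).exists
    have h2 := hc _ hn
    have h3 := ((x (φ n)).2.2.1 ζ).2
    have h4 := s.hh_mono (sat_mono (s := s) (a := a) (b := b) (Set.sdiff_subset (s := V) (t := {ζ})))
      (x (φ n) : s.G)
    linarith
  · obtain ⟨ρ, hρ, hc⟩ := SideAux.conc_near s (Part_ro hR hu (Part_symm P)) h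
      (sat_disj hP hu P.dis.symm) sat_sub_T hδ
    obtain ⟨n, hn⟩ := (Metric.tendsto_nhds.1 hlim ρ hρ).exists
    have h2 := hc _ hn
    have h3 := ((x (φ n)).2.2.1 ζ).1
    have h4 := s.hh_mono (sat_mono (s := s) (a := a) (b := b) (Set.sdiff_subset (s := U) (t := {ζ})))
      (x (φ n) : s.G)
    linarith
  · exact absurd (hK τ h) (not_lt.2 h1)

theorem exists_D (hP : NPart s) (hu : Unsep s.ι a b) (k : s.Z) :
    ∃ D : Set s.Z, RO s.ι D ∧ (∀ A : Set s.Z, k ∉ A → Disjoint (sat s.ι a b A) D) ∧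
      ∀ θ ∈ T s.ι, θ ≠ k → θ ∉ D →
        ∃ u ∈ Blk s.ι a b, u ≠ k ∧ ∀ A, θ ∈ sat s.ι a b A ↔ u ∈ A := by
  by_cases hc : IsCut s.ι k ∧ k ∈ Blk s.ι a b
  · refine ⟨Dn s.ι a b k, ((hP a b hu).2.2.2.1 k hc.1 hc.2).1.ro, ?_, ?_⟩
    · intro A hA
      rw [Set.disjoint_right]
      intro z hz hz'
      exact hA ((mem_sat_Dn hP hu hc.1 hc.2 hz).1 hz')
    · intro θ hθ hne hD
      rcases (hP a b hu).2.2.2.2.2 θ hθ with h | ⟨η, h1, h2, h3⟩
      · exact ⟨θ, h, hne, fun A => mem_sat_blk hP hu h⟩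
      · refine ⟨η, h2, ?_, fun A => mem_sat_Dn hP hu h1 h2 h3⟩
        rintro rfl
        exact hD h3
  · refine ⟨∅, ⟨∅, isOpen_empty, by simp⟩, fun A _ => Set.disjoint_empty _, ?_⟩
    intro θ hθ hne _
    rcases (hP a b hu).2.2.2.2.2 θ hθ with h | ⟨η, h1, h2, h3⟩
    · exact ⟨θ, h, hne, fun A => mem_sat_blk hP hu h⟩
    · refine ⟨η, h2, ?_, fun A => mem_sat_Dn hP hu h1 h2 h3⟩
      rintro rfl
      exact hc ⟨h1, h2⟩

theorem small_ball (y : s.G) (k : s.Z) {δ : ℝ} (hδ : 0 < δ) :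
    ∃ ρ : ℝ, 0 < ρ ∧ (s.ν y).real (Metric.ball k ρ) < δ := by
  have h0 : s.ν y {k} = 0 := s.harm.atomless y k
  obtain ⟨O, hkO, hO, hlt⟩ := Set.exists_isOpen_lt_of_lt (μ := s.ν y) {k} (ENNReal.ofReal δ)
    (by rw [h0]; exact ENNReal.ofReal_pos.2 hδ)
  obtain ⟨ρ, hρ, hb⟩ := Metric.isOpen_iff.1 hO k (hkO rfl)
  refine ⟨ρ, hρ, ?_⟩
  have : (s.ν y) (Metric.ball k ρ) < ENNReal.ofReal δ := (measure_mono hb).trans_lt hlt
  exact (ENNReal.toReal_lt_of_lt_ofReal this)

theorem meets (hP : NPart s) (hu : Unsep s.ι a b) {K U V : ℕ → Set s.Z}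
    (hPt : ∀ n, Part s a b (K n) (U n) (V n)) {k : s.Z} (l : Ultrafilter ℕ)
    (hloc : ∀ θ ∈ T s.ι, θ ≠ k → ∃ r : ℝ, 0 < r ∧
      ((∀ᶠ n in (l : Filter ℕ), ∀ z ∈ T s.ι, dist z θ < r → z ≠ k → z ∈ sat s.ι a b (U n)) ∨
       (∀ᶠ n in (l : Filter ℕ), ∀ z ∈ T s.ι, dist z θ < r → z ≠ k → z ∈ sat s.ι a b (V n))))
    {δ : ℝ} (hδ : 0 < δ) {y : s.G}
    (hy : ∀ᶠ n in (l : Filter ℕ), δ ≤ hh s.ν (sat s.ι a b (U n \ {k})) y) :
    ∃ θ ∈ Blk s.ι a b, θ ∈ SideL s a b k l U := by
  by_contra hcon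
  push Not at hcon
  obtain ⟨D, hD1, hD2, hD3⟩ := exists_D hP hu k
  obtain ⟨ρ, hρ, hρ'⟩ := small_ball y k hδ
  have loc : ∀ θ ∈ T s.ι, θ ≠ k → θ ∉ D → ∃ r : ℝ, 0 < r ∧
      ∀ᶠ n in (l : Filter ℕ), ∀ z ∈ T s.ι, dist z θ < r → z ≠ k → z ∈ sat s.ι a b (V n) := by
    intro θ h1 h2 h3
    obtain ⟨r, hr, h | h⟩ := hloc θ h1 h2
    · exfalso
      obtain ⟨u, hu1, hu2, hu3⟩ := hD3 θ h1 h2 h3
      refine hcon u hu1 ⟨Blk_sub_T hu1, hu2, ?_⟩
      filter_upwards [h] with n hn
      have := hn θ h1 (by rwa [dist_self]) h2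
      rw [hu3] at this
      exact (mem_sat_blk hP hu hu1).2 this
    · exact ⟨r, hr, h⟩
  have hC : IsCompact {z | z ∈ T s.ι ∧ ρ ≤ dist z k ∧ z ∉ D} := by
    apply IsClosed.isCompact
    obtain ⟨O, hO, hOD⟩ := hD1
    have : {z | z ∈ T s.ι ∧ ρ ≤ dist z k ∧ z ∉ D} = T s.ι ∩ {z | ρ ≤ dist z k} ∩ Oᶜ := by
      rw [← hOD]
      ext z
      simp only [mem_inter_iff, mem_compl_iff, mem_ofPred_eq]
      tauto
    rw [this]
    exact (s.isClosed_T.inter (isClosed_le continuous_const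
      (continuous_id.dist continuous_const))).inter hO.isClosed_compl
  have hCe : ∀ᶠ n in (l : Filter ℕ), ∀ z ∈ {z | z ∈ T s.ι ∧ ρ ≤ dist z k ∧ z ∉ D},
      z ∈ sat s.ι a b (V n) := by
    refine hC.induction_on (p := fun A => ∀ᶠ n in (l : Filter ℕ), ∀ z ∈ A, z ∈ sat s.ι a b (V n))
      ?_ ?_ ?_ ?_
    · exact Eventually.of_forall fun n z hz => absurd hz (Set.notMem_empty z)
    · intro A B hAB hB
      exact hB.mono fun n hn z hz => hn z (hAB hz)
    · intro A B hA hB
      filter_upwards [hA, hB] with n h1 h2 z hz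
      exact hz.elim (h1 z) (h2 z)
    · rintro θ ⟨h1, h2, h3⟩
      have hne : θ ≠ k := by
        rintro rfl
        rw [dist_self] at h2
        linarith
      obtain ⟨r, hr, h⟩ := loc θ h1 hne h3
      refine ⟨_, inter_mem_nhdsWithin _ (Metric.ball_mem_nhds θ hr), ?_⟩
      filter_upwards [h] with n hn z hz
      refine hn z hz.1.1 hz.2 ?_
      rintro rfl
      have := hz.1.2.1
      rw [dist_self] at this
      linarith
  obtain ⟨n, hn1, hn2⟩ := (hy.and hCe).exists
  have hsub : sat s.ι a b (U n \ {k}) ⊆ Metric.ball k ρ := by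
    intro z hz
    by_contra hzb
    have hzT : z ∈ T s.ι := sat_sub_T hz
    have hzD : z ∉ D := Set.disjoint_left.1 (hD2 (U n \ {k}) (fun h => h.2 rfl)) hz
    have h1 : z ∈ sat s.ι a b (V n) := hn2 z ⟨hzT, not_lt.1 hzb, hzD⟩
    exact Set.disjoint_left.1 (sat_disj hP hu (hPt n).dis) (sat_mono Set.sdiff_subset hz) h1
  have := measureReal_mono (μ := s.ν y) hsub
  unfold hh at hn1
  linarith

/-! ### equivariance -/

theorem cmp_smul (g : s.G) (η : s.Z) (U : Set s.Z) :
    cmp s.ι (g • η) ((fun z => g • z) '' U) = (fun z => g • z) '' cmp s.ι η U := by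
  ext z
  constructor
  · rintro ⟨h1, h2, h3⟩
    refine ⟨g⁻¹ • z, ⟨s.smul_T h1, ?_, ?_⟩, by simp⟩
    · rintro h
      apply h2
      rw [← h, smul_inv_smul]
    · intro h
      exact h3 ⟨_, h, by simp⟩
  · rintro ⟨w, ⟨h1, h2, h3⟩, rfl⟩
    refine ⟨s.smul_T h1, ?_, ?_⟩
    · intro h
      exact h2 (MulAction.injective g h)
    · rintro ⟨w', hw', h⟩
      have := MulAction.injective g h
      exact h3 (this ▸ hw')

theorem isCut_smul (hA : PAlg s) (g : s.G) {η : s.Z} (h : IsCut s.ι η) : IsCut s.ι (g • η) := by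
  obtain ⟨U, h1, h2, h3⟩ := h
  refine ⟨(fun z => g • z) '' U, (hA η U U h1 h1).2.2.2.2 g, h2.image _, ?_⟩
  rw [cmp_smul]
  exact h3.image _

theorem rob_smul {γ : s.G} (hγ : γ ∈ s.StabB a b) {U : Set s.Z} (hU : ROB s a b U) :
    ROB s a b ((fun z => γ • z) '' U) := by
  obtain ⟨O, hO, hOU⟩ := hU
  refine ⟨(fun z => γ⁻¹ • z) ⁻¹' O, hO.preimage (s.bdry.cont γ⁻¹), ?_⟩
  have hγ' : (fun z => γ • z) '' (Blk s.ι a b) = Blk s.ι a b := hγ
  ext z
  constructor
  · rintro ⟨h1, h2⟩
    rw [← hγ'] at h2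
    obtain ⟨w, hw, rfl⟩ := h2
    refine ⟨w, ?_, rfl⟩
    rw [← hOU]
    refine ⟨?_, hw⟩
    simpa using h1
  · rintro ⟨w, hw, rfl⟩
    rw [← hOU] at hw
    refine ⟨by simpa using hw.1, ?_⟩
    rw [← hγ']
    exact ⟨w, hw.2, rfl⟩

theorem Part_smul (hA : PAlg s) {γ : s.G} (hγ : γ ∈ s.StabB a b) {K U V : Set s.Z}
    (P : Part s a b K U V) : Part s a b ((fun z => γ • z) '' K) ((fun z => γ • z) '' U)
      ((fun z => γ • z) '' V) := by
  have hγ' : (fun z => γ • z) '' (Blk s.ι a b) = Blk s.ι a b := hγ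
  have hinj : Function.Injective (fun z : s.Z => γ • z) := MulAction.injective γ
  refine ⟨?_, ?_, ?_, ?_, rob_smul hγ P.roU, rob_smul hγ P.roV, ?_, ?_⟩
  · exact (P.cl.isCompact.image (s.bdry.cont γ)).isClosed
  · rw [← hγ']
    exact Set.image_mono P.sub
  · rintro _ ⟨w, hw, rfl⟩ hc
    have := isCut_smul hA γ⁻¹ hc
    simp only [inv_smul_smul] at this
    exact P.nocut w hw this
  · intro x
    have := s.hh_smul γ (γ⁻¹ * x) P.cl.measurableSet
    rw [mul_inv_cancel_left] at this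
    rw [this]
    exact P.null _
  · exact (Set.disjoint_image_iff hinj).2 P.dis
  · rw [← Set.image_union, P.un, Set.image_sdiff hinj, hγ']

theorem hh_sat_smul (hR : NRetr s) (hE : NEquiv s) (hu : Unsep s.ι a b) {γ : s.G}
    (hγ : γ ∈ s.StabB a b) {U : Set s.Z} (hU : ROB s a b U) (p : s.Z) (x : s.G) :
    hh s.ν (sat s.ι a b (((fun z => γ • z) '' U) \ {γ • p})) (γ * x) =
      hh s.ν (sat s.ι a b (U \ {p})) x := by
  have hinj : Function.Injective (fun z : s.Z => γ • z) := MulAction.injective γ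
  have h1 : ((fun z => γ • z) '' U) \ {γ • p} = (fun z => γ • z) '' (U \ {p}) := by
    rw [Set.image_sdiff hinj, Set.image_singleton]
  have hsub : U \ {p} ⊆ Blk s.ι a b := by
    obtain ⟨O, _, hOU⟩ := hU
    rw [← hOU]
    exact fun z hz => hz.1.2
  rw [h1, (hE a b hu γ hγ).2.1 _ hsub, s.hh_smul γ x (sat_diff_meas hR hu hU p)]

theorem WB_smul (hR : NRetr s) (hE : NEquiv s) (hu : Unsep s.ι a b) {γ : s.G}
    (hγ : γ ∈ s.StabB a b) {δ : ℝ} {U V : Set s.Z} (hU : ROB s a b U) (hV : ROB s a b V)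
    (x : s.G) : s.WB a b δ ((fun z => γ • z) '' U) ((fun z => γ • z) '' V) (γ * x) ↔
      s.WB a b δ U V x := by
  constructor
  · intro h p
    have := h (γ • p)
    rwa [hh_sat_smul hR hE hu hγ hU, hh_sat_smul hR hE hu hγ hV] at this
  · intro h p
    have := h (γ⁻¹ • p)
    rw [← hh_sat_smul hR hE hu hγ hU, ← hh_sat_smul hR hE hu hγ hV, smul_inv_smul] at this
    exact this

theorem unif (y : s.G) {ε : ℝ} (hε : 0 < ε) : ∃ ε1 : ℝ, 0 < ε1 ∧
    ∀ p q : s.Z, dist (y⁻¹ • p) (y⁻¹ • q) ≤ ε1 → dist p q < ε := by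
  have h := CompactSpace.uniformContinuous_of_continuous (s.bdry.cont y)
  obtain ⟨ε1, h1, h2⟩ := Metric.uniformContinuous_iff.1 h ε hε
  refine ⟨ε1 / 2, half_pos h1, fun p q hpq => ?_⟩
  have := h2 (hpq.trans_lt (half_lt_self h1))
  simpa using this


/-- the final contradiction from a Clp set which splits the block -/
theorem split_false (hA : PAlg s) (hu : Unsep s.ι a b) {k : s.Z} {W : Set s.Z}
    (hW : Clp s.ι k W) {θ1 θ2 : s.Z} (h1 : θ1 ∈ Blk s.ι a b) (h1W : θ1 ∈ W)
    (h2 : θ2 ∈ Blk s.ι a b) (h2W : θ2 ∈ cmp s.ι k W) : False := by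
  have hc : IsCut s.ι k := ⟨W, hW, ⟨θ1, h1W⟩, ⟨θ2, h2W⟩⟩
  have hn1 : θ1 ≠ k := by
    rintro rfl
    exact hW.notMem h1W
  have s1 : θ1 ∈ sel s.ι a b k := (h1.2 k hc).resolve_left hn1
  have s2 : θ2 ∈ sel s.ι a b k := (h2.2 k hc).resolve_left h2W.2.1
  have key : ∀ c ∈ T s.ι, c ≠ k → θ1 ∈ Compo s.ι k c → θ2 ∈ Compo s.ι k c → False := by
    intro c hcT hck k1 k2
    by_cases hcW : c ∈ W
    · exact h2W.2.2 (k2.2.2 W hW hcW)
    · have := k1.2.2 _ (hA k W W hW hW).1 ⟨hcT, hck, hcW⟩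
      exact this.2.2 h1W
  unfold sel at s1 s2
  by_cases hka : k = a
  · rw [if_pos hka] at s1 s2
    subst hka
    exact key b hu.hb hu.ne.symm s1 s2
  · rw [if_neg hka] at s1 s2
    exact key a hu.ha (fun h => hka h.symm) s1 s2

theorem endgame (hA : PAlg s) (hP : NPart s) (hR : NRetr s) (hCf : NCofin s) (hE : NEquiv s)
    (hLL : LimitLemma s) (hu : Unsep s.ι a b) {c3 δ : ℝ} (hδ : 0 < δ)
    (hsm : (1 + (s.S.card : ℝ) ^ 2) * δ < c3)
    (h3 : ∀ x ∈ XB s.ι s.ν a b s.c0, ∀ p q : s.Z,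
      c3 ≤ hh s.ν (sat s.ι a b (Blk s.ι a b \ {p, q})) x)
    {K U V : ℕ → Set s.Z} (hPt : ∀ n, Part s a b (K n) (U n) (V n)) {ζ : s.Z}
    (hKζ : ∀ n, ∀ z ∈ K n, dist z ζ < 1 / ((n : ℝ) + 1)) {r : ℝ} (hr : 0 < r)
    {N : ℕ → ℕ} (hN : ∀ J, J ≤ N J) {X : ℕ → s.G} (hX : ∀ J, X J ∈ XB s.ι s.ν a b s.c0)
    (hW : ∀ J, s.WB a b δ (U (N J)) (V (N J)) (X J)) {L : ℕ → Finset s.G}
    (hmax : ∀ J, ∀ j ≤ J, ∀ z ∈ XB s.ι s.ν a b s.c0, s.WB a b δ (U (N J)) (V (N J)) z →
      r / 2 ≤ dist (s.ι z) ζ → (X J)⁻¹ * z ∈ L j ∨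
        dist (s.ι (X J)⁻¹) (s.ι ((X J)⁻¹ * z)) < 1 / ((j : ℝ) + 1))
    {τ : s.Z} (hτ : τ ∈ T s.ι) (hτr : r ≤ dist τ ζ)
    (hlim : Tendsto (fun J => s.ι (X J)) atTop (𝓝 τ)) : False := by
  classical
  obtain ⟨F, hF⟩ := hCf a b hu s.c0 (c0_pos s)
  choose γ hγ y0 hy0 hXy using fun J => hF (X J) (hX J)
  obtain ⟨l, hl⟩ : ∃ l : Ultrafilter ℕ, (l : Filter ℕ) ≤ atTop :=
    ⟨Filter.hyperfilter ℕ, Nat.hyperfilter_le_atTop⟩
  obtain ⟨y, hy⟩ : ∃ y, ∀ᶠ J in (l : Filter ℕ), y0 J = y := by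
    have h1 : ∀ᶠ J in (l : Filter ℕ), ∃ y ∈ (F : Set s.G), y0 J = y :=
      Eventually.of_forall fun J => ⟨_, hy0 J, rfl⟩
    obtain ⟨y, _, h⟩ := (Ultrafilter.eventually_exists_mem_iff F.finite_toSet).1 h1
    exact ⟨y, h⟩
  obtain ⟨k, hk⟩ : ∃ k, Tendsto (fun J => s.ι (γ J)⁻¹) (l : Filter ℕ) (𝓝 k) := by
    obtain ⟨k, _, h⟩ := isCompact_univ.ultrafilter_le_nhds (l.map fun J => s.ι (γ J)⁻¹) (by simp)
    exact ⟨k, h⟩
  have hlim' := hlim.mono_left hl
  have hkT : k ∈ T s.ι := by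
    rintro ⟨g, rfl⟩
    have h1 : ∀ᶠ J in (l : Filter ℕ), s.ι (γ J)⁻¹ = s.ι g := hk ((s.bdry.isol g).mem_nhds rfl)
    obtain ⟨ρ, hρ, hρ'⟩ := s.exists_ball_notMem hτ (finite_singleton (g⁻¹ * y))
    obtain ⟨J, ⟨h2, h3⟩, h4⟩ := ((h1.and hy).and (Metric.tendsto_nhds.1 hlim' ρ hρ)).exists
    apply hρ' _ h4
    rw [hXy J, h3, ← s.bdry.inj h2, inv_inv]
    rfl
  -- key estimates
  have key : ∀ ε : ℝ, 0 < ε → ∃ ε1 : ℝ, 0 < ε1 ∧ ∀ᶠ J in (l : Filter ℕ), ∀ z : s.Z,
      dist ((X J)⁻¹ • z) (s.ι (X J)⁻¹) ≤ ε1 → dist ((γ J)⁻¹ • z) k < ε := by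
    intro ε hε
    obtain ⟨ε1, h1, h2⟩ := unif y (half_pos hε)
    refine ⟨ε1, h1, ?_⟩
    filter_upwards [hy, Metric.tendsto_nhds.1 hk (ε / 2) (half_pos hε)] with J hJ hJ2 z hz
    have e1 : (X J)⁻¹ • z = y⁻¹ • (γ J)⁻¹ • z := by
      rw [hXy J, hJ, mul_inv_rev, mul_smul]
    have e2 : s.ι (X J)⁻¹ = y⁻¹ • s.ι (γ J)⁻¹ := by
      rw [hXy J, hJ, mul_inv_rev, s.bdry.eqv]
    rw [e1, e2] at hz
    have h4 := h2 _ _ hz
    have h5 := dist_triangle ((γ J)⁻¹ • z) (s.ι (γ J)⁻¹) k
    linarith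
  have hfar : ∀ᶠ J in (l : Filter ℕ), 3 * r / 4 < dist (s.ι (X J)) ζ := by
    filter_upwards [Metric.tendsto_nhds.1 hlim' (r / 4) (by positivity)] with J hJ
    have := dist_triangle_left τ ζ (s.ι (X J))
    linarith
  have key2 : ∀ ε : ℝ, 0 < ε → ∀ᶠ J in (l : Filter ℕ), ∀ z : s.Z,
      r / 4 ≤ dist z (s.ι (X J)) → dist ((γ J)⁻¹ • z) k < ε := by
    intro ε hε
    obtain ⟨ε1, h1, h2⟩ := key ε hε
    obtain ⟨K0, hK0⟩ := s.bdry.cp (min ε1 (r / 8)) (lt_min h1 (by positivity))
    obtain ⟨ρ, hρ, hρ'⟩ := s.exists_ball_notMem hτ K0.finite_toSet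
    filter_upwards [h2, Metric.tendsto_nhds.1 hlim' ρ hρ] with J hJ hJ2 z hz
    apply hJ z
    rcases hK0 (X J) (fun h => hρ' _ hJ2 (Finset.mem_coe.2 h)) z with h | h
    · exfalso
      have := h.trans (min_le_right _ _)
      linarith
    · exact h.trans (min_le_left _ _)
  have hNl : Tendsto N (l : Filter ℕ) atTop := (tendsto_atTop_mono hN tendsto_id).mono_left hl
  have hsmall : ∀ ε : ℝ, 0 < ε → ∀ᶠ J : ℕ in (l : Filter ℕ), 1 / ((J : ℝ) + 1) < ε := by
    intro ε hε
    apply hl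
    obtain ⟨n, hn⟩ := exists_nat_one_div_lt hε
    filter_upwards [eventually_ge_atTop n] with J hJ
    refine lt_of_le_of_lt ?_ hn
    apply one_div_le_one_div_of_le (by positivity)
    have : (n : ℝ) ≤ J := by exact_mod_cast hJ
    linarith
  -- translated partitions
  set K' : ℕ → Set s.Z := fun J => (fun z => (γ J)⁻¹ • z) '' K (N J) with hK'
  set U' : ℕ → Set s.Z := fun J => (fun z => (γ J)⁻¹ • z) '' U (N J) with hU'
  set V' : ℕ → Set s.Z := fun J => (fun z => (γ J)⁻¹ • z) '' V (N J) with hV'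
  have hγi : ∀ J, (γ J)⁻¹ ∈ s.StabB a b := fun J => (hE a b hu (γ J) (hγ J)).1
  have hPt' : ∀ J, Part s a b (K' J) (U' J) (V' J) := fun J => Part_smul hA (hγi J) (hPt (N J))
  have hWB : ∀ J, ∀ x, s.WB a b δ (U' J) (V' J) x ↔
      s.WB a b δ (U (N J)) (V (N J)) (γ J * x) := by
    intro J x
    have := WB_smul (δ := δ) hR hE hu (hγi J) (hPt (N J)).roU (hPt (N J)).roV (γ J * x)
    rw [inv_mul_cancel_left] at this
    exact this
  have hKk : ∀ ε : ℝ, 0 < ε → ∀ᶠ n in (l : Filter ℕ), ∀ z ∈ K' n, dist z k < ε := by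
    intro ε hε
    filter_upwards [key2 ε hε, hfar, hsmall (r / 4) (by positivity)] with J h1 h2 h3
    rintro _ ⟨w, hw, rfl⟩
    apply h1 w
    have h4 := hKζ (N J) w hw
    have h5 : 1 / ((N J : ℝ) + 1) ≤ 1 / ((J : ℝ) + 1) := by
      apply one_div_le_one_div_of_le (by positivity)
      have : (J : ℝ) ≤ N J := by exact_mod_cast hN J
      linarith
    have h6 := dist_triangle_left (s.ι (X J)) ζ w
    linarith
  have hwb : ∀ ε : ℝ, 0 < ε → ∃ F : Finset s.G, ∀ᶠ n in (l : Filter ℕ),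
      ∀ x ∈ XB s.ι s.ν a b s.c0, x ∉ F → s.WB a b δ (U' n) (V' n) x → dist (s.ι x) k < ε := by
    intro ε hε
    obtain ⟨ε1, h1, h2⟩ := key ε hε
    obtain ⟨j, hj⟩ := exists_nat_one_div_lt h1
    refine ⟨(L j).image fun g => y * g, ?_⟩
    filter_upwards [h2, key2 ε hε, hfar, hy, hl (eventually_ge_atTop j)] with J h3 h4 h5 h6 h7
      x hx hxF hwx
    have hz : γ J * x ∈ XB s.ι s.ν a b s.c0 := (hE a b hu (γ J) (hγ J)).2.2 _ x hx
    have hwz := (hWB J x).1 hwx
    have e1 : (γ J)⁻¹ • s.ι (γ J * x) = s.ι x := by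
      rw [s.bdry.eqv, inv_mul_cancel_left]
    rw [← e1]
    by_cases hd : r / 2 ≤ dist (s.ι (γ J * x)) ζ
    · rcases hmax J j h7 _ hz hwz hd with h | h
      · exfalso
        apply hxF
        rw [Finset.mem_image]
        refine ⟨_, h, ?_⟩
        rw [hXy J, h6]
        group
      · apply h3
        rw [s.bdry.eqv, dist_comm]
        exact (h.trans hj).le
    · apply h4
      have h8 := dist_triangle_left (s.ι (X J)) ζ (s.ι (γ J * x))
      push Not at hd
      linarith
  obtain ⟨c1, c2, c4⟩ := hLL a b hu c3 δ hδ hsm h3 K' U' V' hPt' k hkT l hKk hwb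
  have hyW : ∀ᶠ J in (l : Filter ℕ), s.WB a b δ (U' J) (V' J) y := by
    filter_upwards [hy] with J hJ
    rw [hWB, ← hJ, ← hXy J]
    exact hW J
  obtain ⟨θ1, h1, h1'⟩ := meets hP hu hPt' l c4 hδ (hyW.mono fun J hJ => (hJ k).1)
  obtain ⟨θ2, h2, h2'⟩ := meets hP hu (fun n => Part_symm (hPt' n)) l
    (fun θ ht hne => by
      obtain ⟨ρ, hρ, h⟩ := c4 θ ht hne
      exact ⟨ρ, hρ, h.symm⟩) hδ (hyW.mono fun J hJ => (hJ k).2)
  rw [c2] at h2'
  exact split_false hA hu c1 h1 h1' h2 h2'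


theorem caseII (hA : PAlg s) (hP : NPart s) (hR : NRetr s) (hCf : NCofin s) (hE : NEquiv s)
    (hO : NOrder s) (hLL : LimitLemma s) (hu : Unsep s.ι a b) {c3 δ : ℝ} (hδ : 0 < δ)
    (hsm : (1 + (s.S.card : ℝ) ^ 2) * δ < c3)
    (h3 : ∀ x ∈ XB s.ι s.ν a b s.c0, ∀ p q : s.Z,
      c3 ≤ hh s.ν (sat s.ι a b (Blk s.ι a b \ {p, q})) x)
    {K U V : ℕ → Set s.Z} (hPt : ∀ n, Part s a b (K n) (U n) (V n)) {ζ : s.Z}
    (hKζ : ∀ n, ∀ z ∈ K n, dist z ζ < 1 / ((n : ℝ) + 1)) {r : ℝ} (hr : 0 < r)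
    (hII : ∀ F : Finset s.G, ∀ N : ℕ, ∃ n, N ≤ n ∧ ∃ x ∈ XB s.ι s.ν a b s.c0,
      s.WB a b δ (U n) (V n) x ∧ r ≤ dist (s.ι x) ζ ∧ x ∉ F) : False := by
  classical
  obtain ⟨N0, hN0⟩ := exists_nat_one_div_lt (show (0 : ℝ) < r / 2 by positivity)
  obtain ⟨w, hw1, hw2⟩ := exists_seq_of_forall_finset_exists
    (fun p : ℕ × s.G => N0 ≤ p.1 ∧ p.2 ∈ XB s.ι s.ν a b s.c0 ∧
      s.WB a b δ (U p.1) (V p.1) p.2 ∧ r ≤ dist (s.ι p.2) ζ)
    (fun p q => p.1 < q.1 ∧ p.2 ≠ q.2) (by
      intro t _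
      obtain ⟨n, hn, x, hx, hwx, hrx, hxF⟩ := hII (t.image Prod.snd) (max N0 (t.sup Prod.fst + 1))
      refine ⟨(n, x), ⟨(le_max_left _ _).trans hn, hx, hwx, hrx⟩, ?_⟩
      intro p hp
      refine ⟨?_, ?_⟩
      · have h1 : p.1 ≤ t.sup Prod.fst := Finset.le_sup (f := Prod.fst) hp
        have h2 := (le_max_right N0 (t.sup Prod.fst + 1)).trans hn
        show p.1 < n
        omega
      · intro h
        exact hxF (Finset.mem_image.2 ⟨p, hp, h⟩))
  have hinj : Function.Injective fun m => (w m).2 := by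
    intro m m' h
    rcases lt_trichotomy m m' with h1 | h1 | h1
    · exact absurd h (hw2 _ _ h1).2
    · exact h1
    · exact absurd h.symm (hw2 _ _ h1).2
  obtain ⟨τ, hτ, φ, hφ, hlim⟩ := s.subseq_T (fun m => (w m).2) (by
    intro g
    refine Set.Subsingleton.finite ?_
    intro m hm n hn
    exact hinj ((show (w m).2 = g from hm).trans (show (w n).2 = g from hn).symm))
  have hmono : StrictMono fun m => (w (φ m)).1 := fun m m' h => (hw2 _ _ (hφ h)).1
  have hτr : r ≤ dist τ ζ :=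
    ge_of_tendsto (hlim.dist tendsto_const_nhds)
      (Eventually.of_forall fun m => (hw1 (φ m)).2.2.2)
  have hfin : ∀ m, {x | x ∈ XB s.ι s.ν a b s.c0 ∧
      s.WB a b δ (U (w (φ m)).1) (V (w (φ m)).1) x ∧ r / 2 ≤ dist (s.ι x) ζ}.Finite := by
    intro m
    refine factA hP hR hu (hPt _) hδ ζ ?_
    intro z hz
    refine (hKζ _ z hz).trans_le ?_
    have h1 : N0 ≤ (w (φ m)).1 := (hw1 _).1
    refine le_trans ?_ hN0.le
    apply one_div_le_one_div_of_le (by positivity)
    have : (N0 : ℝ) ≤ ((w (φ m)).1 : ℝ) := by exact_mod_cast h1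
    linarith
  obtain ⟨L, hL⟩ := hO (fun j => 1 / ((j : ℝ) + 1)) (fun j => by positivity)
  choose κ hκ hL2 using hL
  have hyQ : ∀ m, (w (φ m)).2 ∈ (hfin m).toFinset := by
    intro m
    rw [Set.Finite.mem_toFinset]
    have := (hw1 (φ m)).2
    exact ⟨this.1, this.2.1, by linarith [this.2.2]⟩
  choose x hxQ hx1 hx2 using fun J m => hL2 J (hfin m).toFinset (w (φ m)).2 (hyQ m)
  have hclose : ∀ J : ℕ, ∃ m, J ≤ m ∧ dist (s.ι (x J m)) (s.ι (w (φ m)).2) ≤ 1 / ((J : ℝ) + 1) := by
    intro J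
    have hpos : (0 : ℝ) < 1 / ((J : ℝ) + 1) := by positivity
    obtain ⟨K0, hK0⟩ := s.bdry.cp (min (1 / ((J : ℝ) + 1)) (κ J / 2))
      (lt_min hpos (half_pos (hκ J)))
    obtain ⟨ρ, hρ, hρ'⟩ := s.exists_ball_notMem hτ K0.finite_toSet
    obtain ⟨m, h1, h2⟩ := ((Metric.tendsto_nhds.1 hlim ρ hρ).and (eventually_ge_atTop J)).exists
    refine ⟨m, h2, ?_⟩
    rcases hx1 J m with h | h
    · rw [h, dist_self]
      exact hpos.le
    · rcases hK0 (w (φ m)).2 (fun hh => hρ' _ h1 (Finset.mem_coe.2 hh)) (s.ι (x J m)) with h3 | h3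
      · exact h3.trans (min_le_left _ _)
      · exfalso
        rw [s.bdry.eqv] at h3
        have h4 := h3.trans (min_le_right _ _)
        rw [dist_comm] at h4
        have h5 := hκ J
        linarith
  choose m hm1 hm2 using hclose
  have hmemQ : ∀ J m, x J m ∈ XB s.ι s.ν a b s.c0 ∧
      s.WB a b δ (U (w (φ m)).1) (V (w (φ m)).1) (x J m) ∧ r / 2 ≤ dist (s.ι (x J m)) ζ := by
    intro J m
    have := hxQ J m
    rw [Set.Finite.mem_toFinset] at this
    exact this
  refine endgame hA hP hR hCf hE hLL hu hδ hsm h3 hPt hKζ hr (N := fun J => (w (φ (m J))).1) ?_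
    (X := fun J => x J (m J)) (fun J => (hmemQ J (m J)).1) (fun J => (hmemQ J (m J)).2.1)
    (L := L) ?_ hτ hτr ?_
  · intro J
    exact (hm1 J).trans (hmono.le_apply)
  · intro J j hj z hz hwz hrz
    have := hx2 J (m J) j hj z (by
      rw [Set.Finite.mem_toFinset]
      exact ⟨hz, hwz, hrz⟩)
    exact this
  · rw [Metric.tendsto_atTop]
    intro ε hε
    obtain ⟨N1, hN1⟩ := exists_nat_one_div_lt (half_pos hε)
    obtain ⟨N2, hN2⟩ := (Metric.tendsto_atTop.1 hlim) (ε / 2) (half_pos hε)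
    refine ⟨max N1 N2, fun J hJ => ?_⟩
    have h1 := hm2 J
    have h2 := hN2 (m J) (((le_max_right _ _).trans hJ).trans (hm1 J))
    have h4 : 1 / ((J : ℝ) + 1) ≤ 1 / ((N1 : ℝ) + 1) := by
      apply one_div_le_one_div_of_le (by positivity)
      have : (N1 : ℝ) ≤ J := by exact_mod_cast (le_max_left _ _).trans hJ
      linarith
    have h5 := dist_triangle (s.ι (x J (m J))) (s.ι (w (φ (m J))).2) τ
    linarith

theorem core (hSep : PSep s) (hNull : PNullLev s) (hCt : NCtbl s)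
    (hA : PAlg s) (hP : NPart s) (hR : NRetr s) (hCf : NCofin s) (hE : NEquiv s)
    (hSp : NSpread s) (hO : NOrder s) (hLL : LimitLemma s) (hu : Unsep s.ι a b)
    {f : s.Z → ℝ} (hf : f ∈ s.𝓕) {lo hi : s.Z} (hlo : lo ∈ Blk s.ι a b) (hhi : hi ∈ Blk s.ι a b)
    (hlt : f lo < f hi) : False := by
  classical
  have g1 := hSep f hf
  have g2 := hNull f hf
  have g3 : ∀ᵐ t : ℝ, ∀ η, IsCut s.ι η → f η ≠ t := by
    have hc : (f '' {η | IsCut s.ι η}).Countable := hCt.image f
    filter_upwards [hc.ae_notMem volume] with t ht η hη h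
    exact ht ⟨η, hη, h⟩
  have hfreq : ∃ᵐ t : ℝ, t ∈ Ioo (f lo) (f hi) := by
    rw [frequently_ae_mem_iff, Real.volume_Ioo]
    exact (ENNReal.ofReal_pos.2 (by linarith)).ne'
  obtain ⟨t, ⟨htlo, hthi⟩, ht1, ht2, ht3⟩ := (hfreq.and_eventually (g1.and (g2.and g3))).exists
  obtain ⟨ζ, hζT, hfζ, hζ⟩ := ht1 lo hlo.1 hi hhi.1 htlo hthi
  choose K hKc hKT hKt U V hU hV hd hUV hloV hhiU using
    fun n : ℕ => hζ (1 / ((n : ℝ) + 1)) (by positivity)
  have hBT : Blk s.ι a b ⊆ T s.ι := Blk_sub_T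
  have hBc : IsClosed (Blk s.ι a b) := (hP a b hu).2.2.1
  have rob : ∀ W, RO s.ι W → ROB s a b (W ∩ Blk s.ι a b) := by
    rintro W ⟨O, hO, rfl⟩
    refine ⟨O, hO, ?_⟩
    ext z
    simp only [mem_inter_iff]
    constructor
    · rintro ⟨h1, h2⟩; exact ⟨⟨h1, hBT h2⟩, h2⟩
    · rintro ⟨⟨h1, _⟩, h2⟩; exact ⟨h1, h2⟩
  have hPt : ∀ n, Part s a b (K n ∩ Blk s.ι a b) (U n ∩ Blk s.ι a b) (V n ∩ Blk s.ι a b) := by
    intro n
    refine ⟨(hKc n).inter hBc, inter_subset_right, ?_, ?_, rob _ (hU n), rob _ (hV n), ?_, ?_⟩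
    · rintro η ⟨h1, _⟩ hc
      exact ht3 η hc (hKt n η h1).1
    · intro x
      have h1 : s.ν x (K n ∩ Blk s.ι a b) = 0 :=
        measure_mono_null (fun z hz => (hKt n z hz.1).1) (ht2 x)
      simp [hh, Measure.real, h1]
    · exact (hd n).mono inter_subset_left inter_subset_left
    · rw [← Set.union_inter_distrib_right, hUV n]
      ext z
      simp only [mem_inter_iff, Set.mem_sdiff]
      constructor
      · rintro ⟨⟨_, h2⟩, h3⟩; exact ⟨h3, fun h => h2 h.1⟩
      · rintro ⟨h1, h2⟩; exact ⟨⟨hBT h1, fun h => h2 ⟨h, h1⟩⟩, h1⟩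
  obtain ⟨c3, hc3, h3⟩ := hSp a b hu s.c0 (c0_pos s)
  have hcard : 0 < (1 + (s.S.card : ℝ) ^ 2) := by positivity
  obtain ⟨δ, hδ, hsm⟩ : ∃ δ : ℝ, 0 < δ ∧ (1 + (s.S.card : ℝ) ^ 2) * δ < c3 := by
    refine ⟨c3 / (2 * (1 + (s.S.card : ℝ) ^ 2)), by positivity, ?_⟩
    have : (1 + (s.S.card : ℝ) ^ 2) * (c3 / (2 * (1 + (s.S.card : ℝ) ^ 2))) = c3 / 2 := by
      field_simp
    rw [this]
    linarith
  by_cases hI : ∀ r : ℝ, 0 < r → ∃ F : Finset s.G, ∃ N : ℕ, ∀ n, N ≤ n →
      ∀ x ∈ XB s.ι s.ν a b s.c0, s.WB a b δ (U n ∩ Blk s.ι a b) (V n ∩ Blk s.ι a b) x →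
      r ≤ dist (s.ι x) ζ → x ∈ F
  · obtain ⟨l, hl⟩ : ∃ l : Ultrafilter ℕ, (l : Filter ℕ) ≤ atTop :=
      ⟨Filter.hyperfilter ℕ, Nat.hyperfilter_le_atTop⟩
    obtain ⟨c1, c2, -⟩ := hLL a b hu c3 δ hδ hsm h3 _ _ _ hPt ζ hζT l (by
      intro ε hε
      apply hl
      obtain ⟨n, hn⟩ := exists_nat_one_div_lt hε
      filter_upwards [eventually_ge_atTop n] with J hJ z hz
      refine ((hKt J z hz.1).2.trans_le ?_).trans hn
      apply one_div_le_one_div_of_le (by positivity)
      have : (n : ℝ) ≤ J := by exact_mod_cast hJ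
      linarith) (by
      intro ε hε
      obtain ⟨F, N, hF⟩ := hI ε hε
      refine ⟨F, hl ?_⟩
      filter_upwards [eventually_ge_atTop N] with n hn x hx hxF hw
      by_contra hcon
      exact hxF (hF n hn x hx hw (not_lt.1 hcon)))
    have hcut : IsCut s.ι ζ := by
      refine ⟨_, c1, ⟨hi, hhi.1, ?_, Eventually.of_forall fun n => ?_⟩, ?_⟩
      · rintro rfl
        rw [hfζ] at hthi
        exact lt_irrefl _ hthi
      · exact (mem_sat_blk hP hu hhi).2 ⟨hhiU n, hhi⟩
      · rw [← c2]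
        refine ⟨lo, hlo.1, ?_, Eventually.of_forall fun n => ?_⟩
        · rintro rfl
          rw [hfζ] at htlo
          exact lt_irrefl _ htlo
        · exact (mem_sat_blk hP hu hlo).2 ⟨hloV n, hlo⟩
    exact ht3 ζ hcut hfζ
  · push Not at hI
    obtain ⟨r, hr, hI⟩ := hI
    exact caseII hA hP hR hCf hE hO hLL hu hδ hsm h3 hPt (fun n z hz => (hKt n z hz.1).2) hr hI

end Fin276

open Fin276

/-- node NFinal, given the limit lemma -/
theorem nFinal_of (hLL : ∀ s : Sys, NPart s → NRetr s → NXB s → NSide s → LimitLemma s) :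
    NFinal := by
  intro s hConn hHalf hAlg hLim hBal hSep hNull hLF hCtbl hOpen hNullL hBlock hPart hRetr
    hBlkConn hCofin hEquiv hSpread hXB hOrder hSide
  obtain ⟨p, hp, q, hq, hpq⟩ := s.bdry.two
  obtain ⟨f, hf, hfpq⟩ := s.bdry.fsep p hp q hq hpq
  obtain ⟨a, b, hu, hfab⟩ := hBlock f hf p hp q hq hfpq
  have ha : a ∈ Blk s.ι a b := (hPart a b hu).1
  have hb : b ∈ Blk s.ι a b := (hPart a b hu).2.1
  have hl := hLL s hPart hRetr hXB hSide
  rcases lt_or_gt_of_ne hfab with h | h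
  · exact core hSep hNull hCtbl hAlg hPart hRetr hCofin hEquiv hSpread hOrder hl hu hf ha hb h
  · exact core hSep hNull hCtbl hAlg hPart hRetr hCofin hEquiv hSpread hOrder hl hu hf hb ha h

end Crest.Agent.R224
end
end

-- ▼ part R224/Mono
section

/-!
Row 224, node NMono (helper912): existence of a function of class `ClsS` without limit at
infinity (monotone trick).
-/

set_option autoImplicit false

noncomputable section

namespace Crest.Agent.R224.Mono

open Relation MeasureTheory Set Crest.Agent.R224.FC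

variable {G : Type} [Group G] {S : Finset G}

theorem countable_of_std (hS : Std S) : Countable G := by
  classical
  let R : ℕ → Set G := fun n => Nat.rec ({1} : Set G) (fun _ A => ⋃ b ∈ S, (fun x => x * b) '' A) n
  have hR0 : R 0 = {1} := rfl
  have hRs : ∀ n, R (n + 1) = ⋃ b ∈ S, (fun x => x * b) '' (R n) := fun n => rfl
  have hRc : ∀ n, (R n).Countable := by
    intro n
    induction n with
    | zero => rw [hR0]; exact Set.countable_singleton 1
    | succ n ih =>
        rw [hRs]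
        exact Set.Countable.biUnion S.countable_toSet (fun b _ => ih.image _)
  have hU : (⋃ n, R n) = Set.univ := by
    ext x
    simp only [Set.mem_iUnion, Set.mem_univ, iff_true]
    have := conn_univ hS 1 trivial x trivial
    induction this with
    | refl => exact ⟨0, rfl⟩
    | @tail b c _ hbc ih =>
        obtain ⟨n, hn⟩ := ih
        refine ⟨n + 1, ?_⟩
        rw [hRs]
        simp only [Set.mem_iUnion]
        exact ⟨b⁻¹ * c, hbc.2.2, b, hn, by simp⟩
  have : (Set.univ : Set G).Countable := by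
    rw [← hU]; exact Set.countable_iUnion hRc
  exact Set.countable_univ_iff.1 this

/-- min over paths from `o` to `x` of the max of `k` -/
def mm (S : Finset G) (k : G → ℝ) (o x : G) : ℝ := sInf {t | x ∈ comp S {y | k y ≤ t} o}

theorem comp_mono {A A' : Set G} (h : A ⊆ A') (o : G) : comp S A o ⊆ comp S A' o :=
  fun _ hy => ⟨h hy.1, rtg_adjIn_mono h hy.2⟩

theorem exists_lt_of_mem (k : G → ℝ) (o x : G) (t : ℝ)
    (hx : x ∈ comp S {y | k y < t} o) : ∃ s < t, x ∈ comp S {y | k y ≤ s} o := by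
  obtain ⟨hx1, hx2⟩ := hx
  have key : ∀ z, ReflTransGen (adjIn S {y | k y < t}) o z → k z < t →
      ∃ s < t, z ∈ comp S {y | k y ≤ s} o := by
    intro z hz
    induction hz with
    | refl => intro ho; exact ⟨k o, ho, show k o ≤ k o from le_refl _, ReflTransGen.refl⟩
    | @tail b c _ hbc ih =>
        intro hc
        obtain ⟨s, hs, hb⟩ := ih hbc.1
        refine ⟨max s (k c), max_lt hs hc, show k c ≤ max s (k c) from le_max_right _ _, ?_⟩
        have h1 : ReflTransGen (adjIn S {y | k y ≤ max s (k c)}) o b :=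
          rtg_adjIn_mono (fun y (hy : k y ≤ s) => (le_trans hy (le_max_left _ _) : k y ≤ max s (k c))) hb.2
        exact h1.tail ⟨(le_trans hb.1 (le_max_left _ _) : k b ≤ max s (k c)),
          show k c ≤ max s (k c) from le_max_right _ _, hbc.2.2⟩
  exact key x hx2 hx1

theorem set_nonempty (hS : Std S) (k : G → ℝ) (o x : G) :
    {t | x ∈ comp S {y | k y ≤ t} o}.Nonempty := by
  have := conn_univ hS o trivial x trivial
  induction this with
  | refl => exact ⟨k o, show k o ≤ k o from le_refl _, ReflTransGen.refl⟩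
  | @tail b c _ hbc ih =>
      obtain ⟨s, hb⟩ := ih
      refine ⟨max s (k c), show k c ≤ max s (k c) from le_max_right _ _, ?_⟩
      have h1 : ReflTransGen (adjIn S {y | k y ≤ max s (k c)}) o b :=
        rtg_adjIn_mono (fun y (hy : k y ≤ s) => (le_trans hy (le_max_left _ _) : k y ≤ max s (k c))) hb.2
      exact h1.tail ⟨(le_trans hb.1 (le_max_left _ _) : k b ≤ max s (k c)),
          show k c ≤ max s (k c) from le_max_right _ _, hbc.2.2⟩

theorem set_bdd (k : G → ℝ) (o x : G) : BddBelow {t | x ∈ comp S {y | k y ≤ t} o} :=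
  ⟨k x, fun _ ht => ht.1⟩

theorem le_mm (hS : Std S) (k : G → ℝ) (o x : G) : k x ≤ mm S k o x :=
  le_csInf (set_nonempty hS k o x) (fun _ ht => ht.1)

theorem mm_le (k : G → ℝ) (o x : G) {t : ℝ} (h : x ∈ comp S {y | k y ≤ t} o) :
    mm S k o x ≤ t := csInf_le (set_bdd k o x) h

theorem mm_lt_iff (hS : Std S) (k : G → ℝ) (o x : G) (t : ℝ) :
    mm S k o x < t ↔ x ∈ comp S {y | k y < t} o := by
  constructor
  · intro h
    obtain ⟨s, hs, hst⟩ := (csInf_lt_iff (set_bdd k o x) (set_nonempty hS k o x)).1 h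
    exact comp_mono (fun y hy => lt_of_le_of_lt hy hst) o hs
  · intro h
    obtain ⟨s, hs, hx⟩ := exists_lt_of_mem k o x t h
    exact lt_of_le_of_lt (mm_le k o x hx) hs

theorem mm_step (hS : Std S) (k : G → ℝ) (o : G) {x y : G} (h : Adj S x y) :
    mm S k o y ≤ max (mm S k o x) (k y) := by
  refine le_of_forall_gt fun t ht => ?_
  have h1 : mm S k o x < t := lt_of_le_of_lt (le_max_left _ _) ht
  have h2 : k y < t := lt_of_le_of_lt (le_max_right _ _) ht
  rw [mm_lt_iff hS] at h1 ⊢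
  exact (isPiece_comp o).2 x y h1 h2 h

theorem mm_lip (hS : Std S) (k : G → ℝ) (o : G) {x y : G} (h : Adj S x y) :
    |mm S k o y - mm S k o x| ≤ |k y - k x| := by
  have h1 := mm_step hS k o h
  have h2 := mm_step hS k o (symm hS h)
  have h3 := le_mm hS k o x
  have h4 := le_mm hS k o y
  rw [abs_le]
  have hk1 : k y - k x ≤ |k y - k x| := le_abs_self _
  have hk2 : -(k y - k x) ≤ |k y - k x| := neg_le_abs _
  have hk0 : 0 ≤ |k y - k x| := abs_nonneg _
  constructor
  · rcases le_total (mm S k o y) (k x) with h | h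
    · rw [max_eq_right h] at h2
      linarith
    · rw [max_eq_left h] at h2
      linarith
  · rcases le_total (mm S k o x) (k y) with h | h
    · rw [max_eq_right h] at h1
      linarith
    · rw [max_eq_left h] at h1
      linarith

/-- The complement of a component of the complement of a connected set is connected. -/
theorem conn_compl_comp (hS : Std S) {A : Set G} (hA : CConn S A) (o : G) :
    CConn S (comp S Aᶜ o)ᶜ := by
  rcases A.eq_empty_or_nonempty with h0 | ⟨a, ha⟩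
  · subst h0
    have : comp S (∅ᶜ : Set G) o = Set.univ := by
      ext y
      simp only [Set.mem_univ, iff_true, Set.compl_empty]
      exact ⟨trivial, conn_univ hS o trivial y trivial⟩
    rw [this]
    intro x hx
    exact absurd trivial hx
  · set K := comp S Aᶜ o with hK
    have hAK : A ⊆ Kᶜ := fun x hx hxK => hxK.1 hx
    -- every point of `Kᶜ` is connected to a point of `A`
    have key : ∀ z ∈ Kᶜ, ∃ a' ∈ A, ReflTransGen (adjIn S Kᶜ) z a' := by
      intro z hz
      have hpath := conn_univ hS z trivial a trivial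
      have : ∀ w, ReflTransGen (adjIn S (Set.univ : Set G)) z w →
          (∃ a' ∈ A, ReflTransGen (adjIn S Kᶜ) z a') ∨
            (w ∈ Kᶜ ∧ ReflTransGen (adjIn S Kᶜ) z w) := by
        intro w hw
        induction hw with
        | refl => exact Or.inr ⟨hz, ReflTransGen.refl⟩
        | @tail b c _ hbc ih =>
            rcases ih with h | ⟨hb, hr⟩
            · exact Or.inl h
            · by_cases hbA : b ∈ A
              · exact Or.inl ⟨b, hbA, hr⟩
              · have hcK : c ∈ Kᶜ := by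
                  intro hc
                  exact hb ((isPiece_comp o).2 c b hc hbA (symm hS hbc.2.2))
                exact Or.inr ⟨hcK, hr.tail ⟨hb, hcK, hbc.2.2⟩⟩
      rcases this a hpath with h | ⟨h, hr⟩
      · exact h
      · exact ⟨a, ha, hr⟩
    intro x hx y hy
    obtain ⟨a1, ha1, h1⟩ := key x hx
    obtain ⟨a2, ha2, h2⟩ := key y hy
    exact (h1.trans (rtg_adjIn_mono hAK (hA a1 ha1 a2 ha2))).trans (rtg_adjIn_symm hS h2)

/-- Minimum principle: an infinite component of a sublevel set. -/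
theorem infinite_comp (hS : Std S) (hinf : Infinite G) {h : G → ℝ}
    (hh : ∀ x, Pop S h x = h x) (x0 : G) : (comp S {y | h y ≤ h x0} x0).Infinite := by
  intro hfin
  set Y := comp S {y | h y ≤ h x0} x0 with hY
  have hx0 : x0 ∈ Y := ⟨show h x0 ≤ h x0 from le_refl _, ReflTransGen.refl⟩
  obtain ⟨x, hxY, hmin⟩ := Set.exists_min_image Y h hfin ⟨x0, hx0⟩
  -- all neighbours of a minimum point are minimum points in `Y`
  have step : ∀ z ∈ Y, h z = h x → ∀ w, Adj S z w → w ∈ Y ∧ h w = h x := by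
    intro z hz hzx w hzw
    have hall : ∀ s ∈ S, h z ≤ h (z * s) := by
      intro s hs
      have hadj : Adj S z (z * s) := by simpa [Adj] using hs
      by_cases hle : h (z * s) ≤ h x0
      · have : z * s ∈ Y := (isPiece_comp x0).2 z (z * s) hz hle hadj
        rw [hzx]; exact hmin _ this
      · push Not at hle
        have : h z ≤ h x0 := hz.1
        linarith
    have hsum : ∑ s ∈ S, (h (z * s) - h z) = 0 := by
      have h1 := hh z
      unfold Pop at h1
      have hcard : (0 : ℝ) < S.card := by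
        have : 0 < S.card := Finset.card_pos.2 ⟨1, hS.one⟩
        exact_mod_cast this
      rw [div_eq_iff hcard.ne'] at h1
      rw [Finset.sum_sub_distrib, h1]
      simp [mul_comm]
    have hz0 := (Finset.sum_eq_zero_iff_of_nonneg (fun s hs => sub_nonneg.2 (hall s hs))).1 hsum
    have hw : h w - h z = 0 := by
      have := hz0 (z⁻¹ * w) hzw
      simpa using this
    have hw' : h w = h x := by linarith
    refine ⟨(isPiece_comp x0).2 z w hz ?_ hzw, hw'⟩
    have : h x ≤ h x0 := hxY.1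
    show h w ≤ h x0
    linarith
  have huniv : ∀ w : G, w ∈ Y ∧ h w = h x := by
    intro w
    have := conn_univ hS x trivial w trivial
    induction this with
    | refl => exact ⟨hxY, rfl⟩
    | @tail b c _ hbc ih => exact step b ih.1 ih.2 c hbc.2.2
  have : (Set.univ : Set G).Finite := hfin.subset (fun w _ => (huniv w).1)
  exact Set.infinite_univ this

theorem dir_of_lip {f g : G → ℝ} (hf : Dir S f)
    (h : ∀ x y, Adj S x y → |g y - g x| ≤ |f y - f x|) : Dir S g := by
  unfold Dir at *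
  refine Summable.of_nonneg_of_le (fun _ => sq_nonneg _) (fun p => ?_) hf
  exact sq_le_sq.2 (h _ _ (by simp [Adj]))

theorem exists_cls (hS : TopHyp S) (hinf : Infinite G) {h : G → ℝ} (hd : Dir S h)
    (hh : ∀ x, Pop S h x = h x) {x0 y0 : G} (hlt : h x0 < h y0) :
    ∃ f, ClsS S f ∧ ∃ a b : ℝ, a < b ∧ {x | f x ≤ a}.Infinite ∧ {x | b ≤ f x}.Infinite := by
  classical
  have hStd := hS.toStd
  have := countable_of_std hStd
  set f1 : G → ℝ := mm S h x0 with hf1
  set g2 : G → ℝ := mm S (fun y => - f1 y) y0 with hg2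
  set f2 : G → ℝ := fun x => - g2 x with hf2
  have hlip2 : ∀ x y, Adj S x y → |f2 y - f2 x| ≤ |h y - h x| := by
    intro x y hxy
    have h1 := mm_lip hStd (fun y => - f1 y) y0 hxy
    have h2 := mm_lip hStd h x0 hxy
    have e1 : |f2 y - f2 x| = |mm S (fun y => - f1 y) y0 y - mm S (fun y => - f1 y) y0 x| := by
      simp only [hf2, hg2]
      rw [← abs_neg]; congr 1; ring
    have e2 : |(fun y => - f1 y) y - (fun y => - f1 y) x| = |f1 y - f1 x| := by
      rw [← abs_neg]; congr 1; simp only; ring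
    rw [e1]
    refine h1.trans ?_
    rw [e2]
    exact h2
  have hf2_le : ∀ x, f2 x ≤ f1 x := by
    intro x
    have := le_mm hStd (fun y => - f1 y) y0 x
    simp only [hf2, hg2]
    linarith
  -- small on an infinite set
  have hsmall : ∀ x ∈ comp S {y | h y ≤ h x0} x0, f2 x ≤ h x0 := by
    intro x hx
    exact (hf2_le x).trans (mm_le h x0 x hx)
  have hbig : ∀ x ∈ comp S {y | (fun y => - h y) y ≤ (fun y => - h y) y0} y0, h y0 ≤ f2 x := by
    intro x hx
    have hsub : {y | (fun y => - h y) y ≤ (fun y => - h y) y0} ⊆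
        {y | (fun y => - f1 y) y ≤ - h y0} := by
      intro y hy
      have h1 : h y ≤ f1 y := le_mm hStd h x0 y
      have h2 : - h y ≤ - h y0 := hy
      show - f1 y ≤ - h y0
      linarith
    have := mm_le (fun y => - f1 y) y0 x (comp_mono hsub y0 hx)
    simp only [hf2, hg2]
    linarith
  have hinf1 := infinite_comp hStd hinf hh x0
  have hinf2 := infinite_comp (h := fun y => - h y) hStd hinf (by
    intro x
    have := hh x
    unfold Pop at this ⊢
    rw [Finset.sum_neg_distrib, neg_div, this]) y0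
  -- the truncated function
  set a := h x0
  set b := h y0
  set φ : G → ℝ := fun x => max a (min (f2 x) b) with hφ
  have hcomp : ∀ t : ℝ, t ∉ Set.range f1 → t ∉ Set.range f2 → FinC S {x | f2 x < t} := by
    intro t ht1 ht2
    have e1 : {x | f1 x < t} = comp S {y | h y < t} x0 := by
      ext x; exact mm_lt_iff hStd h x0 x t
    have e2 : {x | f1 x < t}ᶜ = {x | - f1 x < - t} := by
      ext x
      simp only [Set.mem_compl_iff, Set.mem_ofPred_eq, not_lt, neg_lt_neg_iff]
      constructor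
      · intro h; exact lt_of_le_of_ne h (fun e => ht1 ⟨x, e.symm⟩)
      · intro h; exact h.le
    have e3 : {x | f2 x < t}ᶜ = comp S {x | f1 x < t}ᶜ y0 := by
      rw [e2]
      ext x
      rw [← mm_lt_iff hStd (fun y => - f1 y) y0 x (-t)]
      simp only [Set.mem_compl_iff, Set.mem_ofPred_eq, not_lt, hf2, hg2]
      constructor
      · intro h
        refine lt_of_le_of_ne (by linarith) (fun e => ht2 ⟨x, ?_⟩)
        simp only [hf2, hg2]; linarith
      · intro h; linarith
    have c1 : CConn S {x | f1 x < t} := by rw [e1]; exact conn_comp hStd x0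
    have c2 : CConn S {x | f2 x < t}ᶜ := by rw [e3]; exact conn_comp hStd y0
    have c3 : CConn S {x | f2 x < t} := by
      have : {x | f2 x < t} = (comp S {x | f1 x < t}ᶜ y0)ᶜ := by rw [← e3, compl_compl]
      rw [this]
      exact conn_compl_comp hStd c1 y0
    exact finC_of_conn hS (conn_iff.2 c3) (conn_iff.2 c2)
  have hφfin : ∀ t : ℝ, t ∉ Set.range f1 → t ∉ Set.range f2 → FinC S {x | φ x < t} := by
    intro t ht1 ht2
    by_cases hta : t ≤ a
    · have : {x | φ x < t} = ∅ := by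
        ext x
        simp only [Set.mem_ofPred_eq, Set.mem_empty_iff_false, iff_false, not_lt, hφ]
        exact hta.trans (le_max_left _ _)
      rw [this]
      refine finC_of_finite hStd ?_
      have : bd S (∅ : Set G) = ∅ := by ext e; simp [bd]
      rw [this]; exact Set.finite_empty
    · push Not at hta
      by_cases htb : b < t
      · have : {x | φ x < t} = Set.univ := by
          ext x
          simp only [Set.mem_ofPred_eq, Set.mem_univ, iff_true, hφ]
          exact max_lt hta (lt_of_le_of_lt (min_le_right _ _) htb)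
        rw [this]
        refine finC_of_finite hStd ?_
        have : bd S (Set.univ : Set G) = ∅ := by ext e; simp [bd]
        rw [this]; exact Set.finite_empty
      · push Not at htb
        have : {x | φ x < t} = {x | f2 x < t} := by
          ext x
          simp only [Set.mem_ofPred_eq, hφ, max_lt_iff, min_lt_iff]
          constructor
          · rintro ⟨_, h | h⟩
            · exact h
            · exact absurd h (not_lt.2 htb)
          · intro h; exact ⟨hta, Or.inl h⟩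
        rw [this]; exact hcomp t ht1 ht2
  refine ⟨φ, ⟨?_, ⟨max |a| |b|, ?_⟩, ?_⟩, a, b, hlt, ?_, ?_⟩
  · -- Dirichlet
    refine dir_of_lip hd (fun x y hxy => ?_)
    refine le_trans ?_ (hlip2 x y hxy)
    simp only [hφ]
    have h1 : |max a (min (f2 y) b) - max a (min (f2 x) b)| ≤ |min (f2 y) b - min (f2 x) b| :=
      by rw [max_comm a, max_comm a]; exact abs_max_sub_max_le_abs _ _ _
    refine h1.trans ?_
    rw [min_def, min_def]; split_ifs <;> rw [abs_le] <;> constructor <;>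
      first
      | (have := neg_abs_le (f2 y - f2 x); linarith [le_abs_self (f2 y - f2 x), abs_nonneg (f2 y - f2 x)])
  · intro x
    rw [abs_le]
    have h1 : a ≤ φ x := le_max_left _ _
    have h2 : φ x ≤ b := max_le hlt.le (min_le_right _ _)
    constructor
    · have := neg_abs_le a
      have := le_max_left |a| |b|
      linarith
    · have := le_abs_self b
      have := le_max_right |a| |b|
      linarith
  · have hc : (Set.range f1 ∪ Set.range f2).Countable :=
      (Set.countable_range f1).union (Set.countable_range f2)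
    filter_upwards [hc.ae_notMem volume] with t ht
    exact hφfin t (fun h => ht (Or.inl h)) (fun h => ht (Or.inr h))
  · refine hinf1.mono (fun x hx => ?_)
    have := hsmall x hx
    show φ x ≤ a
    simp only [hφ]
    exact max_le le_rfl ((min_le_left _ _).trans this)
  · refine hinf2.mono (fun x hx => ?_)
    have := hbig x hx
    show b ≤ φ x
    simp only [hφ]
    exact le_max_of_le_right (le_min this le_rfl)

/-- Node N4. -/
theorem nMono (hD : NDecomp) : NMono := by
  intro G _ S hS hN hinf ⟨f, hf, hnc⟩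
  obtain ⟨f0, h, hsum, hf0, hh, hd, _⟩ := hD G S hS.toStd hN hinf f hf
  by_cases hconst : ∃ x y, h x < h y
  · obtain ⟨x0, y0, hlt⟩ := hconst
    exact exists_cls hS hinf hd hh hlt
  · exfalso
    push Not at hconst
    apply hnc
    refine ⟨h 1, ?_⟩
    have : (fun x => (f x - h 1) ^ 2) = fun x => f0 x ^ 2 := by
      funext x
      have e : h x = h 1 := le_antisymm (hconst 1 x) (hconst x 1)
      rw [hsum x, e]; ring
    rw [this]; exact hf0

end Crest.Agent.R224.Mono
end
end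

-- ▼ part R224/Fam
section

/-!
Row 224 (helper912): the countable family of `ClsS` functions closed under translation, negation,
generic max and component functions (input of the compactification).
-/

set_option autoImplicit false

noncomputable section

namespace Crest.Agent.R224.Fam

open Relation MeasureTheory Set Crest.Agent.R224.FC

/-! ### countable closure -/

theorem exists_countable_closed {α : Type*} (P : α → Prop) (Φ : α → α → Set α)
    (hc : ∀ a b, (Φ a b).Countable) (hP : ∀ a b, ∀ c ∈ Φ a b, P c)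
    (A0 : Set α) (hA0 : A0.Countable) (hA0P : ∀ a ∈ A0, P a) :
    ∃ A : Set α, A.Countable ∧ A0 ⊆ A ∧ (∀ a ∈ A, P a) ∧ ∀ a ∈ A, ∀ b ∈ A, Φ a b ⊆ A := by
  let R : ℕ → Set α := fun n => Nat.rec A0 (fun _ B => B ∪ ⋃ a ∈ B, ⋃ b ∈ B, Φ a b) n
  have hRs : ∀ n, R (n + 1) = R n ∪ ⋃ a ∈ R n, ⋃ b ∈ R n, Φ a b := fun n => rfl
  have hmono : Monotone R := monotone_nat_of_le_succ (fun n => by
    rw [hRs]; exact Set.subset_union_left)
  have hcount : ∀ n, (R n).Countable := by
    intro n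
    induction n with
    | zero => exact hA0
    | succ n ih =>
        rw [hRs]
        exact ih.union (ih.biUnion fun a _ => ih.biUnion fun b _ => hc a b)
  have hPn : ∀ n, ∀ a ∈ R n, P a := by
    intro n
    induction n with
    | zero => exact hA0P
    | succ n ih =>
        rw [hRs]
        rintro a (ha | ha)
        · exact ih a ha
        · simp only [Set.mem_iUnion] at ha
          obtain ⟨b, _, c, _, h⟩ := ha
          exact hP b c a h
  refine ⟨⋃ n, R n, Set.countable_iUnion hcount, Set.subset_iUnion R 0, ?_, ?_⟩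
  · intro a ha
    obtain ⟨n, hn⟩ := Set.mem_iUnion.1 ha
    exact hPn n a hn
  · intro a ha b hb c hc
    obtain ⟨n, hn⟩ := Set.mem_iUnion.1 ha
    obtain ⟨m, hm⟩ := Set.mem_iUnion.1 hb
    refine Set.mem_iUnion.2 ⟨max n m + 1, ?_⟩
    rw [hRs]
    right
    simp only [Set.mem_iUnion]
    exact ⟨a, hmono (le_max_left n m) hn, b, hmono (le_max_right n m) hm, hc⟩

variable {G : Type} [Group G] {S : Finset G}

/-! ### translations -/

theorem bd_translate (A : Set G) (γ : G) (e : G × G) :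
    e ∈ bd S {x | γ * x ∈ A} ↔ (γ * e.1, γ * e.2) ∈ bd S A := by
  simp only [bd, Set.mem_ofPred_eq, adj_smul]

theorem finC_translate {A : Set G} (γ : G) (h : FinC S A) : FinC S {x | γ * x ∈ A} := by
  obtain ⟨F, hF, hFs, h⟩ := h
  refine ⟨(fun e : G × G => (γ⁻¹ * e.1, γ⁻¹ * e.2)) '' F, hF.image _, ?_, ?_⟩
  · rintro _ ⟨e, he, rfl⟩
    rw [bd_translate]
    simpa using hFs he
  · intro p hp
    rw [bd_translate] at hp
    obtain ⟨q, hq, hr⟩ := h _ hp
    refine ⟨(γ⁻¹ * q.1, γ⁻¹ * q.2), ⟨q, hq, rfl⟩, ?_⟩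
    have := rtg_map (s := fun a b => tstep S a b ∧ a ∈ bd S {x | γ * x ∈ A} ∧
      b ∈ bd S {x | γ * x ∈ A}) (fun e : G × G => (γ⁻¹ * e.1, γ⁻¹ * e.2)) (fun a b hab => ?_) hr
    · simpa using this
    · obtain ⟨h1, h2, h3⟩ := hab
      refine ⟨?_, ?_, ?_⟩
      · rcases h1 with ⟨h1, h4⟩ | ⟨h1, h4⟩
        · exact Or.inl ⟨by simp [h1], adj_smul _ |>.2 h4⟩
        · exact Or.inr ⟨by simp [h1], adj_smul _ |>.2 h4⟩
      · rw [bd_translate]; simpa using h2
      · rw [bd_translate]; simpa using h3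

theorem dir_translate {f : G → ℝ} (γ : G) (h : Dir S f) : Dir S (fun x => f (γ * x)) := by
  unfold Dir at *
  have := (Equiv.prodCongr (Equiv.mulLeft γ) (Equiv.refl S)).summable_iff.2 h
  refine this.congr (fun p => ?_)
  simp [Function.comp, mul_assoc]

theorem dir_neg {f : G → ℝ} (h : Dir S f) : Dir S (fun x => - f x) := by
  unfold Dir at *
  refine h.congr (fun p => ?_)
  ring

theorem cls_translate {f : G → ℝ} (γ : G) (h : ClsS S f) : ClsS S (fun x => f (γ * x)) where
  dir := dir_translate γ h.dir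
  bdd := by obtain ⟨C, hC⟩ := h.bdd; exact ⟨C, fun x => hC _⟩
  fin := by
    filter_upwards [h.fin] with t ht
    exact finC_translate γ ht

theorem cls_neg (hS : Std S) {f : G → ℝ} (h : ClsS S f) : ClsS S (fun x => - f x) where
  dir := dir_neg h.dir
  bdd := by obtain ⟨C, hC⟩ := h.bdd; exact ⟨C, fun x => by simpa using hC x⟩
  fin := by
    have := Mono.countable_of_std hS
    have h1 : ∀ᵐ t : ℝ, FinC S {x | f x < -t} :=
      (Measure.measurePreserving_neg (volume : Measure ℝ)).quasiMeasurePreserving.ae h.fin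
    have h2 : (Set.range (fun x => - f x)).Countable := Set.countable_range _
    filter_upwards [h1, h2.ae_notMem volume] with t ht ht2
    have e : {x | - f x < t} = {x | f x < -t}ᶜ := by
      ext x
      simp only [Set.mem_ofPred_eq, Set.mem_compl_iff, not_lt]
      constructor
      · intro h; linarith
      · intro h
        refine lt_of_le_of_ne (by linarith) (fun e => ht2 ⟨x, e⟩)
    rw [e]
    exact finC_compl hS ht

theorem cls_of_finite_support (hS : Std S) {f : G → ℝ} (h : (Function.support f).Finite) :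
    ClsS S f where
  dir := by
    classical
    unfold Dir
    refine summable_of_hasFiniteSupport ?_
    -- support inside a finite set
    have hfin : ((fun p : G × S => p.1) ⁻¹' (Function.support f) ∪
        (fun p : G × S => p.1 * (p.2 : G)) ⁻¹' (Function.support f)).Finite := by
      refine Set.Finite.union ?_ ?_
      · refine Set.Finite.subset (h.prod (Set.finite_univ (α := S))) ?_
        intro p hp
        exact ⟨hp, trivial⟩
      · refine Set.Finite.subset ((h.prod (Set.finite_univ (α := S))).image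
          (fun q : G × S => (q.1 * (q.2 : G)⁻¹, q.2))) ?_
        intro p hp
        exact ⟨(p.1 * (p.2 : G), p.2), ⟨hp, trivial⟩, by simp⟩
    refine hfin.subset ?_
    intro p hp
    by_contra hcon
    simp only [Set.mem_union, Set.mem_preimage, Function.mem_support, not_or, not_not] at hcon
    apply hp
    simp [hcon.1, hcon.2]
  bdd := by
    obtain ⟨C, hC⟩ := (h.image (fun x => |f x|)).bddAbove
    refine ⟨max C 0, fun x => ?_⟩
    by_cases hx : f x = 0
    · rw [hx]; simp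
    · exact le_max_of_le_left (hC ⟨x, hx, rfl⟩)
  fin := by
    refine Filter.Eventually.of_forall (fun t => finC_of_finite hS ?_)
    -- the wall consists of edges touching the support
    have hfin : ((Function.support f) ×ˢ ((S : Set G))).Finite := h.prod S.finite_toSet
    refine Set.Finite.subset ((hfin.image (fun q : G × G => (q.1, q.1 * q.2))).union
      (hfin.image (fun q : G × G => (q.1 * q.2, q.1)))) ?_
    rintro ⟨a, b⟩ ⟨hab, ha, hb⟩
    simp only [Set.mem_ofPred_eq] at ha hb hab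
    by_cases hfa : f a = 0
    · have hfb : f b ≠ 0 := by
        intro hfb
        rw [hfa] at ha; rw [hfb] at hb
        exact hb ha
      right
      exact ⟨(b, b⁻¹ * a), ⟨hfb, symm hS hab⟩, by simp⟩
    · left
      exact ⟨(a, a⁻¹ * b), ⟨hfa, hab⟩, by simp⟩

/-! ### the closed family -/

/-- countable family of `ClsS`-functions closed under the operations of the note -/
structure ClFam (S : Finset G) (A : Set (G → ℝ)) : Prop where
  ctbl : A.Countable
  cls : ∀ f ∈ A, ClsS S f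
  delta : ∀ x : G, Set.indicator ({x} : Set G) (fun _ => (1 : ℝ)) ∈ A
  neg : ∀ f ∈ A, (fun x => - f x) ∈ A
  trans : ∀ f ∈ A, ∀ γ : G, (fun x => f (γ * x)) ∈ A
  mx : ∀ f ∈ A, ∀ g ∈ A, ∀ p q : ℝ, p < q → ∃ s, p < s ∧ s < q ∧
    (fun x => max (f x) (g x + s)) ∈ A
  cmp : ∀ f ∈ A, ∀ p q : ℝ, p < q → ∃ t, p < t ∧ t < q ∧ FinC S {x | f x < t} ∧
    ∀ o : G, Set.indicator (comp S {y | f y < t} o) (fun x => t - f x) ∈ A

open Classical in
/-- choice of shifts -/
def shift (S : Finset G) (f g : G → ℝ) (pq : ℚ × ℚ) : ℝ :=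
  if h : ∃ s : ℝ, (pq.1 : ℝ) < s ∧ s < pq.2 ∧ ClsS S (fun x => max (f x) (g x + s)) then
    h.choose else 0

open Classical in
/-- choice of levels -/
def level (S : Finset G) (f : G → ℝ) (pq : ℚ × ℚ) : ℝ :=
  if h : ∃ t : ℝ, (pq.1 : ℝ) < t ∧ t < pq.2 ∧ FinC S {x | f x < t} then
    h.choose else 0

/-- one step of the closure -/
def Φ (S : Finset G) (f g : G → ℝ) : Set (G → ℝ) :=
  {φ | ClsS S φ} ∩
    ({fun x => - f x} ∪ Set.range (fun γ : G => fun x => f (γ * x)) ∪
      Set.range (fun pq : ℚ × ℚ => fun x => max (f x) (g x + shift S f g pq)) ∪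
      Set.range (fun q : (ℚ × ℚ) × G =>
        Set.indicator (comp S {y | f y < level S f q.1} q.2) (fun x => level S f q.1 - f x)))

theorem exists_mem_Ioo_of_ae {P : ℝ → Prop} (h : ∀ᵐ t : ℝ, P t) {p q : ℝ} (hpq : p < q) :
    ∃ t, p < t ∧ t < q ∧ P t := by
  by_contra hcon
  push Not at hcon
  have hsub : Set.Ioo p q ⊆ {t | ¬ P t} := fun t ht => hcon t ht.1 ht.2
  have h0 : volume {t | ¬ P t} = 0 := h
  have h1 : volume (Set.Ioo p q) = 0 := measure_mono_null hsub h0
  rw [Real.volume_Ioo, ENNReal.ofReal_eq_zero] at h1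
  linarith

theorem exists_family (hT : TopHyp S) (hinf : Infinite G) (hMax : NMax) (hComp : NComp)
    (A0 : Set (G → ℝ)) (hA0 : A0.Countable) (hA0c : ∀ f ∈ A0, ClsS S f) :
    ∃ A : Set (G → ℝ), ClFam S A ∧ A0 ⊆ A := by
  classical
  have hS := hT.toStd
  have hctb := Mono.countable_of_std hS
  obtain ⟨A, hAc, hA0A, hAP, hAcl⟩ := exists_countable_closed (ClsS S) (Φ S)
    (fun f g => by
      refine Set.Countable.mono Set.inter_subset_right ?_
      refine Set.Countable.union (Set.Countable.union (Set.Countable.union ?_ ?_) ?_) ?_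
      · exact Set.countable_singleton _
      · exact Set.countable_range _
      · exact Set.countable_range _
      · exact Set.countable_range _)
    (fun f g c hc => hc.1)
    (A0 ∪ Set.range (fun x : G => Set.indicator ({x} : Set G) (fun _ => (1 : ℝ))))
    (hA0.union (Set.countable_range _)) (by
      rintro f (hf | ⟨x, rfl⟩)
      · exact hA0c f hf
      · refine cls_of_finite_support hS ?_
        refine (Set.finite_singleton x).subset (fun y hy => ?_)
        by_contra hne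
        exact hy (Set.indicator_of_notMem hne _))
  refine ⟨A, ⟨hAc, hAP, fun x => hA0A (Or.inr ⟨x, rfl⟩), ?_, ?_, ?_, ?_⟩,
    fun f hf => hA0A (Or.inl hf)⟩
  · intro f hf
    refine hAcl f hf f hf ⟨cls_neg hS (hAP f hf), ?_⟩
    exact Or.inl (Or.inl (Or.inl rfl))
  · intro f hf γ
    refine hAcl f hf f hf ⟨cls_translate γ (hAP f hf), ?_⟩
    exact Or.inl (Or.inl (Or.inr ⟨γ, rfl⟩))
  · intro f hf g hg p q hpq
    obtain ⟨p', hp1, hp2⟩ := exists_rat_btwn hpq
    obtain ⟨q', hq1, hq2⟩ := exists_rat_btwn hp2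
    have hex : ∃ s : ℝ, ((p' : ℚ) : ℝ) < s ∧ s < (q' : ℚ) ∧
        ClsS S (fun x => max (f x) (g x + s)) :=
      exists_mem_Ioo_of_ae (hMax G S hT hinf f g (hAP f hf) (hAP g hg)) hq1
    have hsh : shift S f g (p', q') = hex.choose := by
      unfold shift
      rw [dif_pos hex]
    obtain ⟨h1, h2, h3⟩ := hex.choose_spec
    refine ⟨shift S f g (p', q'), ?_, ?_, ?_⟩
    · rw [hsh]; linarith
    · rw [hsh]; linarith
    · refine hAcl f hf g hg ⟨?_, Or.inl (Or.inr ⟨(p', q'), rfl⟩)⟩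
      show ClsS S _
      rw [hsh]; exact h3
  · intro f hf p q hpq
    obtain ⟨p', hp1, hp2⟩ := exists_rat_btwn hpq
    obtain ⟨q', hq1, hq2⟩ := exists_rat_btwn hp2
    have hex : ∃ t : ℝ, ((p' : ℚ) : ℝ) < t ∧ t < (q' : ℚ) ∧ FinC S {x | f x < t} :=
      exists_mem_Ioo_of_ae (hAP f hf).fin hq1
    have hsh : level S f (p', q') = hex.choose := by
      unfold level
      rw [dif_pos hex]
    obtain ⟨h1, h2, h3⟩ := hex.choose_spec
    refine ⟨level S f (p', q'), ?_, ?_, ?_, ?_⟩
    · rw [hsh]; linarith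
    · rw [hsh]; linarith
    · rw [hsh]; exact h3
    · intro o
      refine hAcl f hf f hf ⟨?_, Or.inr ⟨((p', q'), o), rfl⟩⟩
      have h4 := hComp G S hT hinf f (hAP f hf) (level S f (p', q'))
        (comp S {y | f y < level S f (p', q')} o) (fun x hx => hx.1)
        (conn_iff.2 (conn_comp hS o)) (fun x hx y hxy hy => (isPiece_comp o).2 x y hx hy hxy)
      show ClsS S _
      convert h4 using 1
      funext x
      simp only [Set.indicator_apply]

end Crest.Agent.R224.Fam
end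
end

-- ▼ part R224/Cpt
section

/-!
Row 224 (helper912): the compactification `Z = G ⊔ T` of a closed family `A` of functions
(closure of `G` in `A → ℝ`).
-/

set_option autoImplicit false
set_option linter.unusedSectionVars false

noncomputable section

namespace Crest.Agent.R224.Cpt

open Relation MeasureTheory Set Filter Topology Crest.Agent.R224.FC Crest.Agent.R224.Fam

variable {G : Type} [Group G] {S : Finset G} {A : Set (G → ℝ)}

/-- evaluation map -/
def ev (A : Set (G → ℝ)) (x : G) : A → ℝ := fun f => f.1 x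

/-- closure of the group in the product -/
def Zs (A : Set (G → ℝ)) : Set (A → ℝ) := closure (Set.range (ev A))

/-- the compactification -/
abbrev Z (A : Set (G → ℝ)) : Type := ↥(Zs A)


/-- the embedding of the group -/
def io (A : Set (G → ℝ)) (x : G) : Z A := ⟨ev A x, subset_closure ⟨x, rfl⟩⟩

/-- extension of `f ∈ A` -/
def ex (f : A) (z : Z A) : ℝ := z.1 f

theorem ex_io (f : A) (x : G) : ex f (io A x) = f.1 x := rfl

theorem continuous_ex (f : A) : Continuous (ex f) :=
  (continuous_apply f).comp continuous_subtype_val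

theorem ext_Z {z w : Z A} (h : ∀ f : A, ex f z = ex f w) : z = w :=
  Subtype.ext (funext h)

theorem dense_io : Dense (Set.range (io A)) := by
  intro z
  have hz : z.1 ∈ closure (Set.range (ev A)) := z.2
  have hr : Set.range (ev A) = Subtype.val '' (Set.range (io A)) := by
    rw [← Set.range_comp]; rfl
  rw [hr] at hz
  exact closure_subtype.2 hz

theorem compact_Z (hA : ClFam S A) : CompactSpace (Z A) := by
  have hb : ∀ f : A, ∃ C, ∀ x, |f.1 x| ≤ C := fun f => (hA.cls f.1 f.2).bdd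
  choose C hC using hb
  have hK : IsCompact (Set.pi Set.univ (fun f : A => Set.Icc (-C f) (C f))) :=
    isCompact_univ_pi (fun f => isCompact_Icc)
  have hsub : Zs A ⊆ Set.pi Set.univ (fun f : A => Set.Icc (-C f) (C f)) := by
    refine closure_minimal ?_ hK.isClosed
    rintro _ ⟨x, rfl⟩ f _
    exact abs_le.1 (hC f x)
  have : IsCompact (Zs A) := hK.of_isClosed_subset isClosed_closure hsub
  exact isCompact_iff_compactSpace.1 this

theorem secondCountable_Z (hA : ClFam S A) : SecondCountableTopology (Z A) := by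
  have : Countable A := hA.ctbl.to_subtype
  exact inferInstanceAs (SecondCountableTopology ↥(Zs A))

theorem metrizable_Z (hA : ClFam S A) : TopologicalSpace.MetrizableSpace (Z A) := by
  have := compact_Z hA
  have := secondCountable_Z hA
  exact TopologicalSpace.metrizableSpace_of_t3_secondCountable (Z A)

/-- translation on indices -/
def tr (hA : ClFam S A) (γ : G) (f : A) : A := ⟨fun x => f.1 (γ * x), hA.trans f.1 f.2 γ⟩

theorem smul_mem (hA : ClFam S A) (γ : G) (z : Z A) : (fun f => z.1 (tr hA γ f)) ∈ Zs A := by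
  have hcont : Continuous (fun (z : A → ℝ) (f : A) => z (tr hA γ f)) :=
    continuous_pi (fun f => continuous_apply _)
  have hmap : Set.MapsTo (fun (z : A → ℝ) (f : A) => z (tr hA γ f)) (Set.range (ev A))
      (Set.range (ev A)) := by
    rintro _ ⟨x, rfl⟩
    exact ⟨γ * x, rfl⟩
  exact (hmap.closure hcont) z.2

/-- the action of the group -/
@[instance_reducible] def act (hA : ClFam S A) : MulAction G (Z A) where
  smul γ z := ⟨fun f => z.1 (tr hA γ f), smul_mem hA γ z⟩
  one_smul z := by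
    refine Subtype.ext (funext fun f => ?_)
    show z.1 (tr hA 1 f) = z.1 f
    refine congrArg z.1 (Subtype.ext (funext fun x => ?_))
    show f.1 (1 * x) = f.1 x
    rw [one_mul]
  mul_smul γ δ z := by
    refine Subtype.ext (funext fun f => ?_)
    show z.1 (tr hA (γ * δ) f) = z.1 (tr hA δ (tr hA γ f))
    refine congrArg z.1 (Subtype.ext (funext fun x => ?_))
    show f.1 (γ * δ * x) = f.1 (γ * (δ * x))
    rw [mul_assoc]

theorem act_cont (hA : ClFam S A) (γ : G) :
    letI := act hA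
    Continuous fun z : Z A => γ • z := by
  letI := act hA
  refine Continuous.subtype_mk (f := fun z : Z A => fun f : A => z.1 (tr hA γ f)) ?_ _
  exact continuous_pi (fun f => (continuous_apply _).comp continuous_subtype_val)

theorem act_io (hA : ClFam S A) (γ x : G) :
    letI := act hA
    γ • io A x = io A (γ * x) := rfl

/-- the delta functions as members of the family -/
def dl (hA : ClFam S A) (x : G) : A := ⟨Set.indicator ({x} : Set G) (fun _ => (1 : ℝ)), hA.delta x⟩

theorem ex_dl_io (hA : ClFam S A) (x y : G) :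
    ex (dl hA x) (io A y) = Set.indicator ({x} : Set G) (fun _ => (1 : ℝ)) y := rfl

theorem io_inj (hA : ClFam S A) : Function.Injective (io A) := by
  intro x y h
  have h1 : ex (dl hA x) (io A x) = ex (dl hA x) (io A y) := by rw [h]
  rw [ex_dl_io, ex_dl_io, Set.indicator_of_mem (by simp)] at h1
  by_contra hne
  rw [Set.indicator_of_notMem (by simpa using fun h => hne h.symm)] at h1
  exact one_ne_zero h1

theorem eq_io_of_dl (hA : ClFam S A) (x : G) (z : Z A) (h : 1 / 2 < ex (dl hA x) z) :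
    z = io A x := by
  have hopen : IsOpen {w : Z A | 1 / 2 < ex (dl hA x) w} :=
    isOpen_lt continuous_const (continuous_ex _)
  have h1 : z ∈ closure ({w : Z A | 1 / 2 < ex (dl hA x) w} ∩ Set.range (io A)) :=
    hopen.inter_closure ⟨h, dense_io z⟩
  have h2 : {w : Z A | 1 / 2 < ex (dl hA x) w} ∩ Set.range (io A) ⊆ {io A x} := by
    rintro _ ⟨hw, y, rfl⟩
    by_cases hy : y = x
    · subst hy; rfl
    · exfalso
      have : (1 : ℝ) / 2 < ex (dl hA x) (io A y) := hw
      rw [ex_dl_io, Set.indicator_of_notMem (by simpa using hy)] at this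
      norm_num at this
  have h3 := closure_mono h2 h1
  simpa using h3

theorem isol (hA : ClFam S A) (x : G) : IsOpen ({io A x} : Set (Z A)) := by
  have : ({io A x} : Set (Z A)) = {w : Z A | 1 / 2 < ex (dl hA x) w} := by
    ext w
    constructor
    · intro hw
      rw [Set.mem_singleton_iff] at hw
      subst hw
      show (1 : ℝ) / 2 < ex (dl hA x) (io A x)
      rw [ex_dl_io, Set.indicator_of_mem (by simp)]
      norm_num
    · intro hw
      exact eq_io_of_dl hA x w hw
  rw [this]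
  exact isOpen_lt continuous_const (continuous_ex _)


/-- infinite subsets of the group accumulate at the boundary -/
theorem exists_acc (hA : ClFam S A) {E : Set G} (hE : E.Infinite) :
    ∃ z : Z A, z ∉ Set.range (io A) ∧ z ∈ closure (io A '' E) := by
  have := compact_Z hA
  by_contra hcon
  push Not at hcon
  have hsub : closure (io A '' E) ⊆ Set.range (io A) := by
    intro z hz
    by_contra h
    exact hcon z h hz
  have hK : IsCompact (closure (io A '' E)) := isClosed_closure.isCompact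
  obtain ⟨t, ht⟩ := hK.elim_finite_subcover (fun x : G => ({io A x} : Set (Z A)))
    (fun x => isol hA x) (by
      intro z hz
      obtain ⟨x, rfl⟩ := hsub hz
      exact Set.mem_iUnion.2 ⟨x, rfl⟩)
  apply hE
  refine t.finite_toSet.subset (fun x hx => ?_)
  have hx' := ht (subset_closure ⟨x, hx, rfl⟩)
  simp only [Set.mem_iUnion] at hx'
  obtain ⟨y, hy, hxy⟩ := hx'
  have := io_inj hA hxy
  rw [this]; exact hy

end Crest.Agent.R224.Cpt
end
end

-- ▼ part R224/Bdry

/-!
Row 224, node NBdry (helper912).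
-/

set_option autoImplicit false
set_option linter.unusedSectionVars false

noncomputable section

namespace Crest.Agent.R224.BdryN

open Relation MeasureTheory Set Filter Topology Crest.Agent.R224.FC Crest.Agent.R224.Fam

variable {G : Type} [Group G] {S : Finset G} {A : Set (G → ℝ)}

/-- the compactification, abstractly -/
structure IsCpt (S : Finset G) (A : Set (G → ℝ)) {Z : Type} [MetricSpace Z] [MulAction G Z]
    (io : G → Z) (ex : A → Z → ℝ) : Prop where
  cont : ∀ g : G, Continuous fun z : Z => g • z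
  eqv : ∀ g h : G, g • io h = io (g * h)
  inj : Function.Injective io
  isol : ∀ g : G, IsOpen ({io g} : Set Z)
  dense : Dense (Set.range io)
  exc : ∀ f, Continuous (ex f)
  exio : ∀ f x, ex f (io x) = f.1 x
  sep : ∀ z w, (∀ f, ex f z = ex f w) → z = w
  acc : ∀ E : Set G, E.Infinite → ∃ z : Z, z ∉ Set.range io ∧ z ∈ closure (io '' E)

theorem exists_cpt (hA : ClFam S A) : ∃ (Z : Type) (_ : MetricSpace Z) (_ : CompactSpace Z)
    (_ : MulAction G Z) (io : G → Z) (ex : A → Z → ℝ), IsCpt S A io ex := by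
  have h1 := Cpt.compact_Z hA
  have h2 := Cpt.metrizable_Z hA
  letI m : MetricSpace (Cpt.Z A) := TopologicalSpace.metrizableSpaceMetric (Cpt.Z A)
  letI a := Cpt.act hA
  exact ⟨Cpt.Z A, m, h1, a, Cpt.io A, Cpt.ex,
    { cont := fun g => Cpt.act_cont hA g
      eqv := fun g h => Cpt.act_io hA g h
      inj := Cpt.io_inj hA
      isol := Cpt.isol hA
      dense := Cpt.dense_io
      exc := Cpt.continuous_ex
      exio := Cpt.ex_io
      sep := fun z w h => Cpt.ext_Z h
      acc := fun E hE => Cpt.exists_acc hA hE }⟩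

section abs

variable {Z : Type} [MetricSpace Z] [CompactSpace Z] [MulAction G Z] {io : G → Z}
  {ex : A → Z → ℝ}

/-- Uniformity lemma: finitely many coordinates control the distance. -/
theorem exists_unif (h : IsCpt S A io ex) {ε : ℝ} (hε : 0 < ε) :
    ∃ (F : Finset (A × ℕ)), ∀ z w : Z, (∀ q ∈ F, |ex q.1 z - ex q.1 w| ≤ 1 / ((q.2 : ℝ) + 1)) →
      dist z w < ε := by
  have hK : IsCompact {p : Z × Z | ε ≤ dist p.1 p.2} :=
    (isClosed_le continuous_const (continuous_fst.dist continuous_snd)).isCompact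
  obtain ⟨F, hF⟩ := hK.elim_finite_subcover
    (fun q : A × ℕ => {p : Z × Z | 1 / ((q.2 : ℝ) + 1) < |ex q.1 p.1 - ex q.1 p.2|})
    (fun q => isOpen_lt continuous_const
      (((h.exc q.1).comp continuous_fst).sub ((h.exc q.1).comp continuous_snd)).abs) (by
      rintro ⟨z, w⟩ hzw
      have hne : z ≠ w := by
        rintro rfl
        simp only [Set.mem_ofPred_eq, dist_self] at hzw
        linarith
      have : ∃ f, ex f z ≠ ex f w := by
        by_contra hcon
        push Not at hcon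
        exact hne (h.sep z w hcon)
      obtain ⟨f, hf⟩ := this
      obtain ⟨n, hn⟩ := exists_nat_one_div_lt (abs_pos.2 (sub_ne_zero.2 hf))
      exact Set.mem_iUnion.2 ⟨(f, n), hn⟩)
  refine ⟨F, fun z w hzw => ?_⟩
  by_contra hcon
  push Not at hcon
  have := hF (show (z, w) ∈ {p : Z × Z | ε ≤ dist p.1 p.2} from hcon)
  simp only [Set.mem_iUnion] at this
  obtain ⟨q, hq, hq2⟩ := this
  exact absurd (hzw q hq) (not_le.2 hq2)

/-- (CP) -/
theorem cp (hT : TopHyp S) (hinf : Infinite G) (hCP : NCP2) (hA : ClFam S A)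
    (h : IsCpt S A io ex) {ε : ℝ} (hε : 0 < ε) : ∃ K : Finset G, ∀ x : G, x ∉ K → ∀ z : Z,
    dist z (io x) ≤ ε ∨ dist (x⁻¹ • z) (io x⁻¹) ≤ ε := by
  classical
  obtain ⟨F, hF⟩ := exists_unif h hε
  have hex : ∀ q r : A × ℕ, ∃ K : Finset G, ∀ x, x ∉ K → ∀ y,
      |q.1.1 y - q.1.1 x| ≤ min (1 / ((q.2 : ℝ) + 1)) (1 / ((r.2 : ℝ) + 1)) ∨
      |r.1.1 (x⁻¹ * y) - r.1.1 x⁻¹| ≤ min (1 / ((q.2 : ℝ) + 1)) (1 / ((r.2 : ℝ) + 1)) := by
    intro q r
    exact hCP G S hT hinf q.1.1 r.1.1 (hA.cls _ q.1.2) (hA.cls _ r.1.2) _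
      (lt_min (by positivity) (by positivity))
  choose K hK using hex
  refine ⟨F.biUnion (fun q => F.biUnion (fun r => K q r)), fun x hx z => ?_⟩
  have hcl : IsClosed ({z : Z | dist z (io x) ≤ ε} ∪ {z | dist (x⁻¹ • z) (io x⁻¹) ≤ ε}) :=
    (isClosed_le (continuous_id.dist continuous_const) continuous_const).union
      (isClosed_le ((h.cont x⁻¹).dist continuous_const) continuous_const)
  have hz : z ∈ closure (Set.range io) := h.dense z
  refine hcl.closure_subset_iff.2 ?_ hz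
  rintro _ ⟨y, rfl⟩
  by_contra hcon
  simp only [Set.mem_union, Set.mem_ofPred_eq, not_or, not_le] at hcon
  obtain ⟨h1, h2⟩ := hcon
  have h1' : ∃ q ∈ F, 1 / ((q.2 : ℝ) + 1) < |ex q.1 (io y) - ex q.1 (io x)| := by
    by_contra hcon
    push Not at hcon
    exact absurd (hF _ _ hcon) (not_lt.2 h1.le)
  have h2' : ∃ r ∈ F, 1 / ((r.2 : ℝ) + 1) < |ex r.1 (x⁻¹ • io y) - ex r.1 (io x⁻¹)| := by
    by_contra hcon
    push Not at hcon
    exact absurd (hF _ _ hcon) (not_lt.2 h2.le)
  obtain ⟨q, hq, hq2⟩ := h1'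
  obtain ⟨r, hr, hr2⟩ := h2'
  rw [h.exio, h.exio] at hq2
  rw [h.eqv, h.exio, h.exio] at hr2
  have hxK : x ∉ K q r := by
    intro hmem
    exact hx (Finset.mem_biUnion.2 ⟨q, hq, Finset.mem_biUnion.2 ⟨r, hr, hmem⟩⟩)
  rcases hK q r x hxK y with h3 | h3
  · have := h3.trans (min_le_left _ _)
    linarith
  · have := h3.trans (min_le_right _ _)
    linarith

/-- Directedness of the basic neighbourhoods. -/
theorem basic_inter (hA : ClFam S A) (h : IsCpt S A io ex) (θ : Z) (f1 f2 : A) (t1 t2 : ℝ)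
    (h1 : ex f1 θ < t1) (h2 : ex f2 θ < t2) :
    ∃ (f3 : A) (t3 : ℝ), ex f3 θ < t3 ∧ ∀ z, ex f3 z < t3 → ex f1 z < t1 ∧ ex f2 z < t2 := by
  set η := min (t1 - ex f1 θ) (t2 - ex f2 θ) with hη
  have hη0 : 0 < η := lt_min (by linarith) (by linarith)
  obtain ⟨s, hs1, hs2, hmem⟩ := hA.mx f1.1 f1.2 f2.1 f2.2 (t1 - t2 - η / 3) (t1 - t2 + η / 3)
    (by linarith)
  -- the extension of the max is the max of the extensions
  have hmax : ∀ z, ex ⟨_, hmem⟩ z = max (ex f1 z) (ex f2 z + s) := by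
    intro z
    have hcl : IsClosed {z : Z | ex ⟨_, hmem⟩ z = max (ex f1 z) (ex f2 z + s)} :=
      isClosed_eq (h.exc _) ((h.exc f1).max ((h.exc f2).add continuous_const))
    refine hcl.closure_subset_iff.2 ?_ (h.dense z)
    rintro _ ⟨y, rfl⟩
    show ex ⟨_, hmem⟩ (io y) = max (ex f1 (io y)) (ex f2 (io y) + s)
    rw [h.exio, h.exio, h.exio]
  have e1 : η ≤ t1 - ex f1 θ := min_le_left _ _
  have e2 : η ≤ t2 - ex f2 θ := min_le_right _ _
  refine ⟨⟨_, hmem⟩, min t1 (t2 + s), ?_, ?_⟩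
  · rw [hmax]
    refine max_lt (lt_min ?_ ?_) (lt_min ?_ ?_) <;> linarith
  · intro z hz
    rw [hmax] at hz
    constructor
    · have := le_max_left (ex f1 z) (ex f2 z + s)
      have := min_le_left t1 (t2 + s)
      linarith
    · have := le_max_right (ex f1 z) (ex f2 z + s)
      have := min_le_right t1 (t2 + s)
      linarith

/-- Basic neighbourhoods. -/
theorem exists_basic (hA : ClFam S A) (h : IsCpt S A io ex) (θ : Z) {ε : ℝ} (hε : 0 < ε) :
    ∃ (f : A) (t : ℝ), ex f θ < t ∧ ∀ z, ex f z < t → dist z θ < ε := by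
  classical
  have hK : IsCompact {z : Z | ε ≤ dist z θ} :=
    (isClosed_le continuous_const (continuous_id.dist continuous_const)).isCompact
  -- cover
  obtain ⟨F, hF⟩ := hK.elim_finite_subcover
    (fun q : {q : A × ℝ // ex q.1 θ < q.2} => {z : Z | q.1.2 < ex q.1.1 z})
    (fun q => isOpen_lt continuous_const (h.exc q.1.1)) (by
      intro z hz
      have hne : z ≠ θ := by
        rintro rfl
        simp only [Set.mem_ofPred_eq, dist_self] at hz
        linarith
      have : ∃ f, ex f z ≠ ex f θ := by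
        by_contra hcon
        push Not at hcon
        exact hne (h.sep z θ hcon)
      obtain ⟨f, hf⟩ := this
      rcases lt_or_gt_of_ne hf with hf | hf
      · -- use the negation
        obtain ⟨fn, hfn⟩ : ∃ fn : A, fn.1 = fun x => - f.1 x := ⟨⟨_, hA.neg f.1 f.2⟩, rfl⟩
        have hneg : ∀ z, ex fn z = - ex f z := by
          intro z
          have hcl : IsClosed {z : Z | ex fn z = - ex f z} :=
            isClosed_eq (h.exc _) (h.exc f).neg
          refine hcl.closure_subset_iff.2 ?_ (h.dense z)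
          rintro _ ⟨y, rfl⟩
          show ex fn (io y) = - ex f (io y)
          rw [h.exio, h.exio, hfn]
        have e1 := hneg θ
        have e2 := hneg z
        refine Set.mem_iUnion.2 ⟨⟨(fn, - (ex f z + ex f θ) / 2), ?_⟩, ?_⟩
        · show ex fn θ < - (ex f z + ex f θ) / 2
          linarith
        · show - (ex f z + ex f θ) / 2 < ex fn z
          linarith
      · refine Set.mem_iUnion.2 ⟨⟨(f, (ex f z + ex f θ) / 2), ?_⟩, ?_⟩
        · show ex f θ < _
          linarith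
        · show _ < ex f z
          linarith)
  -- intersect
  have key : ∀ F : Finset {q : A × ℝ // ex q.1 θ < q.2},
      ∃ (f : A) (t : ℝ), ex f θ < t ∧ ∀ z, ex f z < t → ∀ q ∈ F, ex q.1.1 z < q.1.2 := by
    intro F
    induction F using Finset.induction_on with
    | empty =>
        obtain ⟨x⟩ : Nonempty G := ⟨1⟩
        exact ⟨⟨_, hA.delta x⟩, ex ⟨_, hA.delta x⟩ θ + 1, by linarith, by simp⟩
    | insert q F _ ih =>
        obtain ⟨f, t, h1, h2⟩ := ih
        obtain ⟨f3, t3, h3, h4⟩ := basic_inter hA h θ f q.1.1 t q.1.2 h1 q.2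
        refine ⟨f3, t3, h3, fun z hz r hr => ?_⟩
        rcases Finset.mem_insert.1 hr with rfl | hr
        · exact (h4 z hz).2
        · exact h2 z (h4 z hz).1 r hr
  obtain ⟨f, t, h1, h2⟩ := key F
  refine ⟨f, t, h1, fun z hz => ?_⟩
  by_contra hcon
  push Not at hcon
  have := hF (show z ∈ {z : Z | ε ≤ dist z θ} from hcon)
  simp only [Set.mem_iUnion] at this
  obtain ⟨q, hq, hq2⟩ := this
  exact absurd (h2 z hz q hq) (not_lt.2 (le_of_lt hq2))

/-- (LC) -/
theorem lc (hS : Std S) (hA : ClFam S A) (h : IsCpt S A io ex) (θ : Z) {ε : ℝ} (hε : 0 < ε) :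
    ∃ Y : Set G, Conn S Y ∧ (∀ x ∈ Y, dist (io x) θ < ε) ∧
    ∃ δ : ℝ, 0 < δ ∧ ∀ x : G, dist (io x) θ < δ → x ∈ Y := by
  classical
  obtain ⟨f, t, hft, hfz⟩ := exists_basic hA h θ hε
  obtain ⟨t', ht1, ht2, hfin, hcmp⟩ := hA.cmp f.1 f.2 (ex f θ) t hft
  obtain ⟨P, hP, hPc⟩ := finite_components hS hfin
  -- the component functions
  obtain ⟨g, hg⟩ : ∃ g : G → A, ∀ o, (g o).1 =
      Set.indicator (comp S {y | f.1 y < t'} o) (fun x => t' - f.1 x) :=
    ⟨fun o => ⟨_, hcmp o⟩, fun o => rfl⟩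
  -- on the group: every point of the sublevel set is in the component of some `p ∈ P`
  have hcomp : ∀ y, f.1 y < t' → ∃ p ∈ P, y ∈ comp S {y | f.1 y < t'} p := by
    intro y hy
    obtain ⟨p, hp, hr⟩ := hPc y hy
    exact ⟨p, hp, hy, rtg_cst_iff.1 hr⟩
  -- closed condition
  have hclosed : IsClosed ({z : Z | t' ≤ ex f z} ∪ ⋃ p ∈ P, {z | ex (g p) z = t' - ex f z}) := by
    refine (isClosed_le continuous_const (h.exc f)).union ?_
    refine isClosed_biUnion_finset (fun p _ => ?_)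
    exact isClosed_eq (h.exc _) (continuous_const.sub (h.exc f))
  have hθ : θ ∈ ({z : Z | t' ≤ ex f z} ∪ ⋃ p ∈ P, {z | ex (g p) z = t' - ex f z}) := by
    refine hclosed.closure_subset_iff.2 ?_ (h.dense θ)
    rintro _ ⟨y, rfl⟩
    by_cases hy : f.1 y < t'
    · right
      obtain ⟨p, hp, hyp⟩ := hcomp y hy
      simp only [Set.mem_iUnion]
      refine ⟨p, hp, ?_⟩
      show ex (g p) (io y) = t' - ex f (io y)
      rw [h.exio, h.exio, hg]
      exact Set.indicator_of_mem hyp _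
    · left
      show t' ≤ ex f (io y)
      rw [h.exio]
      exact not_lt.1 hy
  rcases hθ with hθ | hθ
  · exact absurd hθ (not_le.2 ht1)
  simp only [Set.mem_iUnion] at hθ
  obtain ⟨p, hp, hpθ⟩ := hθ
  have hpos : 0 < ex (g p) θ := by
    have : ex (g p) θ = t' - ex f θ := hpθ
    rw [this]; linarith
  have hopen : IsOpen {z : Z | 0 < ex (g p) z} := isOpen_lt continuous_const (h.exc _)
  obtain ⟨δ, hδ, hball⟩ := Metric.isOpen_iff.1 hopen θ hpos
  refine ⟨comp S {y | f.1 y < t'} p, conn_iff.2 (conn_comp hS p), ?_, δ, hδ, ?_⟩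
  · intro x hx
    refine hfz (io x) ?_
    rw [h.exio]
    exact lt_trans hx.1 ht2
  · intro x hx
    have h1 : 0 < ex (g p) (io x) := hball hx
    rw [h.exio] at h1
    by_contra hcon
    have : (g p).1 x = 0 := by rw [hg]; exact Set.indicator_of_notMem hcon _
    rw [this] at h1
    exact lt_irrefl _ h1

end abs

/-- Node N8. -/
theorem nBdry (hMono : NMono) (hMax : NMax) (hComp : NComp) (hCP : NCP2) : NBdry := by
  intro G _ S hT hN hinf hf
  obtain ⟨f, hfc, a, b, hab, hfa, hfb⟩ := hMono G S hT hN hinf hf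
  obtain ⟨A, hA, hfA⟩ := exists_family hT hinf hMax hComp {f} (Set.countable_singleton f)
    (by intro g hg; rw [Set.mem_singleton_iff] at hg; subst hg; exact hfc)
  have hfA' : f ∈ A := hfA rfl
  obtain ⟨Z, m, c, act, io, ex, h⟩ := exists_cpt (S := S) hA
  refine ⟨Z, m, c, act, io, Set.range ex, ?_⟩
  have hcount : Countable A := hA.ctbl.to_subtype
  refine
    { cont := h.cont
      eqv := h.eqv
      inj := h.inj
      isol := h.isol
      dense := h.dense
      two := ?_
      cp := fun ε hε => cp hT hinf hCP hA h hε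
      lc := fun θ _ ε hε => lc hT.toStd hA h θ hε
      ctble := Set.countable_range ex
      fcont := ?_
      fdir := ?_
      ffin := ?_
      fsep := ?_ }
  · obtain ⟨z, hz, hz2⟩ := h.acc _ hfa
    obtain ⟨w, hw, hw2⟩ := h.acc _ hfb
    have h1 : ex ⟨f, hfA'⟩ z ≤ a := by
      have hcl : IsClosed {z : Z | ex ⟨f, hfA'⟩ z ≤ a} := isClosed_le (h.exc _) continuous_const
      refine hcl.closure_subset_iff.2 ?_ hz2
      rintro _ ⟨y, hy, rfl⟩
      show ex ⟨f, hfA'⟩ (io y) ≤ a
      rw [h.exio]; exact hy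
    have h2 : b ≤ ex ⟨f, hfA'⟩ w := by
      have hcl : IsClosed {z : Z | b ≤ ex ⟨f, hfA'⟩ z} := isClosed_le continuous_const (h.exc _)
      refine hcl.closure_subset_iff.2 ?_ hw2
      rintro _ ⟨y, hy, rfl⟩
      show b ≤ ex ⟨f, hfA'⟩ (io y)
      rw [h.exio]; exact hy
    refine ⟨z, hz, w, hw, ?_⟩
    rintro rfl
    linarith
  · rintro _ ⟨g, rfl⟩
    exact h.exc g
  · rintro _ ⟨g, rfl⟩
    have := (hA.cls g.1 g.2).dir
    have e : (fun x => ex g (io x)) = g.1 := funext (fun x => h.exio g x)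
    rw [e]; exact this
  · rintro _ ⟨g, rfl⟩
    have := (hA.cls g.1 g.2).fin
    filter_upwards [this] with t ht
    have e : {x : G | ex g (io x) < t} = {x | g.1 x < t} := by
      ext x
      simp only [Set.mem_ofPred_eq, h.exio]
    rw [e]; exact ht
  · intro z _ w _ hne
    by_contra hcon
    push Not at hcon
    exact hne (h.sep z w (fun f => hcon (ex f) ⟨f, rfl⟩))

end Crest.Agent.R224.BdryN
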