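/-
R224 / S0346 : node NBlock (helper871).
Existence of a pair of boundary points on which `f` varies and which is not separated by any true
cut point.
-/
import Crest.Agent.R224.Iface

set_option autoImplicit false

noncomputable section

open MeasureTheory Set Filter Topology

namespace Crest.Agent.R224

namespace Blk

variable {s : Sys}

/-- cut points separating `a` from `b` -/
def CutB (s : Sys) (a b : s.Z) : Set s.Z :=
  {η | η ≠ a ∧ η ≠ b ∧ ∃ U, Clp s.ι η U ∧ a ∈ U ∧ b ∉ U}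


theorem CutB.isCut {a b η : s.Z} (hb : b ∈ T s.ι) (h : η ∈ CutB s a b) : IsCut s.ι η := by
  obtain ⟨_, h2, U, hU, haU, hbU⟩ := h
  exact ⟨U, hU, ⟨a, haU⟩, ⟨b, hb, fun h => h2 h.symm, hbU⟩⟩

theorem CutB.symm (hP : PAlg s) {a b η : s.Z} (hb : b ∈ T s.ι) (h : η ∈ CutB s a b) :
    η ∈ CutB s b a := by
  obtain ⟨h1, h2, U, hU, haU, hbU⟩ := h
  refine ⟨h2, h1, cmp s.ι η U, (hP η U U hU hU).1, ⟨hb, fun h => h2 h.symm, hbU⟩, ?_⟩
  intro h
  exact h.2.2 haU

theorem CutB.comm (hP : PAlg s) {a b : s.Z} (ha : a ∈ T s.ι) (hb : b ∈ T s.ι) :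
    CutB s a b = CutB s b a := by
  ext η
  exact ⟨fun h => CutB.symm hP hb h, fun h => CutB.symm hP ha h⟩

/-- if `p` separates `a` from `b`, every point separating `p` from `b` separates `a` from `b` -/
theorem CutB.mono_left (hP : PAlg s) (hH : PHalf s) {a b p : s.Z} (ha : a ∈ T s.ι)
    (hb : b ∈ T s.ι) (hp : p ∈ CutB s a b) :
    CutB s p b ⊆ CutB s a b := by
  rintro η ⟨h1, h2, U, hU, hpU, hbU⟩
  obtain ⟨h3, h4, W, hW, haW, hbW⟩ := hp
  -- η ∉ W
  have hηW : η ∉ W := by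
    intro hηW
    -- then the other side `cmp p W ∪ {p}` misses `η`
    have hW' : Clp s.ι p (cmp s.ι p W) := (hP p W W hW hW).1
    have hη' : η ∉ cmp s.ι p W := fun h => h.2.2 hηW
    rcases hH p (cmp s.ι p W) η U hW' hU (fun h => h1 h.symm) hη' with h | h
    · exact hbU (h (Or.inl ⟨hb, fun h => h4 h.symm, hbW⟩))
    · exact Set.disjoint_left.mp h (Or.inr rfl) hpU
  have hsub : W ∪ {p} ⊆ U := by
    rcases hH p W η U hW hU (fun h => h1 h.symm) hηW with h | h
    · exact h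
    · exact absurd hpU (Set.disjoint_left.mp h (Or.inr rfl))
  have haU : a ∈ U := hsub (Or.inl haW)
  refine ⟨?_, h2, U, hU, haU, hbU⟩
  rintro rfl
  exact hηW haW

theorem CutB.mono_right (hP : PAlg s) (hH : PHalf s) {a b p : s.Z} (ha : a ∈ T s.ι)
    (hb : b ∈ T s.ι) (hp : p ∈ CutB s a b) :
    CutB s a p ⊆ CutB s a b := by
  have hpT : p ∈ T s.ι := by
    obtain ⟨_, _, W, hW, _, _⟩ := hp
    exact hW.mem
  rw [CutB.comm hP ha hpT, CutB.comm hP ha hb]
  exact CutB.mono_left hP hH hb ha (CutB.symm hP hb hp)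

theorem CutB.mem_T {a b p : s.Z} (hp : p ∈ CutB s a b) : p ∈ T s.ι := by
  obtain ⟨_, _, W, hW, _, _⟩ := hp
  exact hW.mem

/-- unseparated pair from emptiness of `CutB` -/
theorem unsep_of_empty (hP : PAlg s) {a b : s.Z} (ha : a ∈ T s.ι) (hb : b ∈ T s.ι) (hab : a ≠ b)
    (h : CutB s a b = ∅) : Unsep s.ι a b := by
  refine ⟨ha, hb, hab, ?_⟩
  intro η _ h1 h2 U hU
  constructor
  · intro haU
    by_contra hbU
    have : η ∈ CutB s a b := ⟨h1, h2, U, hU, haU, hbU⟩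
    rw [h] at this
    exact this
  · intro hbU
    by_contra haU
    have : η ∈ CutB s b a := ⟨h2, h1, U, hU, hbU, haU⟩
    rw [CutB.comm hP hb ha, h] at this
    exact this

/-- finitely many separating points: induction -/
theorem block_of_finite (hP : PAlg s) (hH : PHalf s) (f : s.Z → ℝ) : ∀ (n : ℕ) (a b : s.Z),
    a ∈ T s.ι → b ∈ T s.ι → f a ≠ f b → (CutB s a b).Finite → (CutB s a b).ncard = n →
    ∃ a' b', Unsep s.ι a' b' ∧ f a' ≠ f b' := by
  intro n
  induction n using Nat.strong_induction_on with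
  | _ n ih =>
    intro a b ha hb hab hfin hn
    by_cases he : CutB s a b = ∅
    · exact ⟨a, b, unsep_of_empty hP ha hb (fun h => hab (by rw [h])) he, hab⟩
    · obtain ⟨p, hp⟩ := Set.nonempty_iff_ne_empty.mpr he
      have hpT := CutB.mem_T hp
      have h1 : (CutB s p b).ncard < (CutB s a b).ncard := by
        apply Set.ncard_lt_ncard _ hfin
        refine ⟨CutB.mono_left hP hH ha hb hp, fun h => ?_⟩
        exact (h hp).1 rfl
      have h2 : (CutB s a p).ncard < (CutB s a b).ncard := by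
        apply Set.ncard_lt_ncard _ hfin
        refine ⟨CutB.mono_right hP hH ha hb hp, fun h => ?_⟩
        exact (h hp).2.1 rfl
      by_cases hfp : f a = f p
      · exact ih _ (hn ▸ h1) p b hpT hb (fun h => hab (hfp.trans h))
          (hfin.subset (CutB.mono_left hP hH ha hb hp)) rfl
      · exact ih _ (hn ▸ h2) a p ha hpT hfp
          (hfin.subset (CutB.mono_right hP hH ha hb hp)) rfl

/-- `η` is in the closure of every nonempty clopen subset of `T \ {η}` -/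
theorem near_eta (hC : PConn s) {η : s.Z} {U : Set s.Z} (hU : Clp s.ι η U) (hne : U.Nonempty)
    {δ : ℝ} (hδ : 0 < δ) : ∃ z ∈ U, dist z η < δ := by
  by_contra hcon
  push Not at hcon
  obtain ⟨O', hO', hO'eq⟩ := hU.ro'
  refine hC U hU.ro ⟨O' ∪ Metric.ball η δ, hO'.union Metric.isOpen_ball, ?_⟩ hne
    ⟨η, hU.mem, hU.notMem⟩
  ext z
  constructor
  · rintro ⟨hz | hz, hzT⟩
    · have : z ∈ cmp s.ι η U := by rw [← hO'eq]; exact ⟨hz, hzT⟩
      exact ⟨hzT, this.2.2⟩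
    · refine ⟨hzT, fun hzU => ?_⟩
      have := hcon z hzU
      rw [Metric.mem_ball] at hz
      linarith
  · rintro ⟨hzT, hzU⟩
    by_cases hz : z = η
    · exact ⟨Or.inr (by rw [hz]; exact Metric.mem_ball_self hδ), hzT⟩
    · have : z ∈ cmp s.ι η U := ⟨hzT, hz, hzU⟩
      rw [← hO'eq] at this
      exact ⟨Or.inl this.1, hzT⟩

theorem measurableSet_T (s : Sys) : MeasurableSet (T s.ι) := by
  have : IsOpen (Set.range s.ι) := by
    have e : Set.range s.ι = ⋃ g, {s.ι g} := by ext z; simp [eq_comm]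
    rw [e]
    exact isOpen_iUnion fun g => s.bdry.isol g
  exact this.isClosed_compl.measurableSet

theorem ro_measurable {U : Set s.Z} (h : RO s.ι U) : MeasurableSet U := by
  obtain ⟨O, hO, rfl⟩ := h
  exact hO.measurableSet.inter (measurableSet_T s)

theorem hh_add_le {η : s.Z} {U : Set s.Z} (hU : Clp s.ι η U) (x : s.G) :
    hh s.ν U x + hh s.ν (cmp s.ι η U) x ≤ 1 := by
  have := s.harm.prob x
  have hd : Disjoint U (cmp s.ι η U) := by
    rw [Set.disjoint_left]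
    intro z hz hz'
    exact hz'.2.2 hz
  have h := measureReal_union (μ := s.ν x) hd (ro_measurable hU.ro')
  rw [hh, hh, ← h]
  exact measureReal_le_one

/-- only finitely many separating points have both sides large -/
theorem finite_large (hO : NOpen s) (hS : NShrink s) {a : s.Z} (ha : a ∈ T s.ι) {ε : ℝ}
    (hε : 0 < ε) : {η | IsCut s.ι η ∧ η ≠ a ∧
      (∃ z ∈ Compo s.ι η a, ∃ z' ∈ Compo s.ι η a, ε ≤ dist z z') ∧
      (∃ z ∈ cmp s.ι η (Compo s.ι η a), ∃ z' ∈ cmp s.ι η (Compo s.ι η a), ε ≤ dist z z')}.Finite := by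
  obtain ⟨h1, h2⟩ := hS (1 / 2) ε (by norm_num) hε 1
  refine ((h1.union h2).image Prod.fst).subset ?_
  rintro η ⟨hη, hηa, hA, hB⟩
  have hηT : η ∈ T s.ι := by
    obtain ⟨U, hU, _⟩ := hη
    exact hU.mem
  have hclp := hO η hηT a ha (fun h => hηa h.symm)
  have hpair : (η, Compo s.ι η a) ∈ s.Pairs := ⟨hη, a, ha, fun h => hηa h.symm, rfl⟩
  have hsum := hh_add_le hclp 1
  refine ⟨(η, Compo s.ι η a), ?_, rfl⟩
  by_cases hle : hh s.ν (Compo s.ι η a) 1 ≤ 1 / 2
  · left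
    exact ⟨hpair, by norm_num; exact hle, hA⟩
  · right
    refine ⟨hpair, ?_, hB⟩
    push Not at hle
    simp only
    linarith

/-- a second separating point is on the `a`-component or on the `b`-component -/
theorem CutB.dich (hP : PAlg s) (hH : PHalf s) {a b z η : s.Z}
    (hb : b ∈ T s.ι) (hz : z ∈ CutB s a b) (hne : η ≠ z) :
    z ∈ Compo s.ι η a ∨ z ∈ Compo s.ι η b := by
  have hzT := CutB.mem_T hz
  obtain ⟨h1, h2, W, hW, haW, hbW⟩ := hz
  by_cases hηW : η ∈ W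
  · right
    refine ⟨hzT, fun h => hne h.symm, fun U hU hbU => ?_⟩
    have hW' : Clp s.ι z (cmp s.ι z W) := (hP z W W hW hW).1
    rcases hH z (cmp s.ι z W) η U hW' hU (fun h => hne h.symm) (fun h => h.2.2 hηW) with h | h
    · exact h (Or.inr rfl)
    · exact absurd hbU (Set.disjoint_left.mp h (Or.inl ⟨hb, fun h => h2 h.symm, hbW⟩))
  · left
    refine ⟨hzT, fun h => hne h.symm, fun U hU haU => ?_⟩
    rcases hH z W η U hW hU (fun h => hne h.symm) hηW with h | h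
    · exact h (Or.inr rfl)
    · exact absurd haU (Set.disjoint_left.mp h (Or.inl haW))


theorem CutB.mono_ch (hP : PAlg s) (hH : PHalf s) {a b p q : s.Z} (ha : a ∈ T s.ι)
    (hb : b ∈ T s.ι) (hp : p = a ∨ p ∈ CutB s a b) (hq : q = b ∨ q ∈ CutB s a b) (hpq : p ≠ q) :
    CutB s p q ⊆ CutB s a b := by
  rcases hp with rfl | hp
  · rcases hq with rfl | hq
    · exact subset_rfl
    · exact CutB.mono_right hP hH ha hb hq
  · rcases hq with rfl | hq
    · exact CutB.mono_left hP hH ha hb hp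
    · have hpT := CutB.mem_T hp
      have hqT := CutB.mem_T hq
      have hq' := hq
      obtain ⟨h1, h2, W, hW, haW, hbW⟩ := hq
      by_cases hpW : p ∈ W
      · have h3 : q ∈ CutB s p b := ⟨fun h => hpq h.symm, h2, W, hW, hpW, hbW⟩
        exact (CutB.mono_right hP hH hpT hb h3).trans (CutB.mono_left hP hH ha hb hp)
      · have h3 : q ∈ CutB s p a := ⟨fun h => hpq h.symm, h1, cmp s.ι q W,
          (hP q W W hW hW).1, ⟨hpT, hpq, hpW⟩, fun h => h.2.2 haW⟩
        refine (CutB.mono_right hP hH hpT ha h3).trans ?_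
        rw [CutB.comm hP hpT ha]
        exact CutB.mono_right hP hH ha hb hp

theorem Compo.self {η a : s.Z} (ha : a ∈ T s.ι) (h : a ≠ η) : a ∈ Compo s.ι η a :=
  ⟨ha, h, fun _ _ h => h⟩

/-- two points of the same component are not separated -/
theorem Compo.not_sep (hP : PAlg s) {η a p q : s.Z} {U : Set s.Z} (ha : a ∈ T s.ι) (haη : a ≠ η)
    (hp : p ∈ Compo s.ι η a) (hq : q ∈ Compo s.ι η a) (hU : Clp s.ι η U) (hpU : p ∈ U)
    (hqU : q ∉ U) : False := by
  by_cases haU : a ∈ U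
  · exact hqU (hq.2.2 U hU haU)
  · exact (hp.2.2 _ (hP η U U hU hU).1 ⟨ha, haη, haU⟩).2.2 hpU

/-- a set contains two points at distance at least `ε` -/
def Lg (ε : ℝ) (A : Set s.Z) : Prop := ∃ z ∈ A, ∃ z' ∈ A, ε ≤ dist z z'

theorem Lg.mono {ε : ℝ} {A B : Set s.Z} (h : Lg ε A) (hAB : A ⊆ B) : Lg ε B := by
  obtain ⟨z, hz, z', hz', h⟩ := h
  exact ⟨z, hAB hz, z', hAB hz', h⟩

theorem Lg.le {ε ε' : ℝ} {A : Set s.Z} (h : Lg ε A) (hε : ε' ≤ ε) : Lg ε' A := by
  obtain ⟨z, hz, z', hz', h⟩ := h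
  exact ⟨z, hz, z', hz', hε.trans h⟩

/-- a chain point makes the component containing it large, end point `a` version -/
theorem large_of_end (hC : PConn s) (hO : NOpen s) {a b : s.Z} (ha : a ∈ T s.ι) {r : ℝ} (hr : 0 < r)
    (h : ∀ η ∈ CutB s a b, r ≤ dist η a) {η : s.Z} (hη : η ∈ CutB s a b) :
    Lg (r / 2) (Compo s.ι η a) := by
  have hηT := CutB.mem_T hη
  have haη : a ≠ η := fun e => hη.1 e.symm
  have hclp := hO η hηT a ha haη
  obtain ⟨z, hz, hzη⟩ := near_eta hC hclp ⟨a, Compo.self ha haη⟩ (half_pos hr)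
  refine ⟨a, Compo.self ha haη, z, hz, ?_⟩
  have h1 := h η hη
  have h2 : dist η a ≤ dist η z + dist z a := dist_triangle _ _ _
  rw [dist_comm η z, dist_comm z a] at h2
  linarith

theorem finite_chain (hC : PConn s) (hP : PAlg s) (hH : PHalf s) (hO : NOpen s) (hS : NShrink s)
    {a b p q : s.Z} (ha : a ∈ T s.ι) (hb : b ∈ T s.ι) {r : ℝ} (hr : 0 < r)
    (hp : (p = a ∧ ∀ η ∈ CutB s a b, r ≤ dist η a) ∨ p ∈ CutB s a b)
    (hq : (q = b ∧ ∀ η ∈ CutB s a b, r ≤ dist η b) ∨ q ∈ CutB s a b) (hpq : p ≠ q) :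
    (CutB s p q).Finite := by
  -- constants
  obtain ⟨ε₁, hε₁, hL₁⟩ : ∃ ε > 0, ∀ η ∈ CutB s a b, η ≠ p →
      (p ∈ Compo s.ι η a → Lg ε (Compo s.ι η a)) ∧ (p ∈ Compo s.ι η b → Lg ε (Compo s.ι η b)) := by
    rcases hp with ⟨rfl, h⟩ | hp
    · refine ⟨r / 2, half_pos hr, fun η hη _ => ⟨fun _ => large_of_end hC hO ha hr h hη, ?_⟩⟩
      intro hpb
      exfalso
      obtain ⟨h1, h2, U, hU, haU, hbU⟩ := hη
      exact (hpb.2.2 _ (hP η U U hU hU).1 ⟨hb, fun e => h2 e.symm, hbU⟩).2.2 haU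
    · refine ⟨min (dist a p) (dist b p), lt_min (dist_pos.mpr fun e => hp.1 e.symm)
        (dist_pos.mpr fun e => hp.2.1 e.symm), fun η hη _ => ⟨fun h => ?_, fun h => ?_⟩⟩
      · exact ⟨a, Compo.self ha fun e => hη.1 e.symm, p, h, min_le_left _ _⟩
      · exact ⟨b, Compo.self hb fun e => hη.2.1 e.symm, p, h, min_le_right _ _⟩
  obtain ⟨ε₂, hε₂, hL₂⟩ : ∃ ε > 0, ∀ η ∈ CutB s a b, η ≠ q →
      (q ∈ Compo s.ι η a → Lg ε (Compo s.ι η a)) ∧ (q ∈ Compo s.ι η b → Lg ε (Compo s.ι η b)) := by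
    rcases hq with ⟨rfl, h⟩ | hq
    · refine ⟨r / 2, half_pos hr, fun η hη _ => ⟨?_, fun _ => ?_⟩⟩
      · intro hqa
        exfalso
        obtain ⟨h1, h2, U, hU, haU, hbU⟩ := hη
        exact hbU (hqa.2.2 _ hU haU)
      · rw [CutB.comm hP ha hb] at h hη
        exact large_of_end hC hO hb hr h hη
    · refine ⟨min (dist a q) (dist b q), lt_min (dist_pos.mpr fun e => hq.1 e.symm)
        (dist_pos.mpr fun e => hq.2.1 e.symm), fun η hη _ => ⟨fun h => ?_, fun h => ?_⟩⟩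
      · exact ⟨a, Compo.self ha fun e => hη.1 e.symm, q, h, min_le_left _ _⟩
      · exact ⟨b, Compo.self hb fun e => hη.2.1 e.symm, q, h, min_le_right _ _⟩
  have hp' : p = a ∨ p ∈ CutB s a b := hp.imp And.left id
  have hq' : q = b ∨ q ∈ CutB s a b := hq.imp And.left id
  have hpT : p ∈ T s.ι := by rcases hp' with rfl | h; exacts [ha, CutB.mem_T h]
  have hqT : q ∈ T s.ι := by rcases hq' with rfl | h; exacts [hb, CutB.mem_T h]
  refine (finite_large hO hS ha (lt_min hε₁ hε₂)).subset ?_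
  intro η hη
  have hηab := CutB.mono_ch hP hH ha hb hp' hq' hpq hη
  have hηa : η ≠ a := hηab.1
  have hηb : η ≠ b := hηab.2.1
  have hηp : η ≠ p := hη.1
  have hηq : η ≠ q := hη.2.1
  obtain ⟨_, _, U, hU, hpU, hqU⟩ := hη
  -- location of p and q
  have hp2 : p ∈ Compo s.ι η a ∨ p ∈ Compo s.ι η b := by
    rcases hp' with rfl | h
    · exact Or.inl (Compo.self ha fun e => hηa e.symm)
    · exact CutB.dich hP hH hb h hηp
  have hq2 : q ∈ Compo s.ι η a ∨ q ∈ Compo s.ι η b := by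
    rcases hq' with rfl | h
    · exact Or.inr (Compo.self hb fun e => hηb e.symm)
    · exact CutB.dich hP hH hb h hηq
  have hBA : Compo s.ι η b ⊆ cmp s.ι η (Compo s.ι η a) := by
    intro z hz
    refine ⟨hz.1, hz.2.1, fun hza => ?_⟩
    obtain ⟨_, _, V, hV, haV, hbV⟩ := hηab
    exact (hz.2.2 _ (hP η V V hV hV).1 ⟨hb, fun e => hηb e.symm, hbV⟩).2.2 (hza.2.2 V hV haV)
  have key : Lg (min ε₁ ε₂) (Compo s.ι η a) ∧ Lg (min ε₁ ε₂) (Compo s.ι η b) := by
    rcases hp2 with h1 | h1 <;> rcases hq2 with h2 | h2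
    · exact (Compo.not_sep hP ha (fun e => hηa e.symm) h1 h2 hU hpU hqU).elim
    · exact ⟨((hL₁ η hηab hηp).1 h1).le (min_le_left _ _),
        ((hL₂ η hηab hηq).2 h2).le (min_le_right _ _)⟩
    · exact ⟨((hL₂ η hηab hηq).1 h2).le (min_le_right _ _),
        ((hL₁ η hηab hηp).2 h1).le (min_le_left _ _)⟩
    · exact (Compo.not_sep hP hb (fun e => hηb e.symm) h1 h2 hU hpU hqU).elim
  exact ⟨CutB.isCut hb hηab, hηa, key.1, key.2.mono hBA⟩

end Blk

open Blk in
/-- **node E1** -/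
theorem nBlock (s : Sys) (hC : PConn s) (hH : PHalf s) (hP : PAlg s) (hO : NOpen s)
    (hS : NShrink s) : NBlock s := by
  intro f hf a ha b hb hab
  have hfc := s.bdry.fcont f hf
  set δ := |f a - f b| / 3 with hδ
  have hδ0 : 0 < δ := by
    have : 0 < |f a - f b| := abs_pos.mpr (sub_ne_zero.mpr hab)
    rw [hδ]; linarith
  obtain ⟨r₁, hr₁, h₁⟩ := Metric.continuousAt_iff.mp (hfc.continuousAt (x := a)) δ hδ0
  obtain ⟨r₂, hr₂, h₂⟩ := Metric.continuousAt_iff.mp (hfc.continuousAt (x := b)) δ hδ0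
  set r := min r₁ r₂ with hr
  have hr0 : 0 < r := lt_min hr₁ hr₂
  obtain ⟨p, hp, hpf⟩ : ∃ p, ((p = a ∧ ∀ η ∈ CutB s a b, r ≤ dist η a) ∨ p ∈ CutB s a b) ∧
      |f p - f a| < δ := by
    by_cases h : ∃ η ∈ CutB s a b, dist η a < r
    · obtain ⟨η, hη, hd⟩ := h
      exact ⟨η, Or.inr hη, by simpa [Real.dist_eq] using h₁ (hd.trans_le (min_le_left _ _))⟩
    · push Not at h
      exact ⟨a, Or.inl ⟨rfl, h⟩, by simpa using hδ0⟩
  obtain ⟨q, hq, hqf⟩ : ∃ q, ((q = b ∧ ∀ η ∈ CutB s a b, r ≤ dist η b) ∨ q ∈ CutB s a b) ∧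
      |f q - f b| < δ := by
    by_cases h : ∃ η ∈ CutB s a b, dist η b < r
    · obtain ⟨η, hη, hd⟩ := h
      exact ⟨η, Or.inr hη, by simpa [Real.dist_eq] using h₂ (hd.trans_le (min_le_right _ _))⟩
    · push Not at h
      exact ⟨b, Or.inl ⟨rfl, h⟩, by simpa using hδ0⟩
  have hfpq : f p ≠ f q := by
    intro h
    have h3 : |f a - f b| ≤ |f p - f a| + |f q - f b| := by
      have : f a - f b = -(f p - f a) + (f q - f b) := by rw [h]; ring
      rw [this]
      exact (abs_add_le _ _).trans (by rw [abs_neg])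
    have h4 : |f a - f b| = 3 * δ := by rw [hδ]; ring
    linarith
  have hpT : p ∈ T s.ι := by
    rcases hp with ⟨rfl, _⟩ | h
    exacts [ha, CutB.mem_T h]
  have hqT : q ∈ T s.ι := by
    rcases hq with ⟨rfl, _⟩ | h
    exacts [hb, CutB.mem_T h]
  have hfin := finite_chain hC hP hH hO hS ha hb hr0 hp hq (fun h => hfpq (by rw [h]))
  exact block_of_finite hP hH f _ p q hpT hqT hfpq hfin rfl

end Crest.Agent.R224
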