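/- R224: statement of the limit lemma (helper276; proof by helper876) and elementary facts on `sat`. -/
import Crest.Agent.R224.Iface

set_option autoImplicit false

noncomputable section

open MeasureTheory Set Filter Topology

namespace Crest.Agent.R224

/-- relatively open subset of the block -/
def ROB (s : Sys) (a b : s.Z) (U : Set s.Z) : Prop := ∃ O : Set s.Z, IsOpen O ∧ O ∩ Blk s.ι a b = U

/-- admissible partition of the block -/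
structure Part (s : Sys) (a b : s.Z) (K U V : Set s.Z) : Prop where
  cl : IsClosed K
  sub : K ⊆ Blk s.ι a b
  nocut : ∀ η ∈ K, ¬ IsCut s.ι η
  null : ∀ x, hh s.ν K x = 0
  roU : ROB s a b U
  roV : ROB s a b V
  dis : Disjoint U V
  un : U ∪ V = Blk s.ι a b \ K

/-- side set along the ultrafilter -/
def SideL (s : Sys) (a b k : s.Z) (l : Ultrafilter ℕ) (U : ℕ → Set s.Z) : Set s.Z :=
  {z | z ∈ T s.ι ∧ z ≠ k ∧ ∀ᶠ n in (l : Filter ℕ), z ∈ sat s.ι a b (U n)}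

/-- the limit lemma -/
def LimitLemma (s : Sys) : Prop := ∀ a b, Unsep s.ι a b → ∀ c3 δ : ℝ, 0 < δ →
  (1 + (s.S.card : ℝ) ^ 2) * δ < c3 →
  (∀ x ∈ XB s.ι s.ν a b s.c0, ∀ p q : s.Z,
    c3 ≤ hh s.ν (sat s.ι a b (Blk s.ι a b \ {p, q})) x) →
  ∀ K U V : ℕ → Set s.Z, (∀ n, Part s a b (K n) (U n) (V n)) →
  ∀ k ∈ T s.ι, ∀ l : Ultrafilter ℕ,
  (∀ ε : ℝ, 0 < ε → ∀ᶠ n in (l : Filter ℕ), ∀ z ∈ K n, dist z k < ε) →
  (∀ ε : ℝ, 0 < ε → ∃ F : Finset s.G, ∀ᶠ n in (l : Filter ℕ), ∀ x ∈ XB s.ι s.ν a b s.c0, x ∉ F →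
    s.WB a b δ (U n) (V n) x → dist (s.ι x) k < ε) →
  Clp s.ι k (SideL s a b k l U) ∧ SideL s a b k l V = cmp s.ι k (SideL s a b k l U) ∧
  ∀ θ ∈ T s.ι, θ ≠ k → ∃ r : ℝ, 0 < r ∧
    ((∀ᶠ n in (l : Filter ℕ), ∀ z ∈ T s.ι, dist z θ < r → z ≠ k → z ∈ sat s.ι a b (U n)) ∨
     (∀ᶠ n in (l : Filter ℕ), ∀ z ∈ T s.ι, dist z θ < r → z ≠ k → z ∈ sat s.ι a b (V n)))

section sat

variable {s : Sys} {a b : s.Z}

lemma Blk_sub_T : Blk s.ι a b ⊆ T s.ι := fun _ hz => hz.1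

lemma Dn_sub_T {η : s.Z} : Dn s.ι a b η ⊆ T s.ι := fun _ hz => hz.1

lemma sat_sub_T {A : Set s.Z} : sat s.ι a b A ⊆ T s.ι := by
  rintro z (hz | ⟨η, _, _, _, hz⟩)
  · exact hz.2.1
  · exact Dn_sub_T hz

lemma sat_mono {A B : Set s.Z} (h : A ⊆ B) : sat s.ι a b A ⊆ sat s.ι a b B := by
  rintro z (hz | ⟨η, h1, h2, h3, h4⟩)
  · exact Or.inl ⟨h hz.1, hz.2⟩
  · exact Or.inr ⟨η, h1, h h2, h3, h4⟩


/-- a point of the block is in `sat A` iff it is in `A` -/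
lemma mem_sat_blk (hp : NPart s) (hu : Unsep s.ι a b) {A : Set s.Z} {z : s.Z}
    (hz : z ∈ Blk s.ι a b) : z ∈ sat s.ι a b A ↔ z ∈ A := by
  constructor
  · rintro (h | ⟨η, h1, h2, h3, h4⟩)
    · exact h.1
    · exact absurd hz (Set.disjoint_left.1 ((hp a b hu).2.2.2.1 η h1 h3).2.2 h4)
  · intro h; exact Or.inl ⟨h, hz⟩

/-- a point of the branch at `η` is in `sat A` iff `η` is in `A` -/
lemma mem_sat_Dn (hp : NPart s) (hu : Unsep s.ι a b) {A : Set s.Z} {z η : s.Z}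
    (hη : IsCut s.ι η) (hηB : η ∈ Blk s.ι a b) (hz : z ∈ Dn s.ι a b η) :
    z ∈ sat s.ι a b A ↔ η ∈ A := by
  constructor
  · rintro (h | ⟨η', h1, h2, h3, h4⟩)
    · exact absurd h.2 (Set.disjoint_left.1 ((hp a b hu).2.2.2.1 η hη hηB).2.2 hz)
    · by_cases e : η = η'
      · rw [e]; exact h2
      · exact absurd h4 (Set.disjoint_left.1 ((hp a b hu).2.2.2.2.1 η η' hη hηB h1 h3 e) hz)
  · intro h; exact Or.inr ⟨η, hη, h, hηB, hz⟩

/-- base point -/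
lemma exists_base (hp : NPart s) (hu : Unsep s.ι a b) {z : s.Z} (hz : z ∈ T s.ι) :
    ∃ u ∈ Blk s.ι a b, (z = u ∨ (IsCut s.ι u ∧ z ∈ Dn s.ι a b u)) ∧
      ∀ A, z ∈ sat s.ι a b A ↔ u ∈ A := by
  rcases (hp a b hu).2.2.2.2.2 z hz with h | ⟨η, h1, h2, h3⟩
  · exact ⟨z, h, Or.inl rfl, fun A => mem_sat_blk hp hu h⟩
  · exact ⟨η, h2, Or.inr ⟨h1, h3⟩, fun A => mem_sat_Dn hp hu h1 h2 h3⟩

lemma sat_disj (hp : NPart s) (hu : Unsep s.ι a b) {A B : Set s.Z} (h : Disjoint A B) :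
    Disjoint (sat s.ι a b A) (sat s.ι a b B) := by
  rw [Set.disjoint_left]
  intro z h1 h2
  obtain ⟨u, _, _, hu'⟩ := exists_base hp hu (sat_sub_T h1)
  exact Set.disjoint_left.1 h ((hu' A).1 h1) ((hu' B).1 h2)

/-- every point of the boundary is in the saturation of `U`, of `V`, or in `K` -/
lemma Part.cover {K U V : Set s.Z} (P : Part s a b K U V) (hp : NPart s) (hu : Unsep s.ι a b)
    {z : s.Z} (hz : z ∈ T s.ι) : z ∈ sat s.ι a b U ∨ z ∈ sat s.ι a b V ∨ z ∈ K := by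
  obtain ⟨u, hB, hcase, hu'⟩ := exists_base hp hu hz
  by_cases hk : u ∈ K
  · rcases hcase with rfl | ⟨hc, _⟩
    · exact Or.inr (Or.inr hk)
    · exact absurd hc (P.nocut u hk)
  · have : u ∈ U ∪ V := by rw [P.un]; exact ⟨hB, hk⟩
    rcases this with h | h
    · exact Or.inl ((hu' U).2 h)
    · exact Or.inr (Or.inl ((hu' V).2 h))

end sat

end Crest.Agent.R224
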