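import Mathlib
import Crest.Agent.R224.Iface

-- ▼ part R224/Conv
section

/-!
Row 224, group half: convergence-group lemmas (abstract).

`ConvSpace G Z ι`: the group `G` acts on the compact metric space `Z` with an equivariant
injective map `ι : G → Z` whose image consists of isolated points, and the convergence property
(CP) holds.  Points of `Z` outside of `range ι` are the points at infinity.
-/

namespace Crest.Agent.R224

open Filter Topology Set

set_option linter.unusedSectionVars false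

/-- Group action on a metric space with the convergence property (CP). -/
structure ConvSpace (G : Type*) [Group G] (Z : Type*) [MetricSpace Z] [MulAction G Z]
    (ι : G → Z) : Prop where
  cont : ∀ g : G, Continuous (fun z : Z => g • z)
  equiv : ∀ g h : G, ι (g * h) = g • ι h
  inj : Function.Injective ι
  isol : IsOpen ({ι 1} : Set Z)
  cp : ∀ ε > 0, ∃ F : Set G, F.Finite ∧ ∀ g ∉ F, ∀ z : Z,
    dist z (ι g) ≤ ε ∨ dist (g⁻¹ • z) (ι g⁻¹) ≤ ε

/-- the sequence `g` tends to infinity in `G`, `ι (g n) → a` and `ι (g n)⁻¹ → b`. -/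
structure Dyn {G : Type*} [Group G] {Z : Type*} [MetricSpace Z] (ι : G → Z) (g : ℕ → G)
    (a b : Z) : Prop where
  cof : Tendsto g atTop cofinite
  att : Tendsto (fun n => ι (g n)) atTop (𝓝 a)
  rep : Tendsto (fun n => ι (g n)⁻¹) atTop (𝓝 b)

/-- `g` is loxodromic with attracting point `a` and repelling point `b`. -/
structure Lox {G : Type*} [Group G] {Z : Type*} [MetricSpace Z] (ι : G → Z) (g : G)
    (a b : Z) : Prop where
  ne : a ≠ b
  dyn : Dyn ι (fun n : ℕ => g ^ n) a b

theorem frequently_eq_or_cofinite {G : Type*} (x : ℕ → G) :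
    (∃ q, ∃ᶠ n in atTop, x n = q) ∨ Tendsto x atTop cofinite := by
  by_cases h : ∃ q, ∃ᶠ n in atTop, x n = q
  · exact Or.inl h
  · right
    push Not at h
    rw [Tendsto, le_cofinite_iff_eventually_ne]
    intro q
    have := h q
    simpa [Filter.not_frequently] using this

theorem exists_eq_or_cofinite {G : Type*} (x : ℕ → G) :
    (∃ n m, n < m ∧ x n = x m) ∨ Tendsto x atTop cofinite := by
  by_cases h : Function.Injective x
  · right
    have := h.tendsto_cofinite
    rwa [Nat.cofinite_eq_atTop] at this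
  · left
    rw [Function.Injective] at h
    push Not at h
    obtain ⟨n, m, h1, h2⟩ := h
    rcases lt_or_gt_of_ne h2 with h3 | h3
    · exact ⟨n, m, h3, h1⟩
    · exact ⟨m, n, h3, h1.symm⟩

theorem cofinite_of_tendsto {G : Type*} {Z : Type*} [MetricSpace Z] {ι : G → Z}
    {g : ℕ → G} {a : Z} (ha : a ∉ range ι)
    (h : Tendsto (fun n => ι (g n)) atTop (𝓝 a)) : Tendsto g atTop cofinite := by
  rw [Tendsto, le_cofinite_iff_eventually_ne]
  intro x
  have h1 : ∀ᶠ n in atTop, ι (g n) ≠ ι x :=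
    h.eventually_ne (fun hh => ha ⟨x, hh.symm⟩)
  rw [Filter.eventually_map]
  filter_upwards [h1] with n hn hh
  exact hn (by rw [hh])

namespace Dyn

variable {G : Type*} [Group G] {Z : Type*} [MetricSpace Z] {ι : G → Z}

theorem comp {g : ℕ → G} {a b : Z} (h : Dyn ι g a b) {φ : ℕ → ℕ}
    (hφ : StrictMono φ) : Dyn ι (fun n => g (φ n)) a b :=
  ⟨h.cof.comp hφ.tendsto_atTop, h.att.comp hφ.tendsto_atTop, h.rep.comp hφ.tendsto_atTop⟩

theorem inv {g : ℕ → G} {a b : Z} (h : Dyn ι g a b) : Dyn ι (fun n => (g n)⁻¹) b a := by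
  refine ⟨?_, h.rep, by simpa using h.att⟩
  exact (inv_injective.tendsto_cofinite).comp h.cof

end Dyn

namespace ConvSpace

variable {G : Type*} [Group G] {Z : Type*} [MetricSpace Z] [MulAction G Z] {ι : G → Z}
variable (hC : ConvSpace G Z ι)
include hC

theorem tendsto_const_smul (g : G) {z : ℕ → Z} {z0 : Z} (hz : Tendsto z atTop (𝓝 z0)) :
    Tendsto (fun n => g • z n) atTop (𝓝 (g • z0)) :=
  ((hC.cont g).tendsto z0).comp hz

theorem isOpen_singleton (g : G) : IsOpen ({ι g} : Set Z) := by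
  have h1 := hC.isol.preimage (hC.cont g⁻¹)
  have h2 : (fun z : Z => g⁻¹ • z) ⁻¹' {ι 1} = {ι g} := by
    ext z
    constructor
    · intro hz
      have hz' : g⁻¹ • z = ι 1 := hz
      have : z = g • ι 1 := by rw [← hz', smul_inv_smul]
      rw [← hC.equiv, mul_one] at this
      exact this
    · intro hz
      have hz' : z = ι g := hz
      show g⁻¹ • z = ι 1
      rw [hz', ← hC.equiv, inv_mul_cancel]
  rwa [h2] at h1

theorem isOpen_range : IsOpen (range ι) := by
  rw [← iUnion_singleton_eq_range]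
  exact isOpen_iUnion fun g => hC.isOpen_singleton g

theorem isClosed_compl_range : IsClosed (range ι)ᶜ := hC.isOpen_range.isClosed_compl

theorem smul_notMem_range {z : Z} (hz : z ∉ range ι) (g : G) : g • z ∉ range ι := by
  rintro ⟨h, hh⟩
  apply hz
  refine ⟨g⁻¹ * h, ?_⟩
  rw [hC.equiv, hh, inv_smul_smul]

/-- limits of sequences going to infinity are points at infinity. -/
theorem notMem_range_of_tendsto {g : ℕ → G} (hg : Tendsto g atTop cofinite) {a : Z}
    (ha : Tendsto (fun n => ι (g n)) atTop (𝓝 a)) : a ∉ range ι := by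
  rintro ⟨h, rfl⟩
  have h1 : ∀ᶠ n in atTop, ι (g n) ∈ ({ι h} : Set Z) :=
    ha.eventually ((hC.isOpen_singleton h).mem_nhds rfl)
  have h2 : ∀ᶠ n in atTop, g n ∉ ({h} : Set G) :=
    hg.eventually (Set.finite_singleton h).eventually_cofinite_notMem
  obtain ⟨n, hn1, hn2⟩ := (h1.and h2).exists
  exact hn2 (hC.inj hn1)

theorem dyn_notMem {g : ℕ → G} {a b : Z} (h : Dyn ι g a b) : a ∉ range ι ∧ b ∉ range ι :=
  ⟨hC.notMem_range_of_tendsto h.cof h.att, hC.notMem_range_of_tendsto h.inv.cof h.inv.att⟩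

theorem exists_dyn [CompactSpace Z] {g : ℕ → G} (hg : Tendsto g atTop cofinite) :
    ∃ φ : ℕ → ℕ, StrictMono φ ∧ ∃ a b, Dyn ι (fun n => g (φ n)) a b := by
  obtain ⟨a, φ, hφ, ha⟩ := CompactSpace.tendsto_subseq (fun n => ι (g n))
  obtain ⟨b, ψ, hψ, hb⟩ := CompactSpace.tendsto_subseq (fun n => ι (g (φ n))⁻¹)
  refine ⟨φ ∘ ψ, hφ.comp hψ, a, b, ?_, ?_, ?_⟩
  · exact hg.comp (hφ.comp hψ).tendsto_atTop
  · exact ha.comp hψ.tendsto_atTop
  · exact hb

/-- the convergence dynamics: `g n` maps everything away from `b` to `a`. -/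
theorem dyn_tendsto {g : ℕ → G} {a b : Z} (h : Dyn ι g a b) {z : ℕ → Z} {z0 : Z}
    (hz : Tendsto z atTop (𝓝 z0)) (hne : z0 ≠ b) :
    Tendsto (fun n => g n • z n) atTop (𝓝 a) := by
  rw [Metric.tendsto_atTop]
  intro ε hε
  have hd : 0 < dist z0 b := dist_pos.2 hne
  obtain ⟨F, hF, hcp⟩ := hC.cp (min (ε / 2) (dist z0 b / 4)) (by positivity)
  have h1 : ∀ᶠ n in atTop, (g n)⁻¹ ∉ F := h.inv.cof.eventually hF.eventually_cofinite_notMem
  have h2 : ∀ᶠ n in atTop, dist (z n) z0 < dist z0 b / 4 :=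
    (Metric.tendsto_nhds.1 hz) _ (by positivity)
  have h3 : ∀ᶠ n in atTop, dist (ι (g n)⁻¹) b < dist z0 b / 4 :=
    (Metric.tendsto_nhds.1 h.rep) _ (by positivity)
  have h4 : ∀ᶠ n in atTop, dist (ι (g n)) a < ε / 2 :=
    (Metric.tendsto_nhds.1 h.att) _ (by positivity)
  obtain ⟨N, hN⟩ := eventually_atTop.1 (h1.and (h2.and (h3.and h4)))
  refine ⟨N, fun n hn => ?_⟩
  obtain ⟨h1, h2, h3, h4⟩ := hN n hn
  rcases hcp _ h1 (z n) with h5 | h5
  · exfalso
    have h5' := h5.trans (min_le_right _ _)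
    have h6 : dist z0 b ≤ dist z0 (z n) + dist (z n) (ι (g n)⁻¹) + dist (ι (g n)⁻¹) b :=
      dist_triangle4 _ _ _ _
    rw [dist_comm z0 (z n)] at h6
    linarith
  · rw [inv_inv] at h5
    have h5' := h5.trans (min_le_left _ _)
    have := dist_triangle (g n • z n) (ι (g n)) a
    linarith

theorem dyn_tendsto_const {g : ℕ → G} {a b : Z} (h : Dyn ι g a b) {z : Z} (hne : z ≠ b) :
    Tendsto (fun n => g n • z) atTop (𝓝 a) :=
  hC.dyn_tendsto h tendsto_const_nhds hne

/-- right translation does not change the limits. -/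
theorem dyn_mul_right {g : ℕ → G} {a b : Z} (h : Dyn ι g a b) (w : G) :
    Dyn ι (fun n => g n * w) a (w⁻¹ • b) := by
  refine ⟨?_, ?_, ?_⟩
  · exact ((mul_left_injective w).tendsto_cofinite).comp h.cof
  · simp only [hC.equiv]
    exact hC.dyn_tendsto_const h (fun hh => (hC.dyn_notMem h).2 ⟨w, hh⟩)
  · simp only [mul_inv_rev, hC.equiv]
    exact hC.tendsto_const_smul w⁻¹ h.rep

theorem dyn_mul_left {g : ℕ → G} {a b : Z} (h : Dyn ι g a b) (w : G) :
    Dyn ι (fun n => w * g n) (w • a) b := by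
  have := (hC.dyn_mul_right h.inv w⁻¹).inv
  simpa using this

theorem dyn_fixed {g : ℕ → G} {a b z : Z} (h : Dyn ι g a b) (hz : ∀ n, g n • z = z)
    (hne : z ≠ b) : z = a := by
  have h1 := hC.dyn_tendsto_const h hne
  simp only [hz] at h1
  exact tendsto_nhds_unique tendsto_const_nhds h1


/-! ### loxodromic elements -/

theorem lox_inv {g : G} {a b : Z} (h : Lox ι g a b) : Lox ι g⁻¹ b a := by
  refine ⟨h.ne.symm, ?_⟩
  have := h.dyn.inv
  simpa using this

theorem lox_notMem {g : G} {a b : Z} (h : Lox ι g a b) : a ∉ range ι ∧ b ∉ range ι :=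
  hC.dyn_notMem h.dyn

theorem lox_fix_att {g : G} {a b : Z} (h : Lox ι g a b) : g • a = a := by
  have h1 : Tendsto (fun n : ℕ => ι (g ^ (n + 1))) atTop (𝓝 a) :=
    h.dyn.att.comp (tendsto_add_atTop_nat 1)
  have h2 : Tendsto (fun n : ℕ => g • ι (g ^ n)) atTop (𝓝 (g • a)) :=
    hC.tendsto_const_smul g h.dyn.att
  have h3 : (fun n : ℕ => ι (g ^ (n + 1))) = fun n : ℕ => g • ι (g ^ n) := by
    funext n
    rw [← hC.equiv, pow_succ']
  rw [h3] at h1
  exact tendsto_nhds_unique h2 h1

theorem lox_fix_rep {g : G} {a b : Z} (h : Lox ι g a b) : g • b = b := by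
  have h1 := hC.lox_fix_att (hC.lox_inv h)
  rw [inv_smul_eq_iff] at h1
  exact h1.symm

theorem smul_pow_fixed {g : G} {z : Z} (h : g • z = z) (n : ℕ) : g ^ n • z = z := by
  induction n with
  | zero => simp
  | succ n ih => rw [pow_succ, mul_smul, h, ih]

theorem lox_fixed {g : G} {a b z : Z} (h : Lox ι g a b) (hz : g • z = z) : z = a ∨ z = b := by
  by_cases hne : z = b
  · exact Or.inr hne
  · exact Or.inl (hC.dyn_fixed h.dyn (fun n => hC.smul_pow_fixed hz n) hne)


theorem lox_pow_ne_one {g : G} {a b : Z} (h : Lox ι g a b) {k : ℕ} (hk : 0 < k) : g ^ k ≠ 1 := by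
  intro hg
  have h1 : ∀ᶠ n in atTop, g ^ n ∉ ({1} : Set G) :=
    h.dyn.cof.eventually (Set.finite_singleton (1 : G)).eventually_cofinite_notMem
  obtain ⟨N, hN⟩ := eventually_atTop.1 h1
  refine hN (k * N) (Nat.le_mul_of_pos_left N hk) ?_
  rw [pow_mul, hg, one_pow]
  rfl

/-- ping-pong: an element which maps the complement of a ball around `η` into a disjoint ball
around `τ` is loxodromic. -/
theorem pingpong [CompactSpace Z] {g : G} {τ η : Z} {r : ℝ} (hsep : 2 * r < dist τ η)
    (h1 : r < dist (ι 1) τ) (h1' : r < dist (ι 1) η)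
    (hg : ∀ z, r ≤ dist z η → dist (g • z) τ ≤ r) :
    ∃ a b, Lox ι g a b ∧ dist a τ ≤ r ∧ dist b η ≤ r := by
  have hg' : ∀ z, r < dist z τ → dist (g⁻¹ • z) η < r := by
    intro z hz
    by_contra hcon
    have := hg _ (not_lt.1 hcon)
    rw [smul_inv_smul] at this
    linarith
  have A1 : ∀ k : ℕ, ∀ z, r ≤ dist z η → dist (g ^ (k + 1) • z) τ ≤ r := by
    intro k
    induction k with
    | zero => intro z hz; simpa using hg z hz
    | succ k ih =>
      intro z hz
      rw [pow_succ', mul_smul]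
      apply hg
      have h2 := ih z hz
      have h3 := dist_triangle_left τ η (g ^ (k + 1) • z)
      linarith
  have A2 : ∀ k : ℕ, ∀ z, r < dist z τ → dist (g⁻¹ ^ (k + 1) • z) η < r := by
    intro k
    induction k with
    | zero => intro z hz; simpa using hg' z hz
    | succ k ih =>
      intro z hz
      rw [pow_succ', mul_smul]
      apply hg'
      have h2 := ih z hz
      have h3 := dist_triangle_left τ η (g⁻¹ ^ (k + 1) • z)
      linarith
  have A3 : ∀ k : ℕ, 0 < k → dist (ι (g ^ k)) τ ≤ r ∧ dist (ι (g ^ k)⁻¹) η ≤ r := by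
    intro k hk
    obtain ⟨k, rfl⟩ : ∃ l, k = l + 1 := ⟨k - 1, by omega⟩
    constructor
    · have := A1 k (ι 1) h1'.le
      rwa [← hC.equiv, mul_one] at this
    · have := (A2 k (ι 1) h1).le
      rwa [← hC.equiv, mul_one, inv_pow] at this
  have hne : ∀ k : ℕ, 0 < k → g ^ k ≠ 1 := by
    intro k hk hh
    have := (A3 k hk).1
    rw [hh] at this
    linarith
  have hinj : Function.Injective (fun n : ℕ => g ^ n) := by
    intro n m hnm
    have hnm' : g ^ n = g ^ m := hnm
    by_contra hcon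
    rcases lt_or_gt_of_ne hcon with h | h
    · have h2 : g ^ (m - n) = 1 := by
        have : g ^ n * g ^ (m - n) = g ^ n * 1 := by
          rw [← pow_add, Nat.add_sub_cancel' h.le, mul_one, hnm']
        exact mul_left_cancel this
      exact hne _ (by omega) h2
    · have h2 : g ^ (n - m) = 1 := by
        have : g ^ m * g ^ (n - m) = g ^ m * 1 := by
          rw [← pow_add, Nat.add_sub_cancel' h.le, mul_one, hnm']
        exact mul_left_cancel this
      exact hne _ (by omega) h2
  have hcof : Tendsto (fun n : ℕ => g ^ n) atTop cofinite := by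
    have := hinj.tendsto_cofinite
    rwa [Nat.cofinite_eq_atTop] at this
  -- any subsequential limits
  have key : ∀ ns : ℕ → ℕ, Tendsto ns atTop atTop → ∃ ms : ℕ → ℕ, ∃ a b,
      Dyn ι (fun n => g ^ ns (ms n)) a b ∧ dist a τ ≤ r ∧ dist b η ≤ r ∧ g • a = a ∧ g • b = b := by
    intro ns hns
    obtain ⟨φ, hφ, a, b, hD⟩ := hC.exists_dyn (hcof.comp hns)
    have hD' : Dyn ι (fun n => g ^ ns (φ n)) a b := hD
    have hpos : ∀ᶠ n in atTop, 0 < ns (φ n) :=
      (hns.comp hφ.tendsto_atTop).eventually (eventually_gt_atTop 0)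
    have ha : dist a τ ≤ r :=
      le_of_tendsto (hD'.att.dist tendsto_const_nhds) (hpos.mono fun n hn => (A3 _ hn).1)
    have hb : dist b η ≤ r :=
      le_of_tendsto (hD'.rep.dist tendsto_const_nhds) (hpos.mono fun n hn => (A3 _ hn).2)
    obtain ⟨ha', hb'⟩ := hC.dyn_notMem hD'
    refine ⟨φ, a, b, hD', ha, hb, ?_, ?_⟩
    · have e1 := (hC.dyn_mul_right hD' g).att
      have e2 := (hC.dyn_mul_left hD' g).att
      have e3 : (fun n => ι (g ^ ns (φ n) * g)) = fun n => ι (g * g ^ ns (φ n)) := by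
        funext n
        rw [← pow_succ, ← pow_succ']
      rw [e3] at e1
      exact tendsto_nhds_unique e2 e1
    · have e1 := (hC.dyn_mul_right hD'.inv g).att
      have e2 := (hC.dyn_mul_left hD'.inv g).att
      have e3 : (fun n => ι ((g ^ ns (φ n))⁻¹ * g)) = fun n => ι (g * (g ^ ns (φ n))⁻¹) := by
        funext n
        congr 1
        exact ((Commute.refl g).pow_left _).inv_left.eq
      rw [e3] at e1
      exact tendsto_nhds_unique e2 e1
  obtain ⟨_, a, b, -, ha, hb, hga, hgb⟩ := key id tendsto_id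
  have hab : a ≠ b := by
    rintro rfl
    have := dist_triangle_left τ η a
    linarith
  have hgb' : g⁻¹ • b = b := by rw [inv_smul_eq_iff, hgb]
  have key2 : ∀ ns : ℕ → ℕ, Tendsto ns atTop atTop → ∃ ms : ℕ → ℕ,
      Dyn ι (fun n => g ^ ns (ms n)) a b := by
    intro ns hns
    obtain ⟨ms, a', b', hD, ha', hb', -, -⟩ := key ns hns
    have e1 : a = a' := by
      refine hC.dyn_fixed hD (fun n => hC.smul_pow_fixed hga _) ?_
      rintro rfl
      have := dist_triangle_left τ η a
      linarith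
    have e2 : b = b' := by
      refine hC.dyn_fixed hD.inv (fun n => ?_) ?_
      · rw [← inv_pow]
        exact hC.smul_pow_fixed hgb' _
      · rintro rfl
        have := dist_triangle_left τ η b
        linarith
    subst e1 e2
    exact ⟨ms, hD⟩
  refine ⟨a, b, ⟨hab, hcof, ?_, ?_⟩, ha, hb⟩
  · refine tendsto_of_subseq_tendsto fun ns hns => ?_
    obtain ⟨ms, hD⟩ := key2 ns hns
    exact ⟨ms, hD.att⟩
  · refine tendsto_of_subseq_tendsto fun ns hns => ?_
    obtain ⟨ms, hD⟩ := key2 ns hns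
    exact ⟨ms, hD.rep⟩

/-- a sequence going to infinity with different limits consists eventually of loxodromics. -/
theorem dyn_lox [CompactSpace Z] {p : ℕ → G} {τ η : Z} (h : Dyn ι p τ η) (hne : τ ≠ η)
    {r : ℝ} (hr : 0 < r) :
    ∀ᶠ n in atTop, ∃ a b, Lox ι (p n) a b ∧ dist a τ ≤ r ∧ dist b η ≤ r := by
  obtain ⟨hτ, hη⟩ := hC.dyn_notMem h
  have d1 : 0 < dist τ η := dist_pos.2 hne
  have d2 : 0 < dist (ι 1) τ := dist_pos.2 (fun hh => hτ ⟨1, hh⟩)
  have d3 : 0 < dist (ι 1) η := dist_pos.2 (fun hh => hη ⟨1, hh⟩)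
  obtain ⟨s, hs0, hs1, hs2, hs3, hs4⟩ : ∃ s : ℝ, 0 < s ∧ s ≤ r ∧ 2 * s < dist τ η ∧
      s < dist (ι 1) τ ∧ s < dist (ι 1) η := by
    refine ⟨min (min r (dist τ η / 3)) (min (dist (ι 1) τ / 2) (dist (ι 1) η / 2)), by positivity,
      (min_le_left _ _).trans (min_le_left _ _), ?_, ?_, ?_⟩
    · have := (min_le_left (min r (dist τ η / 3))
        (min (dist (ι 1) τ / 2) (dist (ι 1) η / 2))).trans (min_le_right _ _)
      linarith
    · have := (min_le_right (min r (dist τ η / 3))
        (min (dist (ι 1) τ / 2) (dist (ι 1) η / 2))).trans (min_le_left _ _)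
      linarith
    · have := (min_le_right (min r (dist τ η / 3))
        (min (dist (ι 1) τ / 2) (dist (ι 1) η / 2))).trans (min_le_right _ _)
      linarith
  obtain ⟨F, hF, hcp⟩ := hC.cp (s / 2) (by positivity)
  have e1 : ∀ᶠ n in atTop, (p n)⁻¹ ∉ F := h.inv.cof.eventually hF.eventually_cofinite_notMem
  have e2 : ∀ᶠ n in atTop, dist (ι (p n)) τ < s / 2 :=
    (Metric.tendsto_nhds.1 h.att) _ (by positivity)
  have e3 : ∀ᶠ n in atTop, dist (ι (p n)⁻¹) η < s / 2 :=
    (Metric.tendsto_nhds.1 h.rep) _ (by positivity)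
  filter_upwards [e1, e2, e3] with n e1 e2 e3
  obtain ⟨a, b, hL, ha, hb⟩ := hC.pingpong (g := p n) hs2 hs3 hs4 (fun z hz => by
    rcases hcp _ e1 z with h5 | h5
    · exfalso
      have := dist_triangle z (ι (p n)⁻¹) η
      linarith
    · rw [inv_inv] at h5
      have := dist_triangle (p n • z) (ι (p n)) τ
      linarith)
  exact ⟨a, b, hL, ha.trans hs1, hb.trans hs1⟩

theorem pow_cofinite {g : G} (hg : ∀ n : ℕ, n ≠ 0 → g ^ n ≠ 1) :
    Tendsto (fun n : ℕ => g ^ n) atTop cofinite := by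
  have hinj : Function.Injective (fun n : ℕ => g ^ n) := by
    intro n m hnm
    have hnm' : g ^ n = g ^ m := hnm
    by_contra hcon
    rcases lt_or_gt_of_ne hcon with h | h
    · have h2 : g ^ (m - n) = 1 := by
        have : g ^ n * g ^ (m - n) = g ^ n * 1 := by
          rw [← pow_add, Nat.add_sub_cancel' h.le, mul_one, hnm']
        exact mul_left_cancel this
      exact hg _ (by omega) h2
    · have h2 : g ^ (n - m) = 1 := by
        have : g ^ m * g ^ (n - m) = g ^ m * 1 := by
          rw [← pow_add, Nat.add_sub_cancel' h.le, mul_one, hnm']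
        exact mul_left_cancel this
      exact hg _ (by omega) h2
  have := hinj.tendsto_cofinite
  rwa [Nat.cofinite_eq_atTop] at this

/-- a nontrivial element of infinite order with two fixed points at infinity is loxodromic. -/
theorem lox_of_two_fixed [CompactSpace Z] {g : G} (hg : ∀ n : ℕ, n ≠ 0 → g ^ n ≠ 1)
    {a b : Z} (hab : a ≠ b) (ha : g • a = a) (hb : g • b = b) :
    Lox ι g a b ∨ Lox ι g b a := by
  have hcof := hC.pow_cofinite hg
  have ha' : g⁻¹ • a = a := by rw [inv_smul_eq_iff, ha]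
  have hb' : g⁻¹ • b = b := by rw [inv_smul_eq_iff, hb]
  have key : ∀ ns : ℕ → ℕ, Tendsto ns atTop atTop → ∃ ms : ℕ → ℕ, StrictMono ms ∧
      (Dyn ι (fun n => g ^ ns (ms n)) a b ∨ Dyn ι (fun n => g ^ ns (ms n)) b a) := by
    intro ns hns
    obtain ⟨φ, hφ, c, d, hD⟩ := hC.exists_dyn (hcof.comp hns)
    have hD' : Dyn ι (fun n => g ^ ns (φ n)) c d := hD
    refine ⟨φ, hφ, ?_⟩
    by_cases h1 : a = d
    · right
      have h2 : b = c :=
        hC.dyn_fixed hD' (fun n => hC.smul_pow_fixed hb _) (fun h => hab (h1.trans h.symm))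
      rw [h1, h2]
      exact hD'
    · have h2 : a = c := hC.dyn_fixed hD' (fun n => hC.smul_pow_fixed ha _) h1
      left
      have h3 : b = d := by
        refine hC.dyn_fixed hD'.inv (fun n => ?_) (fun h => hab (h2.trans h.symm))
        rw [← inv_pow]
        exact hC.smul_pow_fixed hb' _
      rw [h2, h3]
      exact hD'
  have hd : 0 < dist a b := dist_pos.2 hab
  have sw : (∀ᶠ n : ℕ in atTop, dist (ι (g ^ n)) a ≤ dist (ι (g ^ n)) b) ∨
      (∀ᶠ n : ℕ in atTop, ¬ dist (ι (g ^ n)) a ≤ dist (ι (g ^ n)) b) := by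
    by_contra hcon
    push Not at hcon
    obtain ⟨h1, h2⟩ := hcon
    have h3 : ∃ᶠ n : ℕ in atTop, dist (ι (g ^ n)) a ≤ dist (ι (g ^ n)) b ∧
        ¬ dist (ι (g ^ (n + 1))) a ≤ dist (ι (g ^ (n + 1))) b := by
      by_contra h4
      rw [Filter.not_frequently] at h4
      obtain ⟨N, hN⟩ := eventually_atTop.1 h4
      have h2' : ∃ᶠ n : ℕ in atTop, dist (ι (g ^ n)) a ≤ dist (ι (g ^ n)) b := h2
      obtain ⟨n0, hn0, hn0'⟩ := (frequently_atTop.1 h2') N
      have h5 : ∀ n ≥ n0, dist (ι (g ^ n)) a ≤ dist (ι (g ^ n)) b := by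
        intro n hn
        induction n, hn using Nat.le_induction with
        | base => exact hn0'
        | succ n hn ih =>
          by_contra h6
          exact hN n (le_trans hn0 hn) ⟨ih, h6⟩
      have h1' : ∃ᶠ n : ℕ in atTop, dist (ι (g ^ n)) b < dist (ι (g ^ n)) a := h1
      obtain ⟨n1, hn1, hn1'⟩ := (frequently_atTop.1 h1') n0
      exact absurd (h5 n1 hn1) (not_le.2 hn1')
    obtain ⟨φ, hφ, hφ'⟩ := extraction_of_frequently_atTop h3
    obtain ⟨ms, hms, hD⟩ := key φ hφ.tendsto_atTop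
    have hle : ∀ n, dist (ι (g ^ φ (ms n))) a ≤ dist (ι (g ^ φ (ms n))) b := fun n => (hφ' _).1
    have hgt : ∀ n, dist (ι (g ^ (φ (ms n) + 1))) b ≤ dist (ι (g ^ (φ (ms n) + 1))) a :=
      fun n => (not_le.1 (hφ' (ms n)).2).le
    rcases hD with hD | hD
    · have e1 := (hC.dyn_mul_left hD g).att
      simp only [← pow_succ', ha] at e1
      have e2 : dist a b ≤ dist a a :=
        le_of_tendsto_of_tendsto' (e1.dist tendsto_const_nhds) (e1.dist tendsto_const_nhds) hgt
      rw [dist_self] at e2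
      linarith
    · have e2 : dist b a ≤ dist b b :=
        le_of_tendsto_of_tendsto' (hD.att.dist tendsto_const_nhds)
          (hD.att.dist tendsto_const_nhds) hle
      rw [dist_self, dist_comm] at e2
      linarith
  rcases sw with sw | sw
  · left
    have key2 : ∀ ns : ℕ → ℕ, Tendsto ns atTop atTop → ∃ ms : ℕ → ℕ,
        Dyn ι (fun n => g ^ ns (ms n)) a b := by
      intro ns hns
      obtain ⟨ms, hms, hD⟩ := key ns hns
      rcases hD with hD | hD
      · exact ⟨ms, hD⟩
      · exfalso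
        have e2 : dist b a ≤ dist b b :=
          le_of_tendsto_of_tendsto (hD.att.dist tendsto_const_nhds)
            (hD.att.dist tendsto_const_nhds) ((hns.comp hms.tendsto_atTop).eventually sw)
        rw [dist_self, dist_comm] at e2
        linarith
    refine ⟨hab, hcof, ?_, ?_⟩
    · refine tendsto_of_subseq_tendsto fun ns hns => ?_
      obtain ⟨ms, hD⟩ := key2 ns hns
      exact ⟨ms, hD.att⟩
    · refine tendsto_of_subseq_tendsto fun ns hns => ?_
      obtain ⟨ms, hD⟩ := key2 ns hns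
      exact ⟨ms, hD.rep⟩
  · right
    have key2 : ∀ ns : ℕ → ℕ, Tendsto ns atTop atTop → ∃ ms : ℕ → ℕ,
        Dyn ι (fun n => g ^ ns (ms n)) b a := by
      intro ns hns
      obtain ⟨ms, hms, hD⟩ := key ns hns
      rcases hD with hD | hD
      · exfalso
        have e2 : dist a b ≤ dist a a :=
          le_of_tendsto_of_tendsto (hD.att.dist tendsto_const_nhds)
            (hD.att.dist tendsto_const_nhds)
            (((hns.comp hms.tendsto_atTop).eventually sw).mono fun n hn => (not_le.1 hn).le)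
        rw [dist_self] at e2
        linarith
      · exact ⟨ms, hD⟩
    refine ⟨hab.symm, hcof, ?_, ?_⟩
    · refine tendsto_of_subseq_tendsto fun ns hns => ?_
      obtain ⟨ms, hD⟩ := key2 ns hns
      exact ⟨ms, hD.att⟩
    · refine tendsto_of_subseq_tendsto fun ns hns => ?_
      obtain ⟨ms, hD⟩ := key2 ns hns
      exact ⟨ms, hD.rep⟩

/-- (c0) the stabiliser of one fixed point of a loxodromic fixes the other one. -/
theorem lox_stab [CompactSpace Z] {g h : G} {a b : Z} (hL : Lox ι g a b) (hb : h • b = b) :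
    h • a = a := by
  by_contra hne
  have hd : 0 < dist a b := dist_pos.2 hL.ne
  obtain ⟨ha', hb'⟩ := hC.lox_notMem hL
  have hgb : g • b = b := hC.lox_fix_rep hL
  have hga : g • a = a := hC.lox_fix_att hL
  have hga' : g⁻¹ • a = a := by rw [inv_smul_eq_iff, hga]
  have hgb' : g⁻¹ • b = b := by rw [inv_smul_eq_iff, hgb]
  have hhab : h • a ≠ b := by
    intro hh
    apply hL.ne
    apply MulAction.injective h
    show h • a = h • b
    rw [hh, hb]
  set w : ℕ → G := fun n => h * (g ^ n)⁻¹ with hw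
  have hwb : Tendsto (fun n => ι (w n)) atTop (𝓝 b) := by
    have := hC.tendsto_const_smul h hL.dyn.rep
    rw [hb] at this
    simpa only [hw, hC.equiv] using this
  set r := dist a b / 2 with hr
  have hr0 : 0 < r := by positivity
  -- exit times
  have hex : ∀ n, ∃ m : ℕ, r < dist (ι (g ^ m * w n)) b := by
    intro n
    have h1 : Tendsto (fun m : ℕ => g ^ m • ι (w n)) atTop (𝓝 a) :=
      hC.dyn_tendsto_const hL.dyn (fun hh => hb' ⟨_, hh⟩)
    have h2 : Tendsto (fun m : ℕ => dist (g ^ m • ι (w n)) b) atTop (𝓝 (dist a b)) :=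
      h1.dist tendsto_const_nhds
    have h3 := h2.eventually (lt_mem_nhds (show r < dist a b by rw [hr]; linarith))
    obtain ⟨m, hm⟩ := h3.exists
    exact ⟨m, by rwa [hC.equiv]⟩
  classical
  let m : ℕ → ℕ := fun n => Nat.find (hex n)
  have hm1 : ∀ n, r < dist (ι (g ^ m n * w n)) b := fun n => Nat.find_spec (hex n)
  have hm2 : ∀ n k, k < m n → dist (ι (g ^ k * w n)) b ≤ r := fun n k hk =>
    not_lt.1 (Nat.find_min (hex n) hk)
  have hmt : Tendsto m atTop atTop := by
    rw [tendsto_atTop]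
    intro M
    have h1 : ∀ᶠ n in atTop, ∀ k ∈ Finset.range M, dist (ι (g ^ k * w n)) b < r := by
      rw [Filter.eventually_all_finset]
      intro k _
      have h2 := hC.tendsto_const_smul (g ^ k) hwb
      rw [hC.smul_pow_fixed hgb] at h2
      have h3 := (Metric.tendsto_nhds.1 h2) r hr0
      filter_upwards [h3] with n hn
      rwa [hC.equiv]
    filter_upwards [h1] with n hn
    by_contra hcon
    have := hn (m n) (Finset.mem_range.2 (not_le.1 hcon))
    linarith [hm1 n]
  set u : ℕ → G := fun n => g ^ m n * w n with hu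
  have hub : ∀ n, u n • b = b := by
    intro n
    simp only [hu, hw, mul_smul]
    rw [← inv_pow, hC.smul_pow_fixed hgb', hb, hC.smul_pow_fixed hgb]
  have hua : ∀ n, u n • a = g ^ m n • (h • a) := by
    intro n
    simp only [hu, hw, mul_smul]
    rw [← inv_pow, hC.smul_pow_fixed hga']
  have huat : Tendsto (fun n => u n • a) atTop (𝓝 a) := by
    simp only [hua]
    exact (hC.dyn_tendsto_const hL.dyn hhab).comp hmt
  have hfin : ∀ l : ℕ, 0 < l → g ^ l • (h • a) = h • a → False := by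
    intro l hl hfix
    apply hne
    have h1 : ∀ j : ℕ, g ^ (l * j) • (h • a) = h • a := by
      intro j
      rw [pow_mul]
      exact hC.smul_pow_fixed hfix j
    have h2 : Tendsto (fun j : ℕ => g ^ (l * j) • (h • a)) atTop (𝓝 a) :=
      (hC.dyn_tendsto_const hL.dyn hhab).comp
        (tendsto_id.const_mul_atTop' hl)
    simp only [h1] at h2
    exact tendsto_nhds_unique tendsto_const_nhds h2
  rcases exists_eq_or_cofinite u with ⟨n, n', hnn, hEq⟩ | hcof
  · have hEq' : g ^ m n * (h * (g ^ n)⁻¹) = g ^ m n' * (h * (g ^ n')⁻¹) := hEq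
    have h1 : g ^ m n • (h • a) = g ^ m n' • (h • a) := by
      have h3 : (g ^ m n * (h * (g ^ n)⁻¹)) • a = (g ^ m n' * (h * (g ^ n')⁻¹)) • a := by
        rw [hEq']
      simp only [mul_smul, ← inv_pow] at h3
      rwa [hC.smul_pow_fixed hga', hC.smul_pow_fixed hga'] at h3
    rcases lt_trichotomy (m n) (m n') with h2 | h2 | h2
    · refine hfin (m n' - m n) (by omega) ?_
      have h3 : g ^ m n • (g ^ (m n' - m n) • (h • a)) = g ^ m n • (h • a) := by
        rw [← mul_smul, ← pow_add, Nat.add_sub_cancel' h2.le, h1]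
      exact MulAction.injective _ h3
    · rw [h2] at hEq'
      have h3 : g ^ n = g ^ n' := inv_injective (mul_left_cancel (mul_left_cancel hEq'))
      have h4 : g ^ (n' - n) = 1 := by
        have : g ^ n * g ^ (n' - n) = g ^ n * 1 := by
          rw [← pow_add, Nat.add_sub_cancel' hnn.le, mul_one, h3]
        exact mul_left_cancel this
      exact hC.lox_pow_ne_one hL (by omega) h4
    · refine hfin (m n - m n') (by omega) ?_
      have h3 : g ^ m n' • (g ^ (m n - m n') • (h • a)) = g ^ m n' • (h • a) := by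
        rw [← mul_smul, ← pow_add, Nat.add_sub_cancel' h2.le, h1]
      exact MulAction.injective _ h3
  · obtain ⟨φ, hφ, c, c', hD⟩ := hC.exists_dyn hcof
    have hcb : r ≤ dist c b :=
      ge_of_tendsto' (hD.att.dist tendsto_const_nhds) (fun n => (hm1 (φ n)).le)
    have hcb' : c ≠ b := by
      rintro rfl
      rw [dist_self] at hcb
      linarith
    have hbc' : b = c' := by
      by_contra h1
      exact hcb' (hC.dyn_fixed hD (fun n => hub _) h1).symm
    have hca : a = c := by
      have h1 := hC.dyn_tendsto_const hD (z := a) (by rw [← hbc']; exact hL.ne)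
      exact tendsto_nhds_unique (huat.comp hφ.tendsto_atTop) h1
    have h2 : dist (g⁻¹ • c) b ≤ r := by
      have h3 := (hC.dyn_mul_left hD g⁻¹).att.dist (tendsto_const_nhds (x := b))
      refine le_of_tendsto h3 ?_
      have h4 : ∀ᶠ n in atTop, 1 ≤ m (φ n) :=
        (hmt.comp hφ.tendsto_atTop).eventually (eventually_ge_atTop 1)
      filter_upwards [h4] with n hn
      have h5 := hm2 (φ n) (m (φ n) - 1) (by omega)
      have h6 : g⁻¹ * u (φ n) = g ^ (m (φ n) - 1) * w (φ n) := by
        simp only [hu]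
        rw [← mul_assoc]
        congr 1
        rw [inv_mul_eq_iff_eq_mul, ← pow_succ']
        congr 1
        omega
      rw [h6]
      exact h5
    rw [← hca, hga'] at h2
    linarith

theorem lox_stab' [CompactSpace Z] {g h : G} {a b : Z} (hL : Lox ι g a b) (ha : h • a = a) :
    h • b = b :=
  hC.lox_stab (hC.lox_inv hL) ha

/-- (c1) the stabiliser of a point `η` has at most one limit point different from `η`. -/
theorem stab_limit_unique [CompactSpace Z] {η τ τ' : Z} {p p' : ℕ → G}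
    (hτ : τ ∉ range ι) (hτ' : τ' ∉ range ι)
    (hp : ∀ n, p n • η = η) (hp' : ∀ n, p' n • η = η)
    (h : Tendsto (fun n => ι (p n)) atTop (𝓝 τ)) (h' : Tendsto (fun n => ι (p' n)) atTop (𝓝 τ'))
    (hne : τ ≠ η) (hne' : τ' ≠ η) : τ = τ' := by
  obtain ⟨φ, hφ, t, b, hD⟩ := hC.exists_dyn (cofinite_of_tendsto hτ h)
  obtain rfl : τ = t := tendsto_nhds_unique (h.comp hφ.tendsto_atTop) hD.att
  obtain ⟨φ', hφ', t', b', hD'⟩ := hC.exists_dyn (cofinite_of_tendsto hτ' h')
  obtain rfl : τ' = t' := tendsto_nhds_unique (h'.comp hφ'.tendsto_atTop) hD'.att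
  have hb : η = b := by
    by_contra h1
    exact hne (hC.dyn_fixed hD (fun n => hp _) h1).symm
  have hb' : η = b' := by
    by_contra h1
    exact hne' (hC.dyn_fixed hD' (fun n => hp' _) h1).symm
  subst hb hb'
  have hd : 0 < dist τ η := dist_pos.2 hne
  obtain ⟨n, a, c, hL, ha, -⟩ := (hC.dyn_lox hD hne (r := dist τ η / 2) (by positivity)).exists
  have hac : a ≠ η := by
    rintro rfl
    rw [dist_comm] at ha
    linarith
  have hc : η = c := by
    rcases hC.lox_fixed hL (hp _) with h1 | h1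
    · exact absurd h1.symm hac
    · exact h1
  subst hc
  have haτ : a = τ := hC.dyn_fixed hD (fun m => hC.lox_stab hL (hp _)) hac
  subst haτ
  exact hC.dyn_fixed hD' (fun m => hC.lox_stab hL (hp' _)) hac

/-- the parabolic case of the null lemma: a conical point is not fixed by a parabolic group. -/
theorem not_conical_parabolic [CompactSpace Z] (htf : ∀ g : G, g ≠ 1 → ∀ n : ℕ, n ≠ 0 → g ^ n ≠ 1)
    {H : Subgroup G} {η τ σ : Z} (hη : η ∉ range ι) (hH : ∀ h ∈ H, h • η = η) {x p : ℕ → G}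
    (hx : Dyn ι x τ η) (hσ : Tendsto (fun n => x n • η) atTop (𝓝 σ)) (hne : σ ≠ τ)
    (hp : Dyn ι p η η) (hpH : ∀ n, p n ∈ H) : False := by
  obtain ⟨N, hN⟩ : ∃ N, p N ≠ 1 := by
    have h1 : ∀ᶠ n in atTop, p n ∉ ({1} : Set G) :=
      hp.cof.eventually (Set.finite_singleton (1 : G)).eventually_cofinite_notMem
    exact h1.exists
  set q : ℕ → G := fun n => x n * p N * (x n)⁻¹ with hq
  have hστ : τ ∉ range ι := (hC.dyn_notMem hx).1
  have hσ' : σ ∉ range ι :=
    hC.isClosed_compl_range.mem_of_tendsto hσ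
      (Eventually.of_forall fun n => hC.smul_notMem_range hη _)
  have hqη : ∀ n, q n • (x n • η) = x n • η := by
    intro n
    simp only [hq, mul_smul, inv_smul_smul]
    rw [hH _ (hpH N)]
  have hqι : ∀ n, q n • ι (x n) = ι (x n * p N) := by
    intro n
    rw [← hC.equiv]
    simp only [hq, inv_mul_cancel_right]
  have hxp : Tendsto (fun n => ι (x n * p N)) atTop (𝓝 τ) := (hC.dyn_mul_right hx (p N)).att
  -- `p N` has two fixed points
  have hfix : ∃ c d : Z, c ≠ d ∧ p N • c = c ∧ p N • d = d := by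
    rcases frequently_eq_or_cofinite q with ⟨q0, hq0⟩ | hcof
    · obtain ⟨φ, hφ, hφ'⟩ := extraction_of_frequently_atTop hq0
      have e1 : q0 • σ = σ := by
        have h1 := hC.tendsto_const_smul q0 (hσ.comp hφ.tendsto_atTop)
        have h2 : (fun n => q0 • ((fun n => x n • η) ∘ φ) n) = (fun n => x n • η) ∘ φ := by
          funext n
          show q0 • (x (φ n) • η) = x (φ n) • η
          rw [← hφ' n, hqη]
        rw [h2] at h1
        exact tendsto_nhds_unique h1 (hσ.comp hφ.tendsto_atTop)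
      have e2 : q0 • τ = τ := by
        have h1 := hC.tendsto_const_smul q0 (hx.att.comp hφ.tendsto_atTop)
        have h2 : (fun n => q0 • ((fun n => ι (x n)) ∘ φ) n) = (fun n => ι (x n * p N)) ∘ φ := by
          funext n
          show q0 • ι (x (φ n)) = ι (x (φ n) * p N)
          rw [← hφ' n, hqι]
        rw [h2] at h1
        exact tendsto_nhds_unique h1 (hxp.comp hφ.tendsto_atTop)
      have e3 : x (φ 0) * p N * (x (φ 0))⁻¹ = q0 := hφ' 0
      have e4 : p N = (x (φ 0))⁻¹ * q0 * x (φ 0) := by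
        rw [← e3]
        group
      refine ⟨(x (φ 0))⁻¹ • σ, (x (φ 0))⁻¹ • τ, fun hh => hne (MulAction.injective _ hh), ?_, ?_⟩
      · rw [e4, mul_smul, mul_smul, smul_inv_smul, e1]
      · rw [e4, mul_smul, mul_smul, smul_inv_smul, e2]
    · obtain ⟨φ, hφ, u, v, hD⟩ := hC.exists_dyn hcof
      have e1 : σ = u ∨ σ = v := by
        by_cases h1 : σ = v
        · exact Or.inr h1
        · left
          have h2 := hC.dyn_tendsto hD (hσ.comp hφ.tendsto_atTop) h1
          have h3 : (fun n => q (φ n) • ((fun n => x n • η) ∘ φ) n) =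
              (fun n => x n • η) ∘ φ := by
            funext n
            exact hqη _
          rw [h3] at h2
          exact tendsto_nhds_unique (hσ.comp hφ.tendsto_atTop) h2
      have e2 : τ = u ∨ τ = v := by
        by_cases h1 : τ = v
        · exact Or.inr h1
        · left
          have h2 := hC.dyn_tendsto hD (hx.att.comp hφ.tendsto_atTop) h1
          have h3 : (fun n => q (φ n) • ((fun n => ι (x n)) ∘ φ) n) =
              (fun n => ι (x n * p N)) ∘ φ := by
            funext n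
            exact hqι _
          rw [h3] at h2
          exact tendsto_nhds_unique (hxp.comp hφ.tendsto_atTop) h2
      have huv : u ≠ v := by
        rintro rfl
        rcases e1 with e1 | e1 <;> rcases e2 with e2 | e2 <;> exact hne (e1.trans e2.symm)
      obtain ⟨n, c, d, hL, -, -⟩ := (hC.dyn_lox hD huv (r := 1) one_pos).exists
      have e4 : p N = (x (φ n))⁻¹ * q (φ n) * x (φ n) := by
        simp only [hq]
        group
      refine ⟨(x (φ n))⁻¹ • c, (x (φ n))⁻¹ • d, fun hh => hL.ne (MulAction.injective _ hh), ?_, ?_⟩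
      · rw [e4, mul_smul, mul_smul, smul_inv_smul, hC.lox_fix_att hL]
      · rw [e4, mul_smul, mul_smul, smul_inv_smul, hC.lox_fix_rep hL]
  obtain ⟨c, d, hcd, hc, hd⟩ := hfix
  have hL : ∃ c d : Z, Lox ι (p N) c d := by
    rcases hC.lox_of_two_fixed (htf _ hN) hcd hc hd with h | h
    · exact ⟨_, _, h⟩
    · exact ⟨_, _, h⟩
  obtain ⟨c, d, hL⟩ := hL
  rcases hC.lox_fixed hL (hH _ (hpH N)) with h1 | h1
  · subst h1
    exact hL.ne.symm (hC.dyn_fixed hp (fun n => hC.lox_stab' hL (hH _ (hpH n))) hL.ne.symm)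
  · subst h1
    exact hL.ne (hC.dyn_fixed hp (fun n => hC.lox_stab hL (hH _ (hpH n))) hL.ne)

/-- the loxodromic case of the null lemma. -/
theorem null_lox [CompactSpace Z] {H : Subgroup G} {η τ τ' k k' : Z}
    (hH : ∀ h ∈ H, h • η = η) {x x' : ℕ → G} (hne : τ ≠ τ') (hk : k ≠ k')
    (hx : Dyn ι x τ k) (hx' : Dyn ι x' τ' k')
    (hp : Dyn ι (fun n => (x n)⁻¹ * x' n) k k') (hpH : ∀ n, (x n)⁻¹ * x' n ∈ H) :
    ∃ n m, n < m ∧ (x n)⁻¹ * x m ∈ H := by
  -- a loxodromic element of `H` with fixed points `k, k'`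
  obtain ⟨g, hgH, hL, hHk, hHk'⟩ : ∃ g ∈ H, Lox ι g k k' ∧ (∀ h ∈ H, h • k = k) ∧
      (∀ h ∈ H, h • k' = k') := by
    obtain ⟨n, a, b, hL, -, -⟩ := (hC.dyn_lox hp hk (r := 1) one_pos).exists
    have hfix : ∀ h ∈ H, h • a = a ∧ h • b = b := by
      intro h hh
      rcases hC.lox_fixed hL (hH _ (hpH n)) with h1 | h1
      · subst h1
        exact ⟨hH h hh, hC.lox_stab' hL (hH h hh)⟩
      · subst h1
        exact ⟨hC.lox_stab hL (hH h hh), hH h hh⟩
    by_cases h1 : a = k'
    · have h2 : b = k :=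
        hC.dyn_fixed hp (fun m => (hfix _ (hpH m)).2) (fun h => hL.ne (h1.trans h.symm))
      rw [h1, h2] at hL
      rw [h1, h2] at hfix
      exact ⟨_, H.inv_mem (hpH n), hC.lox_inv hL, fun h hh => (hfix h hh).2,
        fun h hh => (hfix h hh).1⟩
    · have h2 : a = k := hC.dyn_fixed hp (fun m => (hfix _ (hpH m)).1) h1
      have h3 : b = k' := by
        have hbk : b ≠ k := fun h => hL.ne (h2.trans h.symm)
        refine hC.dyn_fixed hp.inv (fun m => ?_) hbk
        rw [inv_smul_eq_iff]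
        exact (hfix _ (hpH m)).2.symm
      rw [h2, h3] at hL
      rw [h2, h3] at hfix
      exact ⟨_, hpH n, hL, fun h hh => (hfix h hh).1, fun h hh => (hfix h hh).2⟩
  have hxk' : Tendsto (fun n => x n • k') atTop (𝓝 τ) := hC.dyn_tendsto_const hx hk.symm
  have hxk : Tendsto (fun n => x n • k) atTop (𝓝 τ') := by
    have h1 := hC.dyn_tendsto_const hx' hk
    have h2 : (fun n => x' n • k) = fun n => x n • k := by
      funext n
      have h3 : x' n = x n * ((x n)⁻¹ * x' n) := by group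
      rw [h3, mul_smul, hHk _ (hpH n)]
    rwa [h2] at h1
  have hd : 0 < dist τ τ' := dist_pos.2 hne
  set r := dist τ τ' / 3 with hr
  have hr0 : 0 < r := by positivity
  have hev : ∀ᶠ n in atTop, ∃ z : G, (x n)⁻¹ * z ∈ H ∧ dist (ι z) τ' ≤ r ∧
      r < dist (ι (z * g⁻¹)) τ' := by
    have e1 : ∀ᶠ n in atTop, dist (x n • k) τ' < r := (Metric.tendsto_nhds.1 hxk) _ hr0
    have e2 : ∀ᶠ n in atTop, dist (x n • k') τ < r := (Metric.tendsto_nhds.1 hxk') _ hr0
    filter_upwards [e1, e2] with n e1 e2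
    -- a translate outside of the ball around `τ'`
    obtain ⟨y, hyH, hy⟩ : ∃ y : G, (x n)⁻¹ * y ∈ H ∧ r < dist (ι y) τ' := by
      have h1 := (hC.dyn_mul_left hL.dyn.inv (x n)).att
      have h2 := (Metric.tendsto_nhds.1 h1) (r - dist (x n • k') τ) (by linarith)
      obtain ⟨m, hm⟩ := h2.exists
      refine ⟨x n * (g ^ m)⁻¹, ?_, ?_⟩
      · rw [inv_mul_cancel_left]
        exact H.inv_mem (H.pow_mem hgH m)
      · have h3 := dist_triangle (ι (x n * (g ^ m)⁻¹)) (x n • k') τ
        have h4 := dist_triangle_left τ τ' (ι (x n * (g ^ m)⁻¹))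
        have h5 : dist τ τ' = 3 * r := by rw [hr]; ring
        linarith
    have hex : ∃ m : ℕ, dist (ι (y * g ^ m)) τ' ≤ r := by
      have hyk : y • k = x n • k := by
        have h3 : y = x n * ((x n)⁻¹ * y) := by group
        rw [h3, mul_smul, hHk _ hyH]
      have h1 := (hC.dyn_mul_left hL.dyn y).att
      rw [hyk] at h1
      have h2 := (Metric.tendsto_nhds.1 h1) (r - dist (x n • k) τ') (by linarith)
      obtain ⟨m, hm⟩ := h2.exists
      refine ⟨m, ?_⟩
      have := dist_triangle (ι (y * g ^ m)) (x n • k) τ'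
      linarith
    classical
    have hm1 := Nat.find_spec hex
    have hm0 : Nat.find hex ≠ 0 := by
      intro h0
      rw [h0, pow_zero, mul_one] at hm1
      linarith
    have hm2 := Nat.find_min hex (m := Nat.find hex - 1) (by omega)
    refine ⟨y * g ^ Nat.find hex, ?_, hm1, ?_⟩
    · rw [← mul_assoc]
      exact H.mul_mem hyH (H.pow_mem hgH _)
    · have h1 : y * g ^ Nat.find hex * g⁻¹ = y * g ^ (Nat.find hex - 1) := by
        obtain ⟨j, hj⟩ : ∃ j, Nat.find hex = j + 1 := ⟨Nat.find hex - 1, by omega⟩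
        rw [hj, Nat.add_sub_cancel, pow_succ]
        group
      rw [h1]
      exact not_le.1 hm2
  obtain ⟨N, hN⟩ := eventually_atTop.1 hev
  choose z hz1 hz2 hz3 using fun n : ℕ => hN (n + N) (Nat.le_add_left N n)
  have hzk : ∀ n, z n • k = x (n + N) • k := by
    intro n
    have h3 : z n = x (n + N) * ((x (n + N))⁻¹ * z n) := by group
    rw [h3, mul_smul, hHk _ (hz1 n)]
  have hzk' : ∀ n, z n • k' = x (n + N) • k' := by
    intro n
    have h3 : z n = x (n + N) * ((x (n + N))⁻¹ * z n) := by group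
    rw [h3, mul_smul, hHk' _ (hz1 n)]
  rcases exists_eq_or_cofinite z with ⟨n, m, hnm, hEq⟩ | hcof
  · refine ⟨n + N, m + N, by omega, ?_⟩
    have h1 : (x (n + N))⁻¹ * x (m + N) = ((x (n + N))⁻¹ * z n) * ((x (m + N))⁻¹ * z m)⁻¹ := by
      rw [hEq]
      group
    rw [h1]
    exact H.mul_mem (hz1 n) (H.inv_mem (hz1 m))
  · exfalso
    obtain ⟨φ, hφ, c, c', hD⟩ := hC.exists_dyn hcof
    have hshift : Tendsto (fun n => φ n + N) atTop atTop :=
      (tendsto_add_atTop_nat N).comp hφ.tendsto_atTop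
    have hc : dist c τ' ≤ r :=
      le_of_tendsto' (hD.att.dist tendsto_const_nhds) (fun n => hz2 _)
    have hc' : k' = c' := by
      by_contra h1
      have h2 := hC.dyn_tendsto_const hD h1
      simp only [hzk'] at h2
      have h3 : τ = c := tendsto_nhds_unique (hxk'.comp hshift) h2
      rw [← h3] at hc
      have h5 : dist τ τ' = 3 * r := by rw [hr]; ring
      linarith
    have hcτ : τ' = c := by
      have h2 := hC.dyn_tendsto_const hD (z := k) (by rw [← hc']; exact hk)
      simp only [hzk] at h2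
      exact tendsto_nhds_unique (hxk.comp hshift) h2
    have h3 := (hC.dyn_mul_right hD g⁻¹).att.dist (tendsto_const_nhds (x := τ'))
    have h4 : r ≤ dist c τ' := ge_of_tendsto' h3 (fun n => (hz3 _).le)
    rw [← hcτ, dist_self] at h4
    linarith

/-- **abstract null lemma**. -/
theorem null_lemma [CompactSpace Z] (htf : ∀ g : G, g ≠ 1 → ∀ n : ℕ, n ≠ 0 → g ^ n ≠ 1)
    {H : Subgroup G} {η τ τ' : Z} (hη : η ∉ range ι) (hH : ∀ h ∈ H, h • η = η) {x x' : ℕ → G}
    (hτ : τ ∉ range ι) (hτ' : τ' ∉ range ι) (hne : τ ≠ τ')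
    (hx : Tendsto (fun n => ι (x n)) atTop (𝓝 τ)) (hx' : Tendsto (fun n => ι (x' n)) atTop (𝓝 τ'))
    (hpH : ∀ n, (x n)⁻¹ * x' n ∈ H) : ∃ n m, n < m ∧ (x n)⁻¹ * x m ∈ H := by
  -- pass to subsequences
  obtain ⟨φ, hφ, t, k, hD⟩ := hC.exists_dyn (cofinite_of_tendsto hτ hx)
  obtain rfl : τ = t := tendsto_nhds_unique (hx.comp hφ.tendsto_atTop) hD.att
  have hx'φ : Tendsto (fun n => ι (x' (φ n))) atTop (𝓝 τ') := hx'.comp hφ.tendsto_atTop
  obtain ⟨ψ, hψ, t', k', hD'⟩ := hC.exists_dyn (cofinite_of_tendsto hτ' hx'φ)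
  obtain rfl : τ' = t' := tendsto_nhds_unique (hx'φ.comp hψ.tendsto_atTop) hD'.att
  obtain ⟨σ, χ, hχ, hσ⟩ := CompactSpace.tendsto_subseq (fun n => x (φ (ψ n)) • η)
  set θ : ℕ → ℕ := fun n => φ (ψ (χ n)) with hθ
  have hθm : StrictMono θ := hφ.comp (hψ.comp hχ)
  have hX : Dyn ι (fun n => x (θ n)) τ k := (hD.comp hψ).comp hχ
  have hX' : Dyn ι (fun n => x' (θ n)) τ' k' := hD'.comp hχ
  have hσ' : Tendsto (fun n => x (θ n) • η) atTop (𝓝 σ) := hσ
  have hk := (hC.dyn_notMem hX).2
  have hk' := (hC.dyn_notMem hX').2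
  have hP1 : Tendsto (fun n => ι ((x (θ n))⁻¹ * x' (θ n))) atTop (𝓝 k) := by
    refine tendsto_of_subseq_tendsto fun ns hns => ?_
    obtain ⟨c, ms, hms, hc⟩ := CompactSpace.tendsto_subseq
      (fun n => ι ((x (θ (ns n)))⁻¹ * x' (θ (ns n))))
    refine ⟨ms, ?_⟩
    by_cases hck : c = k
    · rw [← hck]; exact hc
    · exfalso
      -- along the subsequence `x • ι p → τ`
      have hns' : Tendsto (fun n => ns (ms n)) atTop atTop := hns.comp hms.tendsto_atTop
      have hXs : Dyn ι (fun n => x (θ (ns (ms n)))) τ k :=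
        ⟨hX.cof.comp hns', hX.att.comp hns', hX.rep.comp hns'⟩
      have h1 := hC.dyn_tendsto hXs hc hck
      have h2 : (fun n => x (θ (ns (ms n))) • ((fun n => ι ((x (θ (ns n)))⁻¹ * x' (θ (ns n)))) ∘ ms) n)
          = fun n => ι (x' (θ (ns (ms n)))) := by
        funext n
        show x (θ (ns (ms n))) • ι ((x (θ (ns (ms n))))⁻¹ * x' (θ (ns (ms n)))) = _
        rw [← hC.equiv, mul_inv_cancel_left]
      rw [h2] at h1
      exact hne (tendsto_nhds_unique h1 (hX'.att.comp hns'))
  have hP2 : Tendsto (fun n => ι ((x (θ n))⁻¹ * x' (θ n))⁻¹) atTop (𝓝 k') := by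
    refine tendsto_of_subseq_tendsto fun ns hns => ?_
    obtain ⟨c, ms, hms, hc⟩ := CompactSpace.tendsto_subseq
      (fun n => ι ((x (θ (ns n)))⁻¹ * x' (θ (ns n)))⁻¹)
    refine ⟨ms, ?_⟩
    by_cases hck : c = k'
    · rw [← hck]; exact hc
    · exfalso
      have hns' : Tendsto (fun n => ns (ms n)) atTop atTop := hns.comp hms.tendsto_atTop
      have hXs : Dyn ι (fun n => x' (θ (ns (ms n)))) τ' k' :=
        ⟨hX'.cof.comp hns', hX'.att.comp hns', hX'.rep.comp hns'⟩
      have h1 := hC.dyn_tendsto hXs hc hck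
      have h2 : (fun n => x' (θ (ns (ms n))) •
          ((fun n => ι ((x (θ (ns n)))⁻¹ * x' (θ (ns n)))⁻¹) ∘ ms) n)
          = fun n => ι (x (θ (ns (ms n)))) := by
        funext n
        show x' (θ (ns (ms n))) • ι ((x (θ (ns (ms n))))⁻¹ * x' (θ (ns (ms n))))⁻¹ = _
        rw [← hC.equiv]
        congr 1
        group
      rw [h2] at h1
      exact hne (tendsto_nhds_unique (hX.att.comp hns') h1)
  have hP : Dyn ι (fun n => (x (θ n))⁻¹ * x' (θ n)) k k' :=
    ⟨cofinite_of_tendsto hk hP1, hP1, hP2⟩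
  by_cases hkk : k = k'
  · exfalso
    subst hkk
    have hηk : η = k := by
      by_contra h1
      exact h1 (hC.dyn_fixed hP (fun n => hH _ (hpH _)) h1)
    subst hηk
    by_cases hστ : σ = τ
    · -- use `x'`
      have hσ2 : Tendsto (fun n => x' (θ n) • η) atTop (𝓝 σ) := by
        have h2 : (fun n => x' (θ n) • η) = fun n => x (θ n) • η := by
          funext n
          have h3 : x' (θ n) = x (θ n) * ((x (θ n))⁻¹ * x' (θ n)) := by group
          rw [h3, mul_smul, hH _ (hpH _)]
        rwa [h2]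
      exact hC.not_conical_parabolic htf hη hH hX' hσ2 (by rw [hστ]; exact hne) hP.inv
        (fun n => H.inv_mem (hpH _))
    · exact hC.not_conical_parabolic htf hη hH hX hσ' hστ hP (fun n => hpH _)
  · obtain ⟨n, m, hnm, hmem⟩ := hC.null_lox hH hne hkk hX hX' hP (fun n => hpH _)
    exact ⟨θ n, θ m, hθm hnm, hmem⟩

end ConvSpace

end Crest.Agent.R224
end

-- ▼ part R224/NodeDyn

/-!
Row 224, group half: nodes `NTriple`, `NC1`, `NNullDyn` (dynamics), from `Conv.lean`.
-/

set_option autoImplicit false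
set_option linter.unusedSectionVars false

noncomputable section

open Set Filter Topology

namespace Crest.Agent.R224

/-- the system gives a `ConvSpace`. -/
theorem Sys.convSpace (s : Sys) : ConvSpace s.G s.Z s.ι where
  cont := s.bdry.cont
  equiv g h := (s.bdry.eqv g h).symm
  inj := s.bdry.inj
  isol := s.bdry.isol 1
  cp ε hε := by
    obtain ⟨K, hK⟩ := s.bdry.cp ε hε
    exact ⟨(K : Set s.G), K.finite_toSet, fun g hg z => hK g (by simpa using hg) z⟩

/-- properness on triples (abstract form). -/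
theorem ConvSpace.triple_finite {G : Type*} [Group G] {Z : Type*} [MetricSpace Z] [MulAction G Z]
    {ι : G → Z} [CompactSpace Z] (hC : ConvSpace G Z ι) (ε : ℝ) (hε : 0 < ε) :
    {g : G | ∃ a b c : Z, ε ≤ dist a b ∧ ε ≤ dist a c ∧ ε ≤ dist b c ∧
      ε ≤ dist (g • a) (g • b) ∧ ε ≤ dist (g • a) (g • c) ∧ ε ≤ dist (g • b) (g • c)}.Finite := by
  by_contra hinf
  have hinf' : {g : G | ∃ a b c : Z, ε ≤ dist a b ∧ ε ≤ dist a c ∧ ε ≤ dist b c ∧
      ε ≤ dist (g • a) (g • b) ∧ ε ≤ dist (g • a) (g • c) ∧ ε ≤ dist (g • b) (g • c)}.Infinite :=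
    hinf
  set e := hinf'.natEmbedding with he
  have hcof : Tendsto (fun n => ((e n : {g : G | _}) : G)) atTop cofinite := by
    have h1 : Function.Injective (fun n => ((e n : {g : G | _}) : G)) :=
      Subtype.val_injective.comp e.injective
    have := h1.tendsto_cofinite
    rwa [Nat.cofinite_eq_atTop] at this
  choose a b c h1 h2 h3 h4 h5 h6 using fun n => (e n).2
  obtain ⟨φ, hφ, u, v, hD⟩ := hC.exists_dyn hcof
  obtain ⟨a0, φ1, hφ1, ha⟩ := CompactSpace.tendsto_subseq (fun n => a (φ n))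
  obtain ⟨b0, φ2, hφ2, hb⟩ := CompactSpace.tendsto_subseq (fun n => b (φ (φ1 n)))
  obtain ⟨c0, φ3, hφ3, hc⟩ := CompactSpace.tendsto_subseq (fun n => c (φ (φ1 (φ2 n))))
  have hD' : Dyn ι (fun n => ((e (φ (φ1 (φ2 (φ3 n)))) : {g : G | _}) : G)) u v :=
    ((hD.comp hφ1).comp hφ2).comp hφ3
  have ha' : Tendsto (fun n => a (φ (φ1 (φ2 (φ3 n))))) atTop (𝓝 a0) :=
    ha.comp ((hφ2.comp hφ3).tendsto_atTop)
  have hb' : Tendsto (fun n => b (φ (φ1 (φ2 (φ3 n))))) atTop (𝓝 b0) :=
    hb.comp hφ3.tendsto_atTop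
  have hc' : Tendsto (fun n => c (φ (φ1 (φ2 (φ3 n))))) atTop (𝓝 c0) := hc
  have hab : ε ≤ dist a0 b0 := ge_of_tendsto' (ha'.dist hb') fun n => h1 _
  have hac : ε ≤ dist a0 c0 := ge_of_tendsto' (ha'.dist hc') fun n => h2 _
  have hbc : ε ≤ dist b0 c0 := ge_of_tendsto' (hb'.dist hc') fun n => h3 _
  -- two of the three limits differ from `v`
  by_cases hav : a0 = v
  · have hbv : b0 ≠ v := by
      rintro rfl
      rw [hav, dist_self] at hab
      linarith
    have hcv : c0 ≠ v := by
      rintro rfl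
      rw [hav, dist_self] at hac
      linarith
    have e1 := (hC.dyn_tendsto hD' hb' hbv).dist (hC.dyn_tendsto hD' hc' hcv)
    have e2 : ε ≤ dist u u := ge_of_tendsto' e1 fun n => h6 _
    rw [dist_self] at e2
    linarith
  · by_cases hbv : b0 = v
    · have hcv : c0 ≠ v := by
        rintro rfl
        rw [hbv, dist_self] at hbc
        linarith
      have e1 := (hC.dyn_tendsto hD' ha' hav).dist (hC.dyn_tendsto hD' hc' hcv)
      have e2 : ε ≤ dist u u := ge_of_tendsto' e1 fun n => h5 _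
      rw [dist_self] at e2
      linarith
    · have e1 := (hC.dyn_tendsto hD' ha' hav).dist (hC.dyn_tendsto hD' hb' hbv)
      have e2 : ε ≤ dist u u := ge_of_tendsto' e1 fun n => h4 _
      rw [dist_self] at e2
      linarith

/-- node D1 -/
theorem nTriple (s : Sys) : NTriple s := by
  intro ε hε
  refine (s.convSpace.triple_finite ε hε).subset ?_
  rintro g ⟨a, -, b, -, c, -, h⟩
  exact ⟨a, b, c, h⟩

/-- node D2 -/
theorem nC1 (s : Sys) : NC1 s := by
  intro η _ τ hτ τ' hτ' hne hne' p p' hp hp' h h'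
  exact s.convSpace.stab_limit_unique hτ hτ' hp hp' h h' hne hne'

/-- node D3 -/
theorem nNullDyn (s : Sys) : NNullDyn s := by
  intro P η hη hP x x' hxx τ hτ τ' hτ' hne hx hx'
  by_contra hinf
  have hinf' : (Set.range fun n => ((x n : s.G) : s.G ⧸ P)).Infinite := hinf
  -- a subsequence with pairwise distinct cosets
  have hex : ∃ φ : ℕ → ℕ, StrictMono φ ∧ Function.Injective fun n => ((x (φ n) : s.G) : s.G ⧸ P) := by
    have key : ∀ (F : Finset (s.G ⧸ P)) (N : ℕ), ∃ n, N < n ∧ ((x n : s.G) : s.G ⧸ P) ∉ F := by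
      intro F N
      by_contra hcon
      push Not at hcon
      apply hinf'
      refine ((F.finite_toSet).union
        ((Set.finite_le_nat N).image fun n => ((x n : s.G) : s.G ⧸ P))).subset ?_
      rintro _ ⟨n, rfl⟩
      by_cases hn : N < n
      · exact Or.inl (by simpa using hcon n hn)
      · exact Or.inr ⟨n, by simpa using hn, rfl⟩
    classical
    -- build the sequence recursively, remembering the finite set of used cosets
    choose nx hnx1 hnx2 using key
    let st : ℕ → ℕ × Finset (s.G ⧸ P) := fun n => Nat.rec (0, {((x 0 : s.G) : s.G ⧸ P)})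
      (fun _ q => (nx q.2 q.1, insert ((x (nx q.2 q.1) : s.G) : s.G ⧸ P) q.2)) n
    have hst : ∀ n, st (n + 1) = (nx (st n).2 (st n).1,
      insert ((x (nx (st n).2 (st n).1) : s.G) : s.G ⧸ P) (st n).2) := fun n => rfl
    have hmono : StrictMono fun n => (st n).1 := by
      apply strictMono_nat_of_lt_succ
      intro n
      show (st n).1 < (st (n + 1)).1
      rw [hst]
      exact hnx1 _ _
    have hmem : ∀ n, ((x (st n).1 : s.G) : s.G ⧸ P) ∈ (st n).2 := by
      intro n
      cases n with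
      | zero => exact Finset.mem_singleton_self _
      | succ n =>
        rw [hst]
        exact Finset.mem_insert_self _ _
    have hsub : ∀ n m, n ≤ m → (st n).2 ⊆ (st m).2 := by
      intro n m hnm
      induction m, hnm using Nat.le_induction with
      | base => exact Finset.Subset.refl _
      | succ m _ ih =>
        refine ih.trans ?_
        rw [hst]
        exact Finset.subset_insert _ _
    have hlt : ∀ n m, n < m → ((x (st m).1 : s.G) : s.G ⧸ P) ≠ ((x (st n).1 : s.G) : s.G ⧸ P) := by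
      intro n m hnm hEq
      obtain ⟨m, rfl⟩ : ∃ l, m = l + 1 := ⟨m - 1, by omega⟩
      have h1 : ((x (st n).1 : s.G) : s.G ⧸ P) ∈ (st m).2 := hsub n m (by omega) (hmem n)
      rw [← hEq] at h1
      have h2 : (st (m + 1)).1 = nx (st m).2 (st m).1 := by rw [hst]
      rw [h2] at h1
      exact hnx2 _ _ h1
    refine ⟨fun n => (st n).1, hmono, ?_⟩
    intro n m hnm
    by_contra hcon
    rcases lt_or_gt_of_ne hcon with h | h
    · exact hlt n m h hnm.symm
    · exact hlt m n h hnm
  obtain ⟨φ, hφ, hinj⟩ := hex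
  have htf : ∀ g : s.G, g ≠ 1 → ∀ n : ℕ, n ≠ 0 → g ^ n ≠ 1 :=
    fun g hg n hn => s.top.tf g hg n (Nat.pos_of_ne_zero hn)
  obtain ⟨n, m, hnm, hmem⟩ := s.convSpace.null_lemma htf (H := P) hη hP hτ hτ' hne
    (x := fun n => x (φ n)) (x' := fun n => x' (φ n))
    (hx.comp hφ.tendsto_atTop) (hx'.comp hφ.tendsto_atTop) (fun n => hxx _)
  have h1 : ((x (φ n) : s.G) : s.G ⧸ P) = ((x (φ m) : s.G) : s.G ⧸ P) := QuotientGroup.eq.2 hmem
  exact absurd (hinj h1) (Nat.ne_of_lt hnm)

end Crest.Agent.R224
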