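import Crest.Agent.R224.DBas
import Crest.Agent.R224.Iface

-- ▼ part R224/NodeOpen
section

set_option autoImplicit false

noncomputable section

open MeasureTheory Set Filter Topology

namespace Crest.Agent.R224

variable {s : Sys}

/-- a clopen subset `U` of `T \ η` containing a point with `f > t > f η` meets the level `t` -/
theorem Clp.exists_level (hC : PConn s) {η : s.Z} {U : Set s.Z} (hU : Clp s.ι η U)
    {f : s.Z → ℝ} (hf : Continuous f) {t : ℝ} (h1 : f η < t) {θ : s.Z} (hθ : θ ∈ U)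
    (h2 : t < f θ) : ∃ σ ∈ U, f σ = t := by
  by_contra hcon
  push Not at hcon
  have hA : RO s.ι (U ∩ {z | t < f z}) := hU.ro.inter_isOpen (isOpen_lt continuous_const hf)
  have hB : T s.ι \ (U ∩ {z | t < f z}) = cmp s.ι η U ∪ ({z | f z < t} ∩ T s.ι) := by
    ext z
    simp only [Set.mem_sdiff, mem_inter_iff, mem_ofPred_eq, mem_union, cmp, not_and, not_lt]
    constructor
    · rintro ⟨hz, h⟩
      by_cases hzU : z ∈ U
      · exact Or.inr ⟨lt_of_le_of_ne (h hzU) (hcon z hzU), hz⟩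
      · by_cases hzη : z = η
        · right
          exact ⟨by rw [hzη]; exact h1, hz⟩
        · exact Or.inl ⟨hz, hzη, hzU⟩
    · rintro (⟨hz, -, hzU⟩ | ⟨hz, hzT⟩)
      · exact ⟨hz, fun h => absurd h hzU⟩
      · exact ⟨hzT, fun _ => hz.le⟩
  refine hC _ hA ?_ ⟨θ, hθ, h2⟩ ⟨η, hU.mem, ?_⟩
  · rw [hB]
    exact hU.ro'.union (RO.of_isOpen (isOpen_lt hf continuous_const))
  · rintro ⟨h3, -⟩
    exact hU.notMem h3

/-- the constant used for balanced vertices in the crossing argument -/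
def cB (s : Sys) : ℝ := min (1 / 2) ((1 - 1 / 2) / s.S.card)

theorem cB_pos (s : Sys) : 0 < cB s := by
  refine lt_min (by norm_num) (div_pos (by norm_num) s.card_pos)

/-- balanced vertices near a boundary point `σ` which is a limit of points of disjoint clopen
sets -/
theorem exists_bal_near (hL : PLim s) {η : s.Z} {V : ℕ → Set s.Z}
    (hV : ∀ n, Clp s.ι η (V n)) (hd : ∀ m n, m ≠ n → Disjoint (V m) (V n))
    {w : ℕ → s.Z} (hw : ∀ n, w n ∈ V n) {φ : ℕ → ℕ} (hφ : StrictMono φ) {σ : s.Z}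
    (hσ : σ ∈ T s.ι) (hlim : Tendsto (fun n => w (φ n)) atTop (𝓝 σ)) {ε : ℝ} (hε : 0 < ε) :
    ∃ n x, x ∈ Bal s.ν (cB s) (V n) ∧ dist (s.ι x) σ < ε := by
  obtain ⟨Y, hY, hYε, δ, hδ, hYδ⟩ := s.bdry.lc σ hσ ε hε
  obtain ⟨y0, hy0⟩ := s.exists_near σ hδ
  have hy0Y := hYδ y0 hy0
  -- at most one `n` has mass `> 1/2` at `y0`
  obtain ⟨N, hN⟩ : ∃ N, ∀ n ≥ N, hh s.ν (V n) y0 ≤ 1 / 2 := by
    by_contra hcon
    push Not at hcon
    obtain ⟨m, -, hm⟩ := hcon 0
    obtain ⟨n, hn, hn'⟩ := hcon (m + 1)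
    have h1 : hh s.ν (V m ∪ V n) y0 = hh s.ν (V m) y0 + hh s.ν (V n) y0 :=
      measureReal_union (hd m n (by omega)) (hV n).meas
    have h2 := s.hh_le_one (V m ∪ V n) y0
    linarith
  obtain ⟨M, hM⟩ := (Metric.tendsto_atTop.1 hlim) (δ / 2) (half_pos hδ)
  set k := max M N
  have hk1 : dist (w (φ k)) σ < δ / 2 := hM k (le_max_left _ _)
  have hk2 : hh s.ν (V (φ k)) y0 ≤ 1 / 2 := hN _ ((le_max_right M N).trans (hφ.id_le k))
  obtain ⟨δ', hδ', h3⟩ := (hL η (V (φ k)) (hV _) (1 / 2) (by norm_num)).1 (w (φ k)) (hw _)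
  obtain ⟨y, hy⟩ := s.exists_near (w (φ k)) (lt_min hδ' (half_pos hδ))
  have hyY : y ∈ Y := by
    apply hYδ
    calc dist (s.ι y) σ ≤ dist (s.ι y) (w (φ k)) + dist (w (φ k)) σ := dist_triangle _ _ _
      _ < δ / 2 + δ / 2 := add_lt_add (hy.trans_le (min_le_right _ _)) hk1
      _ = δ := by ring
  have h4 := h3 y (hy.trans_le (min_le_left _ _))
  obtain ⟨x, hxY, hx⟩ := Sys.crossing (hV (φ k)).meas hY hy0Y hyY (c := 1 / 2)
    (by linarith) (by linarith)
  exact ⟨φ k, x, hx, hYε x hxY⟩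

/-- balanced vertices of clopen sets at `η` converging to `σ` give elements of the stabiliser
converging to `σ` -/
theorem exists_stab (hA : PAlg s) (hLF : NLF s) {η : s.Z} {c : ℝ} (hc : 0 < c)
    {x : ℕ → s.G} (hx : ∀ n, ∃ U, Clp s.ι η U ∧ x n ∈ Bal s.ν c U) {σ : s.Z} (hσ : σ ∈ T s.ι)
    (hlim : Tendsto (fun n => s.ι (x n)) atTop (𝓝 σ)) :
    ∃ p : ℕ → s.G, (∀ n, p n • η = η) ∧ Tendsto (fun n => s.ι (p n)) atTop (𝓝 σ) := by
  have hF := hLF c hc 1
  have hmem : ∀ n, (x n)⁻¹ • η ∈ {η | ∃ U, Clp s.ι η U ∧ (1 : s.G) ∈ Bal s.ν c U} := by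
    intro n
    obtain ⟨U, hU, hb⟩ := hx n
    refine ⟨(fun z => (x n)⁻¹ • z) '' U, (hA η U U hU hU).2.2.2.2 (x n)⁻¹, ?_⟩
    have := s.hh_smul (x n)⁻¹ (x n) hU.meas
    rw [inv_mul_cancel] at this
    show c ≤ _ ∧ _ ≤ 1 - c
    rw [this]
    exact hb
  -- a value taken infinitely often
  obtain ⟨η', hη'⟩ : ∃ η', {n | (x n)⁻¹ • η = η'}.Infinite := by
    by_contra hcon
    push Not at hcon
    have : (univ : Set ℕ).Finite := by
      refine (hF.biUnion fun z _ => (hcon z)).subset ?_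
      intro n _
      simp only [mem_iUnion]
      exact ⟨_, hmem n, rfl⟩
    exact infinite_univ this
  set φ := Nat.nth (fun n => (x n)⁻¹ • η = η')
  have hφ : StrictMono φ := Nat.nth_strictMono hη'
  have hφ' : ∀ n, (x (φ n))⁻¹ • η = η' := fun n => Nat.nth_mem_of_infinite hη' n
  refine ⟨fun n => x (φ n) * (x (φ 0))⁻¹, fun n => ?_, ?_⟩
  · rw [mul_smul, hφ' 0, ← hφ' n, smul_inv_smul]
  · exact s.tendsto_mul_right hσ (hlim.comp hφ.tendsto_atTop) _

/-- stabiliser elements converging to a point of a given level -/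
theorem exists_stab_level (hC : PConn s) (hA : PAlg s) (hL : PLim s) (hLF : NLF s) {η : s.Z}
    {V : ℕ → Set s.Z} (hV : ∀ n, Clp s.ι η (V n)) (hd : ∀ m n, m ≠ n → Disjoint (V m) (V n))
    {w : ℕ → s.Z} (hw : ∀ n, w n ∈ V n) {θ : s.Z} (hlim : Tendsto w atTop (𝓝 θ))
    {f : s.Z → ℝ} (hf : Continuous f) {t : ℝ} (h1 : f η < t) (h2 : t < f θ) :
    ∃ σ ∈ T s.ι, f σ = t ∧ ∃ p : ℕ → s.G, (∀ n, p n • η = η) ∧
      Tendsto (fun n => s.ι (p n)) atTop (𝓝 σ) := by
  have h3 : ∀ᶠ n in atTop, t < f (w n) :=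
    (hf.continuousAt.tendsto.comp hlim).eventually (lt_mem_nhds h2)
  obtain ⟨N, hN⟩ := eventually_atTop.1 h3
  choose u hu hut using fun n : ℕ => (hV (n + N)).exists_level hC hf h1 (hw _)
    (hN (n + N) (Nat.le_add_left _ _))
  obtain ⟨σ, hσ, φ, hφ, hσlim⟩ := s.subseq_of_mem_T u fun n => (hV _).sub (hu n)
  have hft : f σ = t := by
    have := hf.continuousAt.tendsto.comp hσlim
    refine tendsto_nhds_unique this ?_
    have : (f ∘ fun n => u (φ n)) = fun _ => t := by funext n; exact hut _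
    rw [this]
    exact tendsto_const_nhds
  have key : ∀ k : ℕ, ∃ x : s.G, (∃ U, Clp s.ι η U ∧ x ∈ Bal s.ν (cB s) U) ∧
      dist (s.ι x) σ < 1 / ((k : ℝ) + 1) := by
    intro k
    obtain ⟨n, x, hx, hd'⟩ := exists_bal_near hL (V := fun n => V (n + N)) (fun n => hV _)
      (fun m n hmn => hd _ _ (by omega)) (w := u) hu hφ hσ hσlim
      (ε := 1 / ((k : ℝ) + 1)) (by positivity)
    exact ⟨x, ⟨_, hV _, hx⟩, hd'⟩
  choose x hx hxd using key
  have hxlim : Tendsto (fun n => s.ι (x n)) atTop (𝓝 σ) := by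
    rw [tendsto_iff_dist_tendsto_zero]
    exact squeeze_zero (fun _ => dist_nonneg) (fun n => (hxd n).le)
      tendsto_one_div_add_atTop_nhds_zero_nat
  exact ⟨σ, hσ, hft, exists_stab hA hLF (cB_pos s) hx hσ hxlim⟩

/-- **no big teeth** -/
theorem no_big_teeth (hC : PConn s) (hA : PAlg s) (hL : PLim s) (hLF : NLF s) (hN : NC1 s)
    {η : s.Z} {V : ℕ → Set s.Z} (hV : ∀ n, Clp s.ι η (V n))
    (hd : ∀ m n, m ≠ n → Disjoint (V m) (V n)) {w : ℕ → s.Z} (hw : ∀ n, w n ∈ V n) {θ : s.Z}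
    (hlim : Tendsto w atTop (𝓝 θ)) (hθη : θ ≠ η) : False := by
  have hηT := (hV 0).mem
  have hθ : θ ∈ T s.ι := s.isClosed_T.mem_of_tendsto hlim
    (Eventually.of_forall fun n => (hV n).sub (hw n))
  obtain ⟨f, hf, hne⟩ := s.bdry.fsep θ hθ η hηT hθη
  have hfc := s.bdry.fcont f hf
  -- a continuous function with `g η < g θ`
  obtain ⟨g, hg, hgl⟩ : ∃ g : s.Z → ℝ, Continuous g ∧ g η < g θ := by
    rcases lt_or_gt_of_ne hne with h | h
    · exact ⟨fun z => - f z, hfc.neg, by linarith⟩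
    · exact ⟨f, hfc, h⟩
  obtain ⟨σ, hσ, e1, p, hp, hpl⟩ := exists_stab_level hC hA hL hLF hV hd hw hlim hg
    (t := g η + (g θ - g η) / 3) (by linarith) (by linarith)
  obtain ⟨σ', hσ', e2, p', hp', hpl'⟩ := exists_stab_level hC hA hL hLF hV hd hw hlim hg
    (t := g η + 2 * (g θ - g η) / 3) (by linarith) (by linarith)
  have h1 : σ ≠ η := by
    rintro rfl
    linarith
  have h2 : σ' ≠ η := by
    rintro rfl
    linarith
  have := hN η hηT σ hσ σ' hσ' h1 h2 p p' hp hp' hpl hpl'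
  rw [this] at e1
  linarith

/-- the components of `T \ {η}` are open -/
theorem nOpen (s : Sys) (hC : PConn s) (hA : PAlg s) (hL : PLim s) (hLF : NLF s) (hN : NC1 s) :
    NOpen s := by
  intro η hη θ hθ hθη
  have hsubT : Compo s.ι η θ ⊆ T s.ι := fun z hz => hz.1
  refine ⟨hη, fun h => h.2.1 rfl, ?_, ?_⟩
  · by_contra hcon
    rw [ro_iff] at hcon
    push Not at hcon
    obtain ⟨θ0, hθ0, hbad⟩ := hcon hsubT
    have hne : θ0 ≠ η := hθ0.2.1
    have hdpos : 0 < dist θ0 η := dist_pos.2 hne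
    -- one step
    have step : ∀ (n : ℕ) (W : {W : Set s.Z // Clp s.ι η W ∧ θ ∈ W}),
        ∃ W' : {W : Set s.Z // Clp s.ι η W ∧ θ ∈ W}, W'.1 ⊆ W.1 ∧
          ∃ z ∈ W.1 \ W'.1, dist z θ0 < 1 / ((n : ℝ) + 1) := by
      rintro n ⟨W, hW, hθW⟩
      have hθ0W : θ0 ∈ W := hθ0.2.2 W hW hθW
      obtain ⟨δ, hδ, hWδ⟩ := (ro_iff.1 hW.ro).2 θ0 hθ0W
      have hpos : (0 : ℝ) < 1 / ((n : ℝ) + 1) := by positivity
      obtain ⟨z, hzT, hzd, hzQ⟩ := hbad (min (dist θ0 η) (min δ (1 / ((n : ℝ) + 1))))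
        (lt_min hdpos (lt_min hδ hpos))
      have hzη : z ≠ η := by
        rintro rfl
        rw [dist_comm] at hzd
        exact absurd (hzd.trans_le (min_le_left _ _)) (lt_irrefl _)
      have hzW : z ∈ W := hWδ z hzT
        ((hzd.trans_le (min_le_right _ _)).trans_le (min_le_left _ _))
      have : ∃ U, Clp s.ι η U ∧ θ ∈ U ∧ z ∉ U := by
        by_contra hc
        push Not at hc
        exact hzQ ⟨hzT, hzη, hc⟩
      obtain ⟨U, hU, hθU, hzU⟩ := this
      refine ⟨⟨W ∩ U, (hA η W U hW hU).2.1, hθW, hθU⟩, inter_subset_left, z,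
        ⟨hzW, fun h => hzU h.2⟩,
        (hzd.trans_le (min_le_right _ _)).trans_le (min_le_right _ _)⟩
    -- initial set: all of `T \ η`
    have h0 : ∃ W : {W : Set s.Z // Clp s.ι η W ∧ θ ∈ W}, True := by
      have hO : RO s.ι ({η}ᶜ ∩ T s.ι) := RO.of_isOpen isOpen_compl_singleton
      refine ⟨⟨{η}ᶜ ∩ T s.ι, ⟨hη, fun h => h.1 rfl, hO, ?_⟩, hθη, hθ⟩, trivial⟩
      have : cmp s.ι η ({η}ᶜ ∩ T s.ι) = ∅ := by
        ext z
        simp only [cmp, mem_ofPred_eq, mem_inter_iff, mem_compl_iff, mem_singleton_iff,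
          mem_empty_iff_false, iff_false]
        tauto
      rw [this]
      exact ⟨∅, isOpen_empty, empty_inter _⟩
    obtain ⟨W0, -⟩ := h0
    choose nxt hsub z hz hzd using step
    let W : ℕ → {W : Set s.Z // Clp s.ι η W ∧ θ ∈ W} := fun n => Nat.rec W0 (fun n W => nxt n W) n
    have hW : ∀ n, W (n + 1) = nxt n (W n) := fun n => rfl
    have hanti : Antitone fun n => (W n).1 := by
      refine antitone_nat_of_succ_le fun n => ?_
      rw [hW]
      exact hsub n (W n)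
    refine no_big_teeth hC hA hL hLF hN (η := η) (V := fun n => (W n).1 \ (W (n + 1)).1)
      (w := fun n => z n (W n)) (θ := θ0) (fun n => ?_) ?_ (fun n => ?_) ?_ hne
    · exact (hA η _ _ (W n).2.1 (W (n + 1)).2.1).2.2.2.1
    · have aux : ∀ m n, m < n → Disjoint ((W m).1 \ (W (m + 1)).1) ((W n).1 \ (W (n + 1)).1) := by
        intro m n hmn
        rw [Set.disjoint_left]
        rintro y ⟨-, hy⟩ ⟨hy', -⟩
        exact hy (hanti (Nat.succ_le_of_lt hmn) hy')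
      intro m n hmn
      rcases lt_or_gt_of_ne hmn with h | h
      · exact aux m n h
      · exact (aux n m h).symm
    · exact hz n (W n)
    · rw [tendsto_iff_dist_tendsto_zero]
      exact squeeze_zero (fun _ => dist_nonneg) (fun n => (hzd n (W n)).le)
        tendsto_one_div_add_atTop_nhds_zero_nat
  · have : cmp s.ι η (Compo s.ι η θ) = ⋃₀ {V | ∃ U, Clp s.ι η U ∧ θ ∈ U ∧ V = cmp s.ι η U} := by
      ext z
      constructor
      · rintro ⟨hz, hzη, hzQ⟩
        have : ∃ U, Clp s.ι η U ∧ θ ∈ U ∧ z ∉ U := by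
          by_contra hc
          push Not at hc
          exact hzQ ⟨hz, hzη, hc⟩
        obtain ⟨U, hU, hθU, hzU⟩ := this
        exact ⟨_, ⟨U, hU, hθU, rfl⟩, hz, hzη, hzU⟩
      · rintro ⟨_, ⟨U, hU, hθU, rfl⟩, hz, hzη, hzU⟩
        exact ⟨hz, hzη, fun h => hzU (h.2.2 U hU hθU)⟩
    rw [this]
    apply RO.sUnion
    rintro _ ⟨U, hU, -, rfl⟩
    exact hU.ro'

end Crest.Agent.R224
end
end

-- ▼ part R224/NodePart

set_option autoImplicit false
set_option linter.unusedSectionVars false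
set_option linter.style.haveILetI false

noncomputable section

open MeasureTheory Set Filter Topology

namespace Crest.Agent.R224.Part754

/-! ### general facts -/

section gen

variable {G : Type} [Group G] {Z : Type} [MetricSpace Z] [MulAction G Z]

lemma ro_sub {ι : G → Z} {U : Set Z} (h : RO ι U) : U ⊆ T ι := by
  obtain ⟨O, _, rfl⟩ := h; exact inter_subset_right

lemma clp_sub {ι : G → Z} {η : Z} {U : Set Z} (h : Clp ι η U) : U ⊆ T ι := ro_sub h.ro

lemma clp_ne {ι : G → Z} {η : Z} {U : Set Z} (h : Clp ι η U) {z : Z} (hz : z ∈ U) : z ≠ η := by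
  rintro rfl; exact h.notMem hz



lemma ro_of_nhds {ι : G → Z} {U : Set Z} (hU : U ⊆ T ι)
    (h : ∀ z ∈ U, ∃ O : Set Z, IsOpen O ∧ z ∈ O ∧ O ∩ T ι ⊆ U) : RO ι U := by
  choose! O hO hz hs using h
  refine ⟨⋃ z ∈ U, O z, isOpen_biUnion fun z hz => hO z hz, ?_⟩
  ext w
  constructor
  · rintro ⟨hw, hT⟩
    obtain ⟨z, hz', hw⟩ := mem_iUnion₂.1 hw
    exact hs z hz' ⟨hw, hT⟩
  · intro hw
    exact ⟨mem_iUnion₂.2 ⟨w, hw, hz w hw⟩, hU hw⟩

/-- for `U` clopen at `η` the set `U ∪ {η}` is closed -/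
lemma clp_closed {ι : G → Z} {η : Z} {U : Set Z} (hT : IsClosed (T ι)) (h : Clp ι η U) :
    IsClosed (U ∪ {η}) := by
  obtain ⟨O, hO, hOU⟩ := h.ro'
  have : U ∪ {η} = T ι ∩ Oᶜ := by
    ext z
    constructor
    · rintro (hz | hz)
      · refine ⟨clp_sub h hz, fun hzO => ?_⟩
        have : z ∈ cmp ι η U := hOU ▸ ⟨hzO, clp_sub h hz⟩
        exact this.2.2 hz
      · rw [mem_singleton_iff] at hz
        subst hz
        refine ⟨h.mem, fun hzO => ?_⟩
        have : z ∈ cmp ι z U := hOU ▸ ⟨hzO, h.mem⟩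
        exact this.2.1 rfl
    · rintro ⟨hzT, hzO⟩
      by_contra hz
      have hz' : z ∈ cmp ι η U :=
        ⟨hzT, fun hh => hz (Or.inr hh), fun hh => hz (Or.inl hh)⟩
      rw [← hOU] at hz'
      exact hzO hz'.1
  rw [this]
  exact hT.inter hO.isClosed_compl

end gen

section sys

variable (s : Sys)

lemma T_closed : IsClosed (T s.ι) := by
  have : IsOpen (Set.range s.ι) := by
    rw [← iUnion_singleton_eq_range]
    exact isOpen_iUnion fun g => s.bdry.isol g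
  exact this.isClosed_compl

lemma ro_meas {U : Set s.Z} (h : RO s.ι U) : MeasurableSet U := by
  obtain ⟨O, hO, rfl⟩ := h
  exact hO.measurableSet.inter (T_closed s).measurableSet

lemma ro_pos {U : Set s.Z} (h : RO s.ι U) (hne : U.Nonempty) (x : s.G) : 0 < hh s.ν U x := by
  haveI := s.harm.prob x
  obtain ⟨O, hO, rfl⟩ := h
  have h1 := s.harm.full x O hO hne
  have h2 : (s.ν x).real (O ∩ T s.ι) = (s.ν x).real O := by
    have h3 : (s.ν x) (O ∩ T s.ι) = s.ν x O :=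
      measure_inter_conull (s.harm.supp x)
    simp [measureReal_def, h3]
  unfold hh
  rw [h2]; exact h1


lemma hh_add_le {U V : Set s.Z} (hV : MeasurableSet V) (hd : Disjoint U V)
    (x : s.G) : hh s.ν U x + hh s.ν V x ≤ 1 := by
  haveI := s.harm.prob x
  unfold hh
  rw [← measureReal_union hd hV]
  exact measureReal_le_one

lemma hh_mono {U V : Set s.Z} (h : U ⊆ V) (x : s.G) : hh s.ν U x ≤ hh s.ν V x := by
  haveI := s.harm.prob x
  exact measureReal_mono h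

/-- an accumulation property: the boundary is connected, so `η` is in the closure of every
non-empty clopen set at `η` -/
lemma mem_closure_of_clp (hPC : PConn s) {η : s.Z} {U : Set s.Z} (h : Clp s.ι η U)
    (hne : U.Nonempty) : η ∈ closure U := by
  by_contra hcl
  refine hPC U h.ro ?_ hne ⟨η, h.mem, h.notMem⟩
  refine ⟨(closure U)ᶜ ∪ (Classical.choose h.ro'), ?_, ?_⟩
  · exact isClosed_closure.isOpen_compl.union (Classical.choose_spec h.ro').1
  · have h2 := (Classical.choose_spec h.ro').2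
    ext z
    constructor
    · rintro ⟨hz | hz, hzT⟩
      · exact ⟨hzT, fun hzU => hz (subset_closure hzU)⟩
      · have : z ∈ cmp s.ι η U := h2 ▸ ⟨hz, hzT⟩
        exact ⟨hzT, this.2.2⟩
    · rintro ⟨hzT, hzU⟩
      refine ⟨?_, hzT⟩
      by_cases hz : z = η
      · left; rw [hz]; exact hcl
      · right
        have : z ∈ cmp s.ι η U := ⟨hzT, hz, hzU⟩
        rw [← h2] at this
        exact this.1

/-! ### components -/

lemma mem_compo {η θ : s.Z} (hθ : θ ∈ T s.ι) (hne : θ ≠ η) : θ ∈ Compo s.ι η θ :=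
  ⟨hθ, hne, fun _ _ h => h⟩

lemma compo_sub {η θ : s.Z} {U : Set s.Z} (hU : Clp s.ι η U) (h : θ ∈ U) :
    Compo s.ι η θ ⊆ U := fun _ hz => hz.2.2 U hU h

variable {s}

lemma exists_sel {a b : s.Z} (h : Unsep s.ι a b) (η : s.Z) :
    ∃ θ ∈ T s.ι, θ ≠ η ∧ sel s.ι a b η = Compo s.ι η θ := by
  unfold sel
  by_cases hη : η = a
  · subst hη
    exact ⟨b, h.hb, h.ne.symm, by simp⟩
  · exact ⟨a, h.ha, fun hh => hη hh.symm, by simp [hη]⟩

lemma sel_clp {a b : s.Z} (hO : NOpen s) (h : Unsep s.ι a b) {η : s.Z} (hη : η ∈ T s.ι) :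
    Clp s.ι η (sel s.ι a b η) := by
  obtain ⟨θ, h1, h2, h3⟩ := exists_sel h η
  rw [h3]; exact hO η hη θ h1 h2

lemma isCut_mem {η : s.Z} (h : IsCut s.ι η) : η ∈ T s.ι := by
  obtain ⟨U, hU, _⟩ := h; exact hU.mem

lemma dn_clp {a b : s.Z} (hA : PAlg s) (hO : NOpen s) (h : Unsep s.ι a b) {η : s.Z}
    (hη : η ∈ T s.ι) : Clp s.ι η (Dn s.ι a b η) := by
  have := sel_clp hO h hη
  exact (hA η _ _ this this).1

lemma dn_nonempty {a b : s.Z} (hA : PAlg s) (h : Unsep s.ι a b) {η : s.Z}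
    (hη : IsCut s.ι η) : (Dn s.ι a b η).Nonempty := by
  obtain ⟨θ, h1, h2, h3⟩ := exists_sel h η
  obtain ⟨U, hU, hUne, hUc⟩ := hη
  have hUc' := (hA η U U hU hU).1
  unfold Dn
  rw [h3]
  by_cases hθ : θ ∈ U
  · obtain ⟨z, hz⟩ := hUc
    refine ⟨z, hz.1, hz.2.1, fun hzc => hz.2.2 (compo_sub s hU hθ hzc)⟩
  · obtain ⟨z, hz⟩ := hUne
    have hθ' : θ ∈ cmp s.ι η U := ⟨h1, h2, hθ⟩
    refine ⟨z, clp_sub hU hz, clp_ne hU hz, fun hzc => ?_⟩
    exact (compo_sub s hUc' hθ' hzc).2.2 hz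

lemma blk_eq_or {a b : s.Z} {z η : s.Z} (hz : z ∈ Blk s.ι a b) (hη : IsCut s.ι η) :
    z = η ∨ z ∈ sel s.ι a b η := hz.2 η hη

lemma blk_notMem_dn {a b : s.Z} {z η : s.Z} (hz : z ∈ Blk s.ι a b) (hη : IsCut s.ι η) :
    z ∉ Dn s.ι a b η := by
  intro hd
  rcases blk_eq_or hz hη with h | h
  · exact hd.2.1 h
  · exact hd.2.2 h

lemma a_mem_blk {a b : s.Z} (h : Unsep s.ι a b) : a ∈ Blk s.ι a b := by
  refine ⟨h.ha, fun η hη => ?_⟩
  by_cases ha : a = η
  · exact Or.inl ha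
  · right
    unfold sel
    rw [if_neg (fun hh => ha hh.symm)]
    exact mem_compo s h.ha ha

lemma b_mem_blk {a b : s.Z} (h : Unsep s.ι a b) : b ∈ Blk s.ι a b := by
  refine ⟨h.hb, fun η hη => ?_⟩
  by_cases hb : b = η
  · exact Or.inl hb
  · right
    unfold sel
    by_cases ha : η = a
    · rw [if_pos ha]
      exact mem_compo s h.hb h.ne.symm
    · rw [if_neg ha]
      refine ⟨h.hb, hb, fun U hU haU => ?_⟩
      exact (h.uns η hη ha (fun hh => hb hh.symm) U hU).1 haU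

lemma blk_closed {a b : s.Z} (hA : PAlg s) (hO : NOpen s) (h : Unsep s.ι a b) :
    IsClosed (Blk s.ι a b) := by
  have : Blk s.ι a b = T s.ι ∩ ⋂ η ∈ {η | IsCut s.ι η}, (sel s.ι a b η ∪ {η}) := by
    ext z
    simp only [Blk, mem_ofPred_eq, mem_inter_iff, mem_iInter, mem_union, mem_singleton_iff]
    constructor
    · rintro ⟨h1, h2⟩
      exact ⟨h1, fun η hη => (h2 η hη).symm⟩
    · rintro ⟨h1, h2⟩
      exact ⟨h1, fun η hη => (h2 η hη).symm⟩
  rw [this]
  refine (T_closed s).inter (isClosed_biInter fun η hη => ?_)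
  exact clp_closed (T_closed s) (sel_clp hO h (isCut_mem hη))

lemma dn_disj {a b : s.Z} (hH : PHalf s) (hA : PAlg s) (hO : NOpen s) (h : Unsep s.ι a b)
    {η η' : s.Z} (hη : IsCut s.ι η) (hη' : IsCut s.ι η') (hb : η ∈ Blk s.ι a b)
    (hb' : η' ∈ Blk s.ι a b) (hne : η ≠ η') :
    Disjoint (Dn s.ι a b η) (Dn s.ι a b η') := by
  have h1 := dn_clp hA hO h (isCut_mem hη)
  have h2 := dn_clp hA hO h (isCut_mem hη')
  rcases hH η _ η' _ h1 h2 hne (blk_notMem_dn hb' hη) with h3 | h3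
  · exact absurd (h3 (Or.inr rfl)) (blk_notMem_dn hb hη')
  · exact h3.mono_left subset_union_left

/-- if `η₁ ∈ Dn η'` then `Dn η₁ ∪ {η₁} ⊆ Dn η'` -/
lemma dn_nest {a b : s.Z} (hH : PHalf s) (hA : PAlg s) (hO : NOpen s) (h : Unsep s.ι a b)
    {η₁ η' : s.Z} (h₁ : IsCut s.ι η₁) (h' : IsCut s.ι η') (hin : η₁ ∈ Dn s.ι a b η') :
    Dn s.ι a b η₁ ∪ {η₁} ⊆ Dn s.ι a b η' := by
  have hne : η' ≠ η₁ := fun hh => hin.2.1 hh.symm
  have hs' := sel_clp hO h (isCut_mem h')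
  have hs₁ := sel_clp hO h (isCut_mem h₁)
  rcases hH η' _ η₁ _ hs' hs₁ hne hin.2.2 with h3 | h3
  · intro z hz
    rcases hz with hz | hz
    · refine ⟨hz.1, ?_, fun hzs => hz.2.2 (h3 (Or.inl hzs))⟩
      intro hzη
      exact hz.2.2 (h3 (Or.inr hzη))
    · rw [mem_singleton_iff.1 hz]; exact hin
  · exfalso
    rw [Set.disjoint_left] at h3
    have key : ∀ z, z ∈ Blk s.ι a b → z ≠ η₁ → False := by
      intro z hz hz1
      have hz2 : z ∈ sel s.ι a b η' ∪ {η'} := by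
        rcases blk_eq_or hz h' with hh | hh
        · exact Or.inr hh
        · exact Or.inl hh
      have hz3 : z ∈ sel s.ι a b η₁ := (blk_eq_or hz h₁).resolve_left hz1
      exact h3 hz2 hz3
    by_cases ha : a = η₁
    · exact key b (b_mem_blk h) (fun hb => h.ne (ha.trans hb.symm))
    · exact key a (a_mem_blk h) ha

lemma sel_pairs {a b : s.Z} (h : Unsep s.ι a b) {η : s.Z} (hη : IsCut s.ι η) :
    (η, sel s.ι a b η) ∈ s.Pairs := by
  obtain ⟨θ, h1, h2, h3⟩ := exists_sel h η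
  exact ⟨hη, θ, h1, h2, h3⟩

lemma cover {a b : s.Z} (hH : PHalf s) (hA : PAlg s) (hO : NOpen s) (hS : NShrink s)
    (h : Unsep s.ι a b) {z : s.Z} (hz : z ∈ T s.ι) (hzB : z ∉ Blk s.ι a b) :
    ∃ η, IsCut s.ι η ∧ η ∈ Blk s.ι a b ∧ z ∈ Dn s.ι a b η := by
  -- a first cut point
  obtain ⟨η₀, h₀, hz₀⟩ : ∃ η, IsCut s.ι η ∧ z ∈ Dn s.ι a b η := by
    by_contra hcon
    push Not at hcon
    refine hzB ⟨hz, fun η hη => ?_⟩
    by_contra hcc
    push Not at hcc
    exact hcon η hη ⟨hz, hcc.1, hcc.2⟩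
  let Z1 : Set s.Z := {η | IsCut s.ι η ∧ Dn s.ι a b η₀ ⊆ Dn s.ι a b η}
  have hfin : Z1.Finite := by
    set x : s.G := 1
    set c := hh s.ν (Dn s.ι a b η₀) x with hc
    have hd0 := dn_clp hA hO h (isCut_mem h₀)
    have hcpos : 0 < c := ro_pos s hd0.ro (dn_nonempty hA h h₀) x
    have hε : 0 < dist a b := dist_pos.2 h.ne
    have hF := (hS c (dist a b) hcpos hε x).1
    have hsub : Z1 ⊆ (Prod.fst '' {q | q ∈ s.Pairs ∧ hh s.ν q.2 x ≤ 1 - c ∧
        ∃ z ∈ q.2, ∃ z' ∈ q.2, dist a b ≤ dist z z'}) ∪ {a, b} := by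
      rintro η ⟨hη, hsub⟩
      by_cases hab : η = a ∨ η = b
      · right; rcases hab with hh | hh
        · exact Or.inl hh
        · exact Or.inr hh
      · push Not at hab
        left
        refine ⟨(η, sel s.ι a b η), ⟨sel_pairs h hη, ?_, ?_⟩, rfl⟩
        · have h1 : hh s.ν (Dn s.ι a b η₀) x ≤ hh s.ν (Dn s.ι a b η) x := hh_mono s hsub x
          have h2 : Disjoint (sel s.ι a b η) (Dn s.ι a b η) := by
            rw [Set.disjoint_left]; intro w hw hw'; exact hw'.2.2 hw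
          have h3 := hh_add_le s (ro_meas s (dn_clp hA hO h (isCut_mem hη)).ro) h2 x
          show hh s.ν (sel s.ι a b η) x ≤ 1 - c
          linarith
        · refine ⟨a, ?_, b, ?_, le_rfl⟩
          · exact (blk_eq_or (a_mem_blk h) hη).resolve_left (fun hh => hab.1 hh.symm)
          · exact (blk_eq_or (b_mem_blk h) hη).resolve_left (fun hh => hab.2 hh.symm)
    exact ((hF.image _).union ((finite_singleton b).insert a)).subset hsub
  have hne : Z1.Nonempty := ⟨η₀, h₀, Subset.rfl⟩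
  obtain ⟨η₁, ⟨h₁, hsub₁⟩, hmax⟩ :=
    Set.Finite.exists_maximalFor (fun η => Dn s.ι a b η) Z1 hfin hne
  refine ⟨η₁, h₁, ?_, hsub₁ hz₀⟩
  refine ⟨isCut_mem h₁, fun η' h' => ?_⟩
  by_contra hcon
  push Not at hcon
  have hin : η₁ ∈ Dn s.ι a b η' := ⟨isCut_mem h₁, hcon.1, hcon.2⟩
  have hnest := dn_nest hH hA hO h h₁ h' hin
  have hZ : η' ∈ Z1 := ⟨h', hsub₁.trans (subset_union_left.trans hnest)⟩
  have hle := hmax hZ (subset_union_left.trans hnest)
  exact (hle hin).2.1 rfl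

end sys

end Crest.Agent.R224.Part754

namespace Crest.Agent.R224

open Part754

/-- E2 -/
theorem nPart (s : Sys) (hH : PHalf s) (hA : PAlg s) (hO : NOpen s) (hS : NShrink s) :
    NPart s := by
  intro a b h
  refine ⟨a_mem_blk h, b_mem_blk h, blk_closed hA hO h, ?_, ?_, ?_⟩
  · intro η hη _
    refine ⟨dn_clp hA hO h (isCut_mem hη), dn_nonempty hA h hη, ?_⟩
    rw [Set.disjoint_left]
    intro z hz hzB
    exact blk_notMem_dn hzB hη hz
  · intro η η' hη hb hη' hb' hne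
    exact dn_disj hH hA hO h hη hη' hb hb' hne
  · intro z hz
    by_cases hzB : z ∈ Blk s.ι a b
    · exact Or.inl hzB
    · exact Or.inr (cover hH hA hO hS h hz hzB)

/-- E3 -/
theorem nRetr (s : Sys) (hPC : PConn s) (hH : PHalf s) (hA : PAlg s) (hO : NOpen s)
    (hS : NShrink s) : NRetr s := by
  intro a b h O hOo
  have hP := nPart s hH hA hO hS a b h
  obtain ⟨-, -, -, -, hdisj, hcov⟩ := hP
  refine ro_of_nhds ?_ ?_
  · rintro z (hz | ⟨η, _, _, _, hz⟩)
    · exact hz.1.2.1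
    · exact hz.1
  · rintro z (hz | ⟨η, hη, hηO, hηB, hz⟩)
    · -- `z ∈ O ∩ Blk`
      obtain ⟨⟨hzO, hzB⟩, -⟩ := hz
      obtain ⟨ε, hε, hball⟩ := Metric.isOpen_iff.1 hOo z hzO
      set x : s.G := 1
      have hF := (hS (1 / 2) (ε / 4) (by norm_num) (by linarith) x).2
      -- the set of bad cut points
      let W : Set s.Z := {η | IsCut s.ι η ∧ η ∈ Blk s.ι a b ∧ η ∉ O ∧
        ∃ w ∈ Dn s.ι a b η, dist w z < ε / 4}
      have hbig : {η : s.Z | IsCut s.ι η ∧ η ∈ Blk s.ι a b ∧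
          1 / 2 < hh s.ν (Dn s.ι a b η) x}.Subsingleton := by
        rintro η ⟨h1, h2, h3⟩ η' ⟨h1', h2', h3'⟩
        by_contra hne
        have := hh_add_le s (ro_meas s (dn_clp hA hO h (isCut_mem h1')).ro)
          (hdisj η η' h1 h2 h1' h2' hne) x
        linarith
      have hWfin : W.Finite := by
        refine ((hF.image Prod.fst).union hbig.finite).subset ?_
        rintro η ⟨h1, h2, h3, w, hw, hwz⟩
        by_cases hm : 1 / 2 < hh s.ν (Dn s.ι a b η) x
        · exact Or.inr ⟨h1, h2, hm⟩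
        · left
          refine ⟨(η, sel s.ι a b η), ⟨sel_pairs h h1, ?_, ?_⟩, rfl⟩
          · show hh s.ν (Dn s.ι a b η) x ≤ 1 - 1 / 2
            push Not at hm; linarith
          · have hcl := mem_closure_of_clp s hPC (dn_clp hA hO h (isCut_mem h1))
              (dn_nonempty hA h h1)
            obtain ⟨w', hw', hw'η⟩ := Metric.mem_closure_iff.1 hcl (ε / 4) (by linarith)
            refine ⟨w, hw, w', hw', ?_⟩
            have hzη : ε ≤ dist z η := by
              by_contra hlt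
              push Not at hlt
              exact h3 (hball (by rw [Metric.mem_ball, dist_comm]; exact hlt))
            have t1 := dist_triangle z w η
            have t2 := dist_triangle w w' η
            rw [dist_comm z w] at t1
            rw [dist_comm η w'] at hw'η
            linarith
      refine ⟨Metric.ball z (ε / 4) ∩ ⋂ η ∈ W, (Dn s.ι a b η ∪ {η})ᶜ, ?_, ?_, ?_⟩
      · refine Metric.isOpen_ball.inter (hWfin.isOpen_biInter fun η hη => ?_)
        exact (clp_closed (T_closed s) (dn_clp hA hO h (isCut_mem hη.1))).isOpen_compl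
      · refine ⟨Metric.mem_ball_self (by linarith), mem_iInter₂.2 fun η hη => ?_⟩
        rintro (hd | hd)
        · exact blk_notMem_dn hzB hη.1 hd
        · rw [mem_singleton_iff] at hd
          exact hη.2.2.1 (hd ▸ hzO)
      · rintro w ⟨⟨hw1, hw2⟩, hwT⟩
        have hw1' : dist w z < ε / 4 := hw1
        rcases hcov w hwT with hwB | ⟨η, hη, hηB, hwD⟩
        · refine Or.inl ⟨⟨hball ?_, hwB⟩, hwB⟩
          rw [Metric.mem_ball]; linarith
        · refine Or.inr ⟨η, hη, ⟨?_, hηB⟩, hηB, hwD⟩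
          by_contra hηO
          exact (mem_iInter₂.1 hw2 η ⟨hη, hηB, hηO, w, hwD, hw1'⟩) (Or.inl hwD)
    · obtain ⟨O', hO', hOD⟩ := (dn_clp hA hO h (isCut_mem hη)).ro
      refine ⟨O', hO', ?_, ?_⟩
      · rw [← hOD] at hz; exact hz.1
      · intro w hw
        rw [hOD] at hw
        exact Or.inr ⟨η, hη, hηO, hηB, hw⟩

/-- E4 -/
theorem nBlkConn (s : Sys) (hPC : PConn s) (hH : PHalf s) (hA : PAlg s) (hO : NOpen s)
    (hS : NShrink s) : NBlkConn s := by
  intro a b h O O' hOo hOo' hsub hne hne'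
  obtain ⟨-, -, -, hDn, hdisj, hcov⟩ := nPart s hH hA hO hS a b h
  by_contra hcon
  have hr := nRetr s hPC hH hA hO hS a b h O hOo
  have hr' := nRetr s hPC hH hA hO hS a b h O' hOo'
  have heq : T s.ι \ sat s.ι a b (O ∩ Blk s.ι a b) = sat s.ι a b (O' ∩ Blk s.ι a b) := by
    ext z
    constructor
    · rintro ⟨hzT, hz⟩
      rcases hcov z hzT with hzB | ⟨η, hη, hηB, hzD⟩
      · rcases hsub hzB with hzO | hzO
        · exact absurd (Or.inl ⟨⟨hzO, hzB⟩, hzB⟩) hz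
        · exact Or.inl ⟨⟨hzO, hzB⟩, hzB⟩
      · rcases hsub hηB with hzO | hzO
        · exact absurd (Or.inr ⟨η, hη, ⟨hzO, hηB⟩, hηB, hzD⟩) hz
        · exact Or.inr ⟨η, hη, ⟨hzO, hηB⟩, hηB, hzD⟩
    · intro hz
      refine ⟨ro_sub hr' hz, fun hz' => ?_⟩
      rcases hz with hz | ⟨η, hη, hηA, hηB, hzD⟩
      · rcases hz' with hz' | ⟨η, hη, hηA, hηB, hzD⟩
        · exact hcon ⟨z, ⟨hz'.1.1, hz.1.1⟩, hz.2⟩
        · exact blk_notMem_dn hz.2 hη hzD
      · rcases hz' with hz' | ⟨η', hη', hηA', hηB', hzD'⟩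
        · exact blk_notMem_dn hz'.2 hη hzD
        · by_cases he : η = η'
          · subst he
            exact hcon ⟨η, ⟨hηA'.1, hηA.1⟩, hηB⟩
          · exact Set.disjoint_left.1 (hdisj η η' hη hηB hη' hηB' he) hzD hzD'
  refine hPC _ hr (heq ▸ hr') ?_ (heq ▸ ?_)
  · obtain ⟨z, hz⟩ := hne
    exact ⟨z, Or.inl ⟨hz, hz.2⟩⟩
  · obtain ⟨z, hz⟩ := hne'
    exact ⟨z, Or.inl ⟨hz, hz.2⟩⟩

end Crest.Agent.R224
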