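import Crest.Agent.R224.Limit
import Crest.Agent.R224.FinalBase
import Crest.Agent.R224.DBas
import Crest.Agent.R224.NodePart_Mg
import Crest.Agent.R224.NodeDyn
import Crest.Agent.R224.Iface
import Crest.Agent.R224.FinC
import Crest.Agent.R224.Block
import Crest.Agent.R224.BDefs

-- ▼ part R224/LimitNode
section

set_option autoImplicit false

noncomputable section

open MeasureTheory Set Filter Topology

namespace Crest.Agent.R224

theorem limitLemma (s : Sys) (hP : NPart s) (hS : NSide s) : LimitLemma s := by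
  intro a b hu c3 δ hδ hsmall h3 K U V hp k hk l hKk hwb
  obtain ⟨h1, h2, h4⟩ := limit_lemma s hP hS hu hδ hsmall h3 K U V
    (fun n => ⟨(hp n).cl, (hp n).sub, (hp n).nocut, (hp n).null⟩) (fun n => (hp n).roU)
    (fun n => (hp n).roV) (fun n => (hp n).dis) (fun n => (hp n).un) k hk l hKk hwb
  refine ⟨h1, h2, fun θ hθ hθk => ?_⟩
  obtain ⟨r, hr, h | h⟩ := h4 θ hθ hθk
  · exact ⟨r, hr, Or.inl (h.mono fun n hn z hz hzr _ => hn z hz hzr)⟩
  · exact ⟨r, hr, Or.inr (h.mono fun n hn z hz hzr _ => hn z hz hzr)⟩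

end Crest.Agent.R224
end
end

-- ▼ part R224/NodeLev0
section

set_option autoImplicit false

noncomputable section

open MeasureTheory Set Filter Topology

namespace Crest.Agent.R224

theorem pNullLev (s : Sys) : PNullLev s := by
  intro f hf
  have hm : Measurable f := (s.bdry.fcont f hf).measurable
  have : Countable s.G := s.countable_G
  rw [ae_all_iff]
  intro x
  have hc := Measure.countable_meas_level_set_pos (μ := s.ν x) hm
  filter_upwards [hc.ae_notMem volume] with t ht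
  simpa using ht

end Crest.Agent.R224
end
end

-- ▼ part R224/NodeShrink
section

set_option autoImplicit false

noncomputable section

open MeasureTheory Set Filter Topology

namespace Crest.Agent.R224.Shr754

variable {s : Sys}

lemma bal_mono {c c' : ℝ} (h : c' ≤ c) (U : Set s.Z) : Bal s.ν c U ⊆ Bal s.ν c' U := by
  rintro x ⟨h1, h2⟩
  exact ⟨h.trans h1, h2.trans (by linarith)⟩

lemma bal_cmp {c : ℝ} {η : s.Z} {U : Set s.Z} (hU : Clp s.ι η U) {x : s.G}
    (hx : x ∈ Bal s.ν c (cmp s.ι η U)) : x ∈ Bal s.ν c U := by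
  have := hU.hh_add x
  obtain ⟨h1, h2⟩ := hx
  exact ⟨by linarith, by linarith⟩

/-- levels different from the level of the cut point are attained -/
lemma level (hC : PConn s) {η : s.Z} {U : Set s.Z} (hU : Clp s.ι η U)
    {f : s.Z → ℝ} (hf : Continuous f) {t : ℝ} (ht : f η ≠ t) {z z' : s.Z} (hz : z ∈ U)
    (hz' : z' ∈ U) (h1 : f z < t) (h2 : t < f z') : ∃ σ ∈ U, f σ = t := by
  rcases lt_or_gt_of_ne ht with h | h
  · exact hU.exists_level hC hf h hz' h2
  · obtain ⟨σ, hσ, hσt⟩ := hU.exists_level hC (f := fun w => - f w) hf.neg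
      (t := -t) (by simpa using h) hz (by simpa using h1)
    exact ⟨σ, hσ, by simpa using hσt⟩

/-- balanced vertices near a limit of points of clopen sets of mass `≤ 1 - c` at `x` -/
lemma bal_near (hL : PLim s) {η : ℕ → s.Z} {U : ℕ → Set s.Z}
    (hU : ∀ n, Clp s.ι (η n) (U n)) {c : ℝ} (hc : 0 < c) {x : s.G}
    (hm : ∀ n, hh s.ν (U n) x ≤ 1 - c) {w : ℕ → s.Z} (hw : ∀ n, w n ∈ U n) {σ : s.Z}
    (hσ : σ ∈ T s.ι) (hlim : Tendsto w atTop (𝓝 σ)) {r : ℝ} (hr : 0 < r) :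
    ∃ c' : ℝ, 0 < c' ∧ ∀ᶠ n in atTop, ∃ y ∈ Bal s.ν c' (U n), dist (s.ι y) σ < r := by
  obtain ⟨Y, hY, hYr, δ, hδ, hYδ⟩ := s.bdry.lc σ hσ r hr
  obtain ⟨y0, hy0⟩ := s.exists_near σ hδ
  have hy0Y := hYδ y0 hy0
  obtain ⟨C, hC1, hC⟩ := s.harnack_path y0 x
  have hCpos : 0 < C := by linarith
  set c1 : ℝ := min (c / C) (1 / 2) with hc1
  have hc1pos : 0 < c1 := lt_min (div_pos hc hCpos) (by norm_num)
  have hc1lt : c1 < 1 := (min_le_right _ _).trans_lt (by norm_num)
  have hc1le : c1 ≤ c / C := min_le_left _ _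
  have hmass : ∀ n, hh s.ν (U n) y0 ≤ 1 - c1 := by
    intro n
    have h1 := (hU n).hh_add x
    have h2 := (hU n).hh_add y0
    have h3 := hC (cmp s.ι (η n) (U n)) (hU n).ro'.meas
    have h4 : c ≤ C * hh s.ν (cmp s.ι (η n) (U n)) y0 := by
      have := hm n; linarith
    have h5 : c / C ≤ hh s.ν (cmp s.ι (η n) (U n)) y0 := by
      rw [div_le_iff₀ hCpos, mul_comm]; exact h4
    linarith
  refine ⟨min c1 ((1 - c1) / s.S.card), lt_min hc1pos (div_pos (by linarith) s.card_pos), ?_⟩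
  have hev : ∀ᶠ n in atTop, dist (w n) σ < δ / 2 :=
    (Metric.tendsto_nhds.1 hlim) (δ / 2) (half_pos hδ)
  filter_upwards [hev] with n hn
  obtain ⟨ρ, hρ, hρ'⟩ := (hL (η n) (U n) (hU n) c1 hc1pos).1 (w n) (hw n)
  obtain ⟨y, hy⟩ := s.exists_near (w n) (lt_min hρ (half_pos hδ))
  have hy1 := hρ' y (hy.trans_le (min_le_left _ _))
  have hyY : y ∈ Y := by
    refine hYδ y ?_
    calc dist (s.ι y) σ ≤ dist (s.ι y) (w n) + dist (w n) σ := dist_triangle _ _ _
      _ < δ / 2 + δ / 2 := by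
          have := hy.trans_le (min_le_right _ _)
          linarith
      _ = δ := by ring
  obtain ⟨y', hy'Y, hy'B⟩ := s.crossing (hU n).meas hY hy0Y hyY (hmass n) hy1
  exact ⟨y', hy'B, hYr y' hy'Y⟩

lemma aux (hC : PConn s) (hL : PLim s) {η : ℕ → s.Z} {U : ℕ → Set s.Z}
    (hU : ∀ n, Clp s.ι (η n) (U n)) {c ε : ℝ} (hc : 0 < c) (hε : 0 < ε) {x : s.G}
    (hm : ∀ n, hh s.ν (U n) x ≤ 1 - c)
    (hz : ∀ n, ∃ z ∈ U n, ∃ z' ∈ U n, ε ≤ dist z z') :
    ∃ c' : ℝ, 0 < c' ∧ ∃ ε' : ℝ, 0 < ε' ∧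
      {n | ∃ y ∈ Bal s.ν c' (U n), ∃ y' ∈ Bal s.ν c' (U n),
        ε' ≤ dist (s.ι y) (s.ι y')}.Infinite := by
  choose z hz z' hz' hd using hz
  -- first subsequence
  obtain ⟨a, ha, φ1, hφ1, hl1⟩ := s.subseq_of_mem_T z (fun n => (hU n).sub (hz n))
  obtain ⟨b, hb, φ2, hφ2, hl2⟩ := s.subseq_of_mem_T (fun n => z' (φ1 n))
    (fun n => (hU _).sub (hz' _))
  obtain ⟨e, he, φ3, hφ3, hl3⟩ := s.subseq_of_mem_T (fun n => η (φ1 (φ2 n)))
    (fun n => (hU _).mem)
  set ψ : ℕ → ℕ := fun n => φ1 (φ2 (φ3 n)) with hψ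
  have hψm : StrictMono ψ := hφ1.comp (hφ2.comp hφ3)
  have k1 : Tendsto (fun n => z (ψ n)) atTop (𝓝 a) :=
    hl1.comp (hφ2.comp hφ3).tendsto_atTop
  have k2 : Tendsto (fun n => z' (ψ n)) atTop (𝓝 b) := hl2.comp hφ3.tendsto_atTop
  have k3 : Tendsto (fun n => η (ψ n)) atTop (𝓝 e) := hl3
  have hab : a ≠ b := by
    have h1 : Tendsto (fun n => dist (z (ψ n)) (z' (ψ n))) atTop (𝓝 (dist a b)) := k1.dist k2
    have h2 : ε ≤ dist a b := ge_of_tendsto' h1 (fun n => hd (ψ n))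
    exact dist_pos.1 (hε.trans_le h2)
  -- a function separating a, b
  obtain ⟨f0, hf0, hf0ab⟩ := s.bdry.fsep a ha b hb hab
  obtain ⟨f, hf, hfab⟩ : ∃ f : s.Z → ℝ, Continuous f ∧ f a < f b := by
    rcases lt_or_gt_of_ne hf0ab with h | h
    · exact ⟨f0, s.bdry.fcont f0 hf0, h⟩
    · exact ⟨fun w => - f0 w, (s.bdry.fcont f0 hf0).neg, by simpa using h⟩
  -- two levels different from `f e`
  obtain ⟨t, t', ht1, htt', ht2, hte, hte'⟩ :
      ∃ t t' : ℝ, f a < t ∧ t < t' ∧ t' < f b ∧ f e ≠ t ∧ f e ≠ t' := by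
    set d := (f b - f a) / 4 with hd'
    have hdpos : 0 < d := by rw [hd']; linarith
    by_cases h1 : f e = f a + d
    · exact ⟨f a + 2 * d, f a + 3 * d, by linarith, by linarith, by linarith,
        by rw [h1]; intro h; linarith, by rw [h1]; intro h; linarith⟩
    · by_cases h2 : f e = f a + 2 * d
      · exact ⟨f a + d, f a + 3 * d, by linarith, by linarith, by linarith, h1,
          by rw [h2]; intro h; linarith⟩
      · exact ⟨f a + d, f a + 2 * d, by linarith, by linarith, by linarith, h1, h2⟩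
  have e1 : ∀ᶠ n in atTop, f (z (ψ n)) < t :=
    ((hf.tendsto a).comp k1).eventually (gt_mem_nhds ht1)
  have e2 : ∀ᶠ n in atTop, t' < f (z' (ψ n)) :=
    ((hf.tendsto b).comp k2).eventually (lt_mem_nhds ht2)
  have e3 : ∀ᶠ n in atTop, f (η (ψ n)) ≠ t :=
    ((hf.tendsto e).comp k3).eventually (isOpen_ne.mem_nhds hte)
  have e4 : ∀ᶠ n in atTop, f (η (ψ n)) ≠ t' :=
    ((hf.tendsto e).comp k3).eventually (isOpen_ne.mem_nhds hte')
  obtain ⟨N, hN⟩ := eventually_atTop.1 (e1.and (e2.and (e3.and e4)))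
  have hlev : ∀ n, ∃ σ ∈ U (ψ (n + N)), f σ = t := fun n => by
    obtain ⟨h1, h2, h3, h4⟩ := hN (n + N) (Nat.le_add_left _ _)
    exact level hC (hU _) hf h3 (hz _) (hz' _) h1 (htt'.trans h2)
  have hlev' : ∀ n, ∃ σ ∈ U (ψ (n + N)), f σ = t' := fun n => by
    obtain ⟨h1, h2, h3, h4⟩ := hN (n + N) (Nat.le_add_left _ _)
    exact level hC (hU _) hf h4 (hz _) (hz' _) (h1.trans htt') h2
  choose σ hσ hσt using hlev
  choose σ' hσ' hσt' using hlev'
  obtain ⟨p, hp, χ1, hχ1, hm1⟩ := s.subseq_of_mem_T σ (fun n => (hU _).sub (hσ n))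
  obtain ⟨p', hp', χ2, hχ2, hm2⟩ := s.subseq_of_mem_T (fun n => σ' (χ1 n))
    (fun n => (hU _).sub (hσ' _))
  set χ : ℕ → ℕ := fun n => χ1 (χ2 n) with hχ
  have hχm : StrictMono χ := hχ1.comp hχ2
  have m1 : Tendsto (fun n => σ (χ n)) atTop (𝓝 p) := hm1.comp hχ2.tendsto_atTop
  have m2 : Tendsto (fun n => σ' (χ n)) atTop (𝓝 p') := hm2
  have hfp : f p = t := by
    have h1 : Tendsto (fun n => f (σ (χ n))) atTop (𝓝 (f p)) := (hf.tendsto p).comp m1
    exact tendsto_nhds_unique h1 (by simp only [hσt]; exact tendsto_const_nhds)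
  have hfp' : f p' = t' := by
    have h1 : Tendsto (fun n => f (σ' (χ n))) atTop (𝓝 (f p')) := (hf.tendsto p').comp m2
    exact tendsto_nhds_unique h1 (by simp only [hσt']; exact tendsto_const_nhds)
  have hpp' : p ≠ p' := by
    rintro rfl
    exact htt'.ne (hfp.symm.trans hfp')
  have hdpos : 0 < dist p p' := dist_pos.2 hpp'
  have hr : 0 < dist p p' / 4 := by linarith
  obtain ⟨c1, hc1, hb1⟩ := bal_near hL (η := fun n => η (ψ (χ n + N)))
    (U := fun n => U (ψ (χ n + N))) (fun n => hU _) hc (fun n => hm _) (fun n => hσ (χ n))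
    hp m1 hr
  obtain ⟨c2, hc2, hb2⟩ := bal_near hL (η := fun n => η (ψ (χ n + N)))
    (U := fun n => U (ψ (χ n + N))) (fun n => hU _) hc (fun n => hm _) (fun n => hσ' (χ n))
    hp' m2 hr
  refine ⟨min c1 c2, lt_min hc1 hc2, dist p p' / 2, by linarith, ?_⟩
  obtain ⟨N', hN'⟩ := eventually_atTop.1 (hb1.and hb2)
  have hinj : StrictMono (fun n => ψ (χ (n + N') + N)) := by
    intro m n hmn
    exact hψm (by
      have := hχm (show m + N' < n + N' by omega)
      omega)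
  refine (Set.infinite_range_of_injective hinj.injective).mono ?_
  rintro _ ⟨n, rfl⟩
  obtain ⟨⟨y, hy, hyp⟩, ⟨y', hy', hyp'⟩⟩ := hN' (n + N') (Nat.le_add_left _ _)
  refine ⟨y, bal_mono (min_le_left _ _) _ hy, y', bal_mono (min_le_right _ _) _ hy', ?_⟩
  have t1 := dist_triangle p (s.ι y) p'
  have t2 := dist_triangle (s.ι y) (s.ι y') p'
  rw [dist_comm p (s.ι y)] at t1
  linarith

end Crest.Agent.R224.Shr754

namespace Crest.Agent.R224

open Shr754 Part754

/-- D6 -/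
theorem nShrink (s : Sys) (hC : PConn s) (hA : PAlg s) (hL : PLim s) (hO : NOpen s)
    (hN : NNull s) : NShrink s := by
  have hclp : ∀ q ∈ s.Pairs, Clp s.ι q.1 q.2 := by
    rintro ⟨η, C⟩ ⟨h1, θ, h2, h3, h4⟩
    simp only at h1 h3 h4
    show Clp s.ι η C
    rw [h4]
    exact hO η (isCut_mem h1) θ h2 h3
  intro c ε hc hε x
  constructor
  · by_contra hinf
    have hinf' : {q | q ∈ s.Pairs ∧ hh s.ν q.2 x ≤ 1 - c ∧
        ∃ z ∈ q.2, ∃ z' ∈ q.2, ε ≤ dist z z'}.Infinite := hinf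
    set q := hinf'.natEmbedding with hq
    have hmem : ∀ n, (q n : s.Z × Set s.Z) ∈ s.Pairs := fun n => (q n).2.1
    obtain ⟨c', hc', ε', hε', h⟩ := aux hC hL (η := fun n => (q n).1.1)
      (U := fun n => (q n).1.2) (fun n => hclp _ (hmem n)) hc hε (x := x)
      (fun n => (q n).2.2.1) (fun n => (q n).2.2.2)
    refine ((h.image (f := fun n => ((q n : s.Z × Set s.Z))) ?_).mono ?_) (hN c' ε' hc' hε')
    · intro m _ n _ hmn
      exact q.injective (Subtype.ext hmn)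
    · rintro _ ⟨n, hn, rfl⟩
      exact ⟨hmem n, hn⟩
  · by_contra hinf
    have hinf' : {q | q ∈ s.Pairs ∧ hh s.ν (cmp s.ι q.1 q.2) x ≤ 1 - c ∧
        ∃ z ∈ cmp s.ι q.1 q.2, ∃ z' ∈ cmp s.ι q.1 q.2, ε ≤ dist z z'}.Infinite := hinf
    set q := hinf'.natEmbedding with hq
    have hmem : ∀ n, (q n : s.Z × Set s.Z) ∈ s.Pairs := fun n => (q n).2.1
    obtain ⟨c', hc', ε', hε', h⟩ := aux hC hL (η := fun n => (q n).1.1)
      (U := fun n => cmp s.ι (q n).1.1 (q n).1.2)
      (fun n => (hA _ _ _ (hclp _ (hmem n)) (hclp _ (hmem n))).1) hc hε (x := x)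
      (fun n => (q n).2.2.1) (fun n => (q n).2.2.2)
    refine ((h.image (f := fun n => ((q n : s.Z × Set s.Z))) ?_).mono ?_) (hN c' ε' hc' hε')
    · intro m _ n _ hmn
      exact q.injective (Subtype.ext hmn)
    · rintro _ ⟨n, ⟨y, hy, y', hy', hd⟩, rfl⟩
      exact ⟨hmem n, y, bal_cmp (hclp _ (hmem n)) hy, y', bal_cmp (hclp _ (hmem n)) hy', hd⟩

end Crest.Agent.R224
end
end

-- ▼ part R224/Order
section

/-!
Row 224, group half: the multi-scale order lemma (node `NOrder`).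

`OM G d`: `d` is (the restriction to the group of) the metric of the compactification.
`Good d R κ`: the transitive closure of the relation `R` is acyclic and `x ⇒ y` implies that `y`
seen from `x` is at distance at least `κ` from the origin seen from `x`.
-/

set_option autoImplicit false

noncomputable section

open Set Filter Topology

namespace Crest.Agent.R224

structure OM {G : Type*} [Group G] (d : G → G → ℝ) : Prop where
  comm : ∀ x y, d x y = d y x
  tri : ∀ x y z, d x z ≤ d x y + d y z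
  cp : ∀ δ : ℝ, 0 < δ → ∃ C : Finset G, ∀ w, w ∉ C → ∀ v, d v w ≤ δ ∨ d (w⁻¹ * v) w⁻¹ ≤ δ
  uc : ∀ K : Finset G, ∀ δ : ℝ, 0 < δ → ∃ δ' : ℝ, 0 < δ' ∧ ∀ u ∈ K, ∀ v v',
    d v v' ≤ δ' → d (u * v) (u * v') ≤ δ
  rm : ∀ K : Finset G, ∀ δ : ℝ, 0 < δ → ∃ C : Finset G, ∀ w, w ∉ C → ∀ u ∈ K, d (w * u) w ≤ δ

/-- scale relation -/
def SRel {G : Type*} [Group G] (d : G → G → ℝ) (ε : ℝ) (L : Finset G) (x z : G) : Prop :=
  x⁻¹ * z ∉ L ∧ ε ≤ d x⁻¹ (x⁻¹ * z)

structure Good {G : Type*} [Group G] (d : G → G → ℝ) (R : G → G → Prop) (κ : ℝ) : Prop where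
  pos : 0 < κ
  far : ∀ x y, Relation.TransGen R x y → κ ≤ d x⁻¹ (x⁻¹ * y)
  acyc : ∀ x, ¬ Relation.TransGen R x x

/-- macro step -/
def MRel {G : Type*} (R S : G → G → Prop) (x y : G) : Prop :=
  ∃ x1 z, (x = x1 ∨ Relation.TransGen R x x1) ∧ S x1 z ∧ (z = y ∨ Relation.TransGen R z y)

theorem MRel.extend {G : Type*} {R S : G → G → Prop} {x y z : G} (h : MRel R S x y) (h' : R y z) :
    MRel R S x z := by
  obtain ⟨x1, w, h1, h2, h3⟩ := h
  refine ⟨x1, w, h1, h2, Or.inr ?_⟩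
  rcases h3 with rfl | h3
  · exact Relation.TransGen.single h'
  · exact h3.tail h'

theorem transGen_MRel_extend {G : Type*} {R S : G → G → Prop} {x y z : G}
    (h : Relation.TransGen (MRel R S) x y) (h' : R y z) : Relation.TransGen (MRel R S) x z := by
  cases h with
  | single h => exact Relation.TransGen.single (h.extend h')
  | tail h h1 => exact h.tail (h1.extend h')

theorem transGen_or {G : Type*} {R S : G → G → Prop} {x y : G}
    (h : Relation.TransGen (fun a b => R a b ∨ S a b) x y) :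
    Relation.TransGen R x y ∨ Relation.TransGen (MRel R S) x y := by
  induction h with
  | single h =>
    rcases h with h | h
    · exact Or.inl (Relation.TransGen.single h)
    · exact Or.inr (Relation.TransGen.single ⟨_, _, Or.inl rfl, h, Or.inl rfl⟩)
  | tail _ h1 ih =>
    rcases ih with ih | ih
    · rcases h1 with h1 | h1
      · exact Or.inl (ih.tail h1)
      · exact Or.inr (Relation.TransGen.single ⟨_, _, Or.inr ih, h1, Or.inl rfl⟩)
    · rcases h1 with h1 | h1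
      · exact Or.inr (transGen_MRel_extend ih h1)
      · exact Or.inr (ih.tail ⟨_, _, Or.inl rfl, h1, Or.inl rfl⟩)

/-- chains of relations with large displacement. -/
theorem chain_bounds {G : Type*} [Group G] {d : G → G → ℝ} (hd : OM d) {M : G → G → Prop}
    {κ θ : ℝ} (hθ : 0 < θ) (hκ : 8 * θ ≤ κ) (C : Finset G)
    (hC : ∀ w, w ∉ C → ∀ v, d v w ≤ θ ∨ d (w⁻¹ * v) w⁻¹ ≤ θ)
    (ha : ∀ x y, M x y → κ ≤ d x⁻¹ (x⁻¹ * y)) (hb : ∀ x y, M x y → d y⁻¹ (y⁻¹ * x) ≤ θ)
    (hc : ∀ x y, M x y → x⁻¹ * y ∉ C) :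
    ∀ x y, Relation.TransGen M x y →
      κ - θ ≤ d x⁻¹ (x⁻¹ * y) ∧ d y⁻¹ (y⁻¹ * x) ≤ 2 * θ := by
  have e1 : ∀ x y : G, (x⁻¹ * y)⁻¹ = y⁻¹ * x := fun x y => by group
  have e2 : ∀ x y z : G, (x⁻¹ * y)⁻¹ * (x⁻¹ * z) = y⁻¹ * z := fun x y z => by group
  intro x y h
  constructor
  · induction h using Relation.TransGen.head_induction_on with
    | single h => linarith [ha _ _ h]
    | @head a c h h' ih =>
      rcases hC _ (hc _ _ h) (a⁻¹ * y) with h1 | h1
      · have h2 := ha _ _ h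
        have h3 := hd.tri a⁻¹ (a⁻¹ * y) (a⁻¹ * c)
        linarith
      · rw [e2, e1] at h1
        have h2 := hb _ _ h
        have h3 := hd.tri c⁻¹ (c⁻¹ * a) (c⁻¹ * y)
        rw [hd.comm (c⁻¹ * a)] at h3
        linarith
  · induction h with
    | single h => linarith [hb _ _ h]
    | @tail b c h h' ih =>
      have h2 := hb _ _ h'
      rcases hC _ (hc _ _ h') (b⁻¹ * x) with h1 | h1
      · have h4 := ha _ _ h'
        have h3 := hd.tri b⁻¹ (b⁻¹ * x) (b⁻¹ * c)
        linarith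
      · rw [e2, e1] at h1
        have h3 := hd.tri c⁻¹ (c⁻¹ * b) (c⁻¹ * x)
        rw [hd.comm (c⁻¹ * b)] at h3
        linarith

/-- the induction step of the order lemma. -/
theorem OM.step {G : Type*} [Group G] {d : G → G → ℝ} (hd : OM d) {R : G → G → Prop} {κ : ℝ}
    (hR : Good d R κ) {ε : ℝ} (hε : 0 < ε) :
    ∃ L : Finset G, ∃ κ' : ℝ, Good d (fun x y => R x y ∨ SRel d ε L x y) κ' := by
  classical
  have hκ := hR.pos
  have e1 : ∀ x y : G, (x⁻¹ * y)⁻¹ = y⁻¹ * x := fun x y => by group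
  have e2 : ∀ x y z : G, (x⁻¹ * y)⁻¹ * (x⁻¹ * z) = y⁻¹ * z := fun x y z => by group
  have e3 : ∀ x y : G, (x⁻¹ * y)⁻¹ * x⁻¹ = y⁻¹ := fun x y => by group
  -- constants
  set δ2 := min ε κ / 16 with hδ2
  have hδ2p : 0 < δ2 := by positivity
  have hδ2ε : δ2 ≤ ε / 16 := by
    rw [hδ2]; exact div_le_div_of_nonneg_right (min_le_left _ _) (by norm_num)
  have hδ2κ : δ2 ≤ κ / 16 := by
    rw [hδ2]; exact div_le_div_of_nonneg_right (min_le_right _ _) (by norm_num)
  obtain ⟨C2, hC2⟩ := hd.cp δ2 hδ2p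
  obtain ⟨κ2, hκ2p, hκ2⟩ := hd.uc (C2.image fun u => u⁻¹) (ε / 4) (by positivity)
  set κM := min (ε / 4) (min (κ / 2) κ2) with hκM
  have hκMp : 0 < κM := by positivity
  have hκM1 : κM ≤ ε / 4 := min_le_left _ _
  have hκM2 : κM ≤ κ / 2 := (min_le_right _ _).trans (min_le_left _ _)
  have hκM3 : κM ≤ κ2 := (min_le_right _ _).trans (min_le_right _ _)
  set θ := κM / 8 with hθ
  have hθp : 0 < θ := by positivity
  obtain ⟨C', hC'⟩ := hd.cp θ hθp
  -- conditions on `t = x1⁻¹ y`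
  obtain ⟨A1, hA1⟩ := hd.cp (θ / 2) (by positivity)
  obtain ⟨A2, hA2⟩ := hd.rm (C2.image fun u => u⁻¹) (θ / 2) (by positivity)
  obtain ⟨A3, hA3⟩ := hd.rm (C'.image fun u => u⁻¹) (ε / 16) (by positivity)
  set C : Finset G := A1 ∪ (A2.image fun u => u⁻¹) ∪ A3 ∪
    ((C2 ×ˢ C').image fun p => p.1⁻¹ * p.2) ∪ C' with hC
  -- analysis 1
  obtain ⟨B1, hB1⟩ := hd.cp (θ / 4) (by positivity)
  obtain ⟨δ', hδ'p, hδ'⟩ := hd.uc (B1.image fun u => u⁻¹) (θ / 2) (by positivity)
  set δ := min (θ / 4) δ' with hδ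
  have hδp : 0 < δ := by positivity
  have hδ1 : δ ≤ θ / 4 := min_le_left _ _
  have hδ2' : δ ≤ δ' := min_le_right _ _
  obtain ⟨D1, hD1⟩ := hd.cp δ hδp
  obtain ⟨D2, hD2⟩ := hd.rm C δ hδp
  set L : Finset G := D1 ∪ (D2.image fun u => u⁻¹) ∪ C with hL
  -- first composite
  have key1 : ∀ x z y : G, SRel d ε L x z → (z = y ∨ Relation.TransGen R z y) →
      ε / 2 ≤ d x⁻¹ (x⁻¹ * y) ∧ d y⁻¹ (y⁻¹ * x) ≤ θ / 2 ∧ x⁻¹ * y ∉ C := by
    rintro x z y ⟨hw, hf⟩ hzy
    have hw1 : x⁻¹ * z ∉ D1 := fun h => hw (by rw [hL]; simp [h])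
    have hw2 : z⁻¹ * x ∉ D2 := fun h => hw (by
      rw [hL]
      simp only [Finset.mem_union, Finset.mem_image]
      exact Or.inl (Or.inr ⟨_, h, by group⟩))
    have hw3 : x⁻¹ * z ∉ C := fun h => hw (by rw [hL]; exact Finset.mem_union_right _ h)
    have hz1 : d z⁻¹ (z⁻¹ * x) ≤ δ := by
      rcases hD1 _ hw1 x⁻¹ with h | h
      · linarith
      · rwa [e3, e1] at h
    rcases hzy with rfl | hzy
    · exact ⟨by linarith, by linarith, hw3⟩
    · have hv := hR.far _ _ hzy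
      have hxy : d (x⁻¹ * y) (x⁻¹ * z) ≤ δ := by
        rcases hD1 _ hw1 (x⁻¹ * y) with h | h
        · exact h
        · rw [e2, e1] at h
          have h3 := hd.tri z⁻¹ (z⁻¹ * x) (z⁻¹ * y)
          rw [hd.comm (z⁻¹ * x)] at h3
          linarith
      refine ⟨?_, ?_, ?_⟩
      · have h3 := hd.tri x⁻¹ (x⁻¹ * y) (x⁻¹ * z)
        linarith
      · by_cases hvB : z⁻¹ * y ∈ B1
        · have h1 := hδ' (z⁻¹ * y)⁻¹ (Finset.mem_image.2 ⟨_, hvB, rfl⟩) z⁻¹ (z⁻¹ * x)
            (hz1.trans hδ2')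
          rwa [e3, e2] at h1
        · have h1 : d (y⁻¹ * x) (y⁻¹ * z) ≤ θ / 4 := by
            rcases hB1 _ hvB (z⁻¹ * x) with h | h
            · have h3 := hd.tri z⁻¹ (z⁻¹ * x) (z⁻¹ * y)
              linarith
            · rwa [e2, e1] at h
          have h2 : d y⁻¹ (y⁻¹ * z) ≤ θ / 4 := by
            rcases hB1 _ hvB z⁻¹ with h | h
            · linarith
            · rwa [e3, e1] at h
          have h3 := hd.tri y⁻¹ (y⁻¹ * z) (y⁻¹ * x)
          rw [hd.comm (y⁻¹ * z)] at h3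
          linarith
      · intro hmem
        have h1 := hD2 _ hw2 _ hmem
        have h2 : z⁻¹ * x * (x⁻¹ * y) = z⁻¹ * y := by group
        rw [h2] at h1
        have h3 := hd.tri z⁻¹ (z⁻¹ * x) (z⁻¹ * y)
        rw [hd.comm (z⁻¹ * x)] at h3
        linarith
  -- macro steps
  have key2 : ∀ x y : G, MRel R (SRel d ε L) x y →
      κM ≤ d x⁻¹ (x⁻¹ * y) ∧ d y⁻¹ (y⁻¹ * x) ≤ θ ∧ x⁻¹ * y ∉ C' := by
    rintro x y ⟨x1, z, hx, hS, hz⟩
    obtain ⟨hA, hB, hT⟩ := key1 _ _ _ hS hz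
    have hT1 : x1⁻¹ * y ∉ A1 := fun h => hT (by
      rw [hC]; simp only [Finset.mem_union]; tauto)
    have hT2 : y⁻¹ * x1 ∉ A2 := fun h => hT (by
      rw [hC]
      simp only [Finset.mem_union, Finset.mem_image]
      exact Or.inl (Or.inl (Or.inl (Or.inr ⟨_, h, by group⟩))))
    have hT3 : x1⁻¹ * y ∉ A3 := fun h => hT (by
      rw [hC]; simp only [Finset.mem_union]; tauto)
    have hT4 : ∀ u ∈ C2, ∀ c ∈ C', x1⁻¹ * y ≠ u⁻¹ * c := fun u hu c hc h => hT (by
      rw [hC]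
      simp only [Finset.mem_union, Finset.mem_image, Finset.mem_product]
      exact Or.inl (Or.inr ⟨(u, c), ⟨hu, hc⟩, h.symm⟩))
    have hT5 : x1⁻¹ * y ∉ C' := fun h => hT (by
      rw [hC]; exact Finset.mem_union_right _ h)
    rcases hx with rfl | hx
    · exact ⟨by linarith, by linarith, hT5⟩
    · have hu := hR.far _ _ hx
      by_cases huC : x⁻¹ * x1 ∈ C2
      · refine ⟨?_, ?_, ?_⟩
        · by_contra hcon
          have h1 := hκ2 (x⁻¹ * x1)⁻¹ (Finset.mem_image.2 ⟨_, huC, rfl⟩) x⁻¹ (x⁻¹ * y)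
            (by linarith [not_le.1 hcon])
          rw [e3, e2] at h1
          linarith
        · have h1 := hA2 _ hT2 (x⁻¹ * x1)⁻¹ (Finset.mem_image.2 ⟨_, huC, rfl⟩)
          have h2 : y⁻¹ * x1 * (x⁻¹ * x1)⁻¹ = y⁻¹ * x := by group
          rw [h2] at h1
          have h3 := hd.tri y⁻¹ (y⁻¹ * x1) (y⁻¹ * x)
          rw [hd.comm (y⁻¹ * x1)] at h3
          linarith
        · intro hmem
          refine hT4 _ huC _ hmem ?_
          group
      · have hx1 : d x1⁻¹ (x1⁻¹ * x) ≤ δ2 := by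
          rcases hC2 _ huC x⁻¹ with h | h
          · linarith
          · rwa [e3, e1] at h
        refine ⟨?_, ?_, ?_⟩
        · rcases hC2 _ huC (x⁻¹ * y) with h | h
          · have h3 := hd.tri x⁻¹ (x⁻¹ * y) (x⁻¹ * x1)
            linarith
          · rw [e2, e1] at h
            have h3 := hd.tri x1⁻¹ (x1⁻¹ * x) (x1⁻¹ * y)
            rw [hd.comm (x1⁻¹ * x)] at h3
            linarith
        · rcases hA1 _ hT1 (x1⁻¹ * x) with h | h
          · have h3 := hd.tri x1⁻¹ (x1⁻¹ * x) (x1⁻¹ * y)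
            linarith
          · rw [e2, e1] at h
            have h3 := hd.tri y⁻¹ (y⁻¹ * x1) (y⁻¹ * x)
            rw [hd.comm (y⁻¹ * x1)] at h3
            linarith
        · intro hmem
          have h1 := hA3 _ hT3 (x⁻¹ * y)⁻¹ (Finset.mem_image.2 ⟨_, hmem, rfl⟩)
          have h2 : x1⁻¹ * y * (x⁻¹ * y)⁻¹ = x1⁻¹ * x := by group
          rw [h2] at h1
          have h3 := hd.tri x1⁻¹ (x1⁻¹ * x) (x1⁻¹ * y)
          linarith
  have key3 := chain_bounds hd (M := MRel R (SRel d ε L)) hθp (κ := κM) (by rw [hθ]; linarith) C' hC'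
    (fun x y h => (key2 x y h).1) (fun x y h => (key2 x y h).2.1) (fun x y h => (key2 x y h).2.2)
  refine ⟨L, min κ (κM - θ), ?_, ?_, ?_⟩
  · exact lt_min hκ (by linarith)
  · intro x y h
    rcases transGen_or h with h | h
    · exact (min_le_left _ _).trans (hR.far x y h)
    · exact (min_le_right _ _).trans (key3 x y h).1
  · intro x h
    rcases transGen_or h with h | h
    · exact hR.acyc x h
    · have := key3 x x h
      linarith

/-- maximal elements of a finite set for an acyclic relation. -/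
theorem exists_maximal_transGen {G : Type*} {R : G → G → Prop} (hR : ∀ x, ¬ Relation.TransGen R x x)
    (Q : Finset G) (y : G) (hy : y ∈ Q) :
    ∃ x ∈ Q, (x = y ∨ Relation.TransGen R y x) ∧ ∀ z ∈ Q, ¬ R x z := by
  classical
  -- strong induction on the number of elements strictly above
  have key : ∀ n : ℕ, ∀ y ∈ Q, (Q.filter fun z => Relation.TransGen R y z).card ≤ n →
      ∃ x ∈ Q, (x = y ∨ Relation.TransGen R y x) ∧ ∀ z ∈ Q, ¬ R x z := by
    intro n
    induction n with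
    | zero =>
      intro y hy hc
      refine ⟨y, hy, Or.inl rfl, fun z hz hyz => ?_⟩
      have h1 : z ∈ Q.filter fun z => Relation.TransGen R y z :=
        Finset.mem_filter.2 ⟨hz, Relation.TransGen.single hyz⟩
      rw [Finset.card_eq_zero.1 (Nat.le_zero.1 hc)] at h1
      exact absurd h1 (Finset.notMem_empty _)
    | succ n ih =>
      intro y hy hc
      by_cases hmax : ∀ z ∈ Q, ¬ R y z
      · exact ⟨y, hy, Or.inl rfl, hmax⟩
      · push Not at hmax
        obtain ⟨z, hz, hyz⟩ := hmax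
        have hlt : (Q.filter fun w => Relation.TransGen R z w).card <
            (Q.filter fun w => Relation.TransGen R y w).card := by
          apply Finset.card_lt_card
          rw [Finset.ssubset_iff_of_subset]
          · exact ⟨z, Finset.mem_filter.2 ⟨hz, Relation.TransGen.single hyz⟩, fun h =>
              hR z (Finset.mem_filter.1 h).2⟩
          · intro w hw
            obtain ⟨h1, h2⟩ := Finset.mem_filter.1 hw
            exact Finset.mem_filter.2 ⟨h1, h2.head hyz⟩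
        obtain ⟨x, hx, h1, h2⟩ := ih z hz (by omega)
        refine ⟨x, hx, Or.inr ?_, h2⟩
        rcases h1 with rfl | h1
        · exact Relation.TransGen.single hyz
        · exact h1.head hyz
  exact key _ y hy le_rfl

/-- the multi-scale order lemma. -/
theorem OM.order {G : Type*} [Group G] {d : G → G → ℝ} (hd : OM d) (ε : ℕ → ℝ)
    (hε : ∀ j, 0 < ε j) : ∃ L : ℕ → Finset G, ∀ J : ℕ, ∃ κ : ℝ, 0 < κ ∧
      ∀ Q : Finset G, ∀ y ∈ Q, ∃ x ∈ Q, (x = y ∨ κ ≤ d y⁻¹ (y⁻¹ * x)) ∧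
        ∀ j ≤ J, ∀ z ∈ Q, x⁻¹ * z ∈ L j ∨ d x⁻¹ (x⁻¹ * z) < ε j := by
  classical
  have h0 : Good d (fun _ _ : G => False) 1 := by
    have hno : ∀ x y : G, ¬ Relation.TransGen (fun _ _ : G => False) x y := by
      intro x y h
      induction h with
      | single h => exact h
      | tail _ h _ => exact h
    exact ⟨one_pos, fun x y h => absurd h (hno x y), fun x h => hno x x h⟩
  -- the state: relation together with the proof that it is good
  let St := {R : G → G → Prop // ∃ κ, Good d R κ}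
  have hstep : ∀ (R : St) (j : ℕ), ∃ L : Finset G,
      ∃ κ, Good d (fun x y => R.1 x y ∨ SRel d (ε j) L x y) κ := by
    rintro ⟨R, κ, hR⟩ j
    exact hd.step hR (hε j)
  choose nL hnL using hstep
  let st : ℕ → St := fun n => Nat.rec ⟨fun _ _ => False, 1, h0⟩
    (fun j R => ⟨fun x y => R.1 x y ∨ SRel d (ε j) (nL R j) x y, hnL R j⟩) n
  have hst : ∀ n, (st (n + 1)).1 = fun x y => (st n).1 x y ∨ SRel d (ε n) (nL (st n) n) x y :=
    fun n => rfl
  refine ⟨fun n => nL (st n) n, fun J => ?_⟩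
  obtain ⟨κ, hκ⟩ := (st (J + 1)).2
  refine ⟨κ, hκ.pos, fun Q y hy => ?_⟩
  obtain ⟨x, hx, h1, h2⟩ := exists_maximal_transGen hκ.acyc Q y hy
  refine ⟨x, hx, h1.imp id (hκ.far _ _), ?_⟩
  have hsub : ∀ n m, n ≤ m → ∀ x y, (st n).1 x y → (st m).1 x y := by
    intro n m hnm
    induction m, hnm using Nat.le_induction with
    | base => exact fun x y h => h
    | succ m _ ih =>
      intro x y h
      rw [hst]
      exact Or.inl (ih x y h)
  intro j hj z hz
  by_contra hcon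
  push Not at hcon
  apply h2 z hz
  apply hsub (j + 1) (J + 1) (by omega)
  rw [hst]
  exact Or.inr ⟨hcon.1, hcon.2⟩

/-- the metric of the compactification restricted to the group. -/
theorem ConvSpace.om {G : Type*} [Group G] {Z : Type*} [MetricSpace Z] [MulAction G Z] {ι : G → Z}
    [CompactSpace Z] (hC : ConvSpace G Z ι) : OM (fun x y : G => dist (ι x) (ι y)) where
  comm x y := dist_comm _ _
  tri x y z := dist_triangle _ _ _
  cp δ hδ := by
    obtain ⟨F, hF, hcp⟩ := hC.cp δ hδ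
    refine ⟨hF.toFinset, fun w hw v => ?_⟩
    rcases hcp w (by simpa using hw) (ι v) with h | h
    · exact Or.inl h
    · right
      rwa [hC.equiv]
  uc K δ hδ := by
    have h1 : ∀ u : G, ∃ δ' : ℝ, 0 < δ' ∧ ∀ v v' : Z, dist v v' ≤ δ' → dist (u • v) (u • v') ≤ δ := by
      intro u
      have h2 := CompactSpace.uniformContinuous_of_continuous (hC.cont u)
      obtain ⟨δ', h3, h4⟩ := Metric.uniformContinuous_iff.1 h2 δ hδ
      exact ⟨δ' / 2, by positivity, fun v v' h => (h4 (by linarith)).le⟩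
    choose f hf1 hf2 using h1
    by_cases hK : K.Nonempty
    · refine ⟨K.inf' hK f, ?_, ?_⟩
      · rw [Finset.lt_inf'_iff]
        exact fun u _ => hf1 u
      · intro u hu v v' h
        show dist (ι (u * v)) (ι (u * v')) ≤ δ
        rw [hC.equiv, hC.equiv]
        exact hf2 u _ _ (h.trans (Finset.inf'_le f hu))
    · rw [Finset.not_nonempty_iff_eq_empty] at hK
      subst hK
      exact ⟨1, one_pos, fun u hu => absurd hu (Finset.notMem_empty _)⟩
  rm K δ hδ := by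
    classical
    have h1 : ∀ u : G, {w : G | ¬ dist (ι (w * u)) (ι w) ≤ δ}.Finite := by
      intro u
      by_contra hinf
      have hinf' : {w : G | ¬ dist (ι (w * u)) (ι w) ≤ δ}.Infinite := hinf
      set e := hinf'.natEmbedding with he
      have hcof : Tendsto (fun n => ((e n : {w : G | _}) : G)) atTop cofinite := by
        have h1 : Function.Injective (fun n => ((e n : {w : G | _}) : G)) :=
          Subtype.val_injective.comp e.injective
        have := h1.tendsto_cofinite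
        rwa [Nat.cofinite_eq_atTop] at this
      obtain ⟨φ, hφ, a, b, hD⟩ := hC.exists_dyn hcof
      have h2 := (hC.dyn_mul_right hD u).att.dist hD.att
      rw [dist_self] at h2
      have h3 := (tendsto_order.1 h2).2 δ hδ
      obtain ⟨n, hn⟩ := h3.exists
      exact (e (φ n)).2 hn.le
    refine ⟨K.biUnion fun u => (h1 u).toFinset, fun w hw u hu => ?_⟩
    by_contra hcon
    apply hw
    rw [Finset.mem_biUnion]
    exact ⟨u, hu, by simpa using hcon⟩

/-- node F1 -/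
theorem nOrder (s : Sys) : NOrder s := by
  intro ε hε
  exact s.convSpace.om.order ε hε

end Crest.Agent.R224
end
end

-- ▼ part R224/P213
section

set_option autoImplicit false

noncomputable section

open MeasureTheory Set Filter Topology

namespace Crest.Agent.R224

namespace P213

variable (s : Sys)

theorem isOpen_range : IsOpen (Set.range s.ι) := by
  have : Set.range s.ι = ⋃ g : s.G, ({s.ι g} : Set s.Z) := by
    ext z; simp [eq_comm]
  rw [this]
  exact isOpen_iUnion fun g => s.bdry.isol g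

theorem isClosed_T : IsClosed (T s.ι) := (isOpen_range s).isClosed_compl

/-- every `ι g` has a ball containing no other point -/
theorem isolated (g : s.G) : ∃ r : ℝ, 0 < r ∧ ∀ z : s.Z, dist z (s.ι g) < r → z = s.ι g := by
  obtain ⟨r, hr, hb⟩ := Metric.isOpen_iff.1 (s.bdry.isol g) (s.ι g) rfl
  exact ⟨r, hr, fun z hz => hb hz⟩

/-- right multiplication by `g` moves far vertices little -/
theorem near_mul (g : s.G) {ε : ℝ} (hε : 0 < ε) :
    ∃ K : Finset s.G, ∀ x : s.G, x ∉ K → dist (s.ι (x * g)) (s.ι x) ≤ ε := by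
  classical
  obtain ⟨r, hr, hb⟩ := isolated s g
  obtain ⟨K, hK⟩ := s.bdry.cp (min ε (r / 2)) (lt_min hε (by linarith))
  refine ⟨K ∪ {g⁻¹}, fun x hx => ?_⟩
  simp only [Finset.mem_union, Finset.mem_singleton, not_or] at hx
  rcases hK x hx.1 (s.ι (x * g)) with h | h
  · exact h.trans (min_le_left _ _)
  · exfalso
    rw [s.bdry.eqv, inv_mul_cancel_left] at h
    have h2 : dist (s.ι x⁻¹) (s.ι g) < r := by
      rw [dist_comm]
      exact lt_of_le_of_lt (h.trans (min_le_right _ _)) (by linarith)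
    have h3 := s.bdry.inj (hb _ h2)
    exact hx.2 (by rw [← h3, inv_inv])

theorem near_adj {ε : ℝ} (hε : 0 < ε) :
    ∃ K : Finset s.G, ∀ x : s.G, x ∉ K → ∀ y, Adj s.S x y → dist (s.ι y) (s.ι x) ≤ ε := by
  classical
  choose K hK using fun g : s.G => near_mul s g hε
  refine ⟨s.S.biUnion K, fun x hx y hxy => ?_⟩
  have h1 : x ∉ K (x⁻¹ * y) := fun h => hx (Finset.mem_biUnion.2 ⟨_, hxy, h⟩)
  have := hK (x⁻¹ * y) x h1
  rwa [mul_inv_cancel_left] at this

/-- finitely many vertices stay away from a point of the boundary -/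
theorem away (K : Finset s.G) {θ : s.Z} (hθ : θ ∈ T s.ι) :
    ∃ ρ : ℝ, 0 < ρ ∧ ∀ x : s.G, dist (s.ι x) θ < ρ → x ∉ K := by
  have hc : IsClosed (s.ι '' (K : Set s.G)) := (K.finite_toSet.image _).isClosed
  have hn : θ ∉ s.ι '' (K : Set s.G) := by
    rintro ⟨g, -, rfl⟩
    exact hθ ⟨g, rfl⟩
  obtain ⟨ρ, hρ, hb⟩ := Metric.isOpen_iff.1 hc.isOpen_compl θ hn
  refine ⟨ρ, hρ, fun x hx hxK => ?_⟩
  exact hb (Metric.mem_ball.2 hx) ⟨x, hxK, rfl⟩

theorem exists_near {θ : s.Z} {ρ : ℝ} (hρ : 0 < ρ) : ∃ x : s.G, dist (s.ι x) θ < ρ := by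
  obtain ⟨z, ⟨x, rfl⟩, hz⟩ := Metric.mem_closure_iff.1 (s.bdry.dense θ) ρ hρ
  exact ⟨x, by rwa [dist_comm]⟩

/-- an open set meeting the boundary contains infinitely many vertices -/
theorem infinite_near {θ : s.Z} (hθ : θ ∈ T s.ι) {O : Set s.Z} (hO : IsOpen O) (h : θ ∈ O) :
    {x : s.G | s.ι x ∈ O}.Infinite := by
  intro hf
  obtain ⟨ρ, hρ, hb⟩ := away s hf.toFinset hθ
  obtain ⟨r, hr, hb'⟩ := Metric.isOpen_iff.1 hO θ h
  obtain ⟨x, hx⟩ := exists_near s (θ := θ) (lt_min hρ hr)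
  refine hb x (hx.trans_le (min_le_left _ _)) ?_
  rw [Set.Finite.mem_toFinset]
  exact hb' (hx.trans_le (min_le_right _ _))

variable {s}

theorem ro_sub {U : Set s.Z} (h : RO s.ι U) : U ⊆ T s.ι := by
  obtain ⟨O, hO, rfl⟩ := h
  exact inter_subset_right

theorem ro_inter {U V : Set s.Z} (h : RO s.ι U) (h' : RO s.ι V) : RO s.ι (U ∩ V) := by
  obtain ⟨O, hO, rfl⟩ := h
  obtain ⟨O', hO', rfl⟩ := h'
  exact ⟨O ∩ O', hO.inter hO', by ext z; simp only [mem_inter_iff]; tauto⟩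

theorem ro_union {U V : Set s.Z} (h : RO s.ι U) (h' : RO s.ι V) : RO s.ι (U ∪ V) := by
  obtain ⟨O, hO, rfl⟩ := h
  obtain ⟨O', hO', rfl⟩ := h'
  exact ⟨O ∪ O', hO.union hO', by rw [union_inter_distrib_right]⟩

/-- the complement in the boundary of a relatively open set is closed -/
theorem ro_compl_closed {U : Set s.Z} (h : RO s.ι U) : IsClosed (T s.ι \ U) := by
  obtain ⟨O, hO, rfl⟩ := h
  have : T s.ι \ (O ∩ T s.ι) = T s.ι ∩ Oᶜ := by
    ext z; simp only [Set.mem_sdiff, mem_inter_iff, mem_compl_iff]; tauto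
  rw [this]
  exact (isClosed_T s).inter hO.isClosed_compl

variable (s)

end P213

open P213 in
/-- P1 -/
theorem pConn (s : Sys) : PConn s := by
  intro U hU hU' hne hne'
  have hUT : U ⊆ T s.ι := ro_sub hU
  have hc' : IsClosed (T s.ι \ U) := ro_compl_closed hU
  have hc : IsClosed U := by
    have := ro_compl_closed hU'
    rwa [sdiff_sdiff_cancel_left hUT] at this
  have hd : Disjoint U (T s.ι \ U) := disjoint_sdiff_right
  obtain ⟨V, V', hV, hV', hUV, hUV', hVV'⟩ := SeparatedNhds.of_isCompact_isCompact hc.isCompact hc'.isCompact hd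
  set A : Set s.G := {x | s.ι x ∈ V} with hA
  -- vertices outside `V ∪ V'` are finitely many
  have hfin : {x : s.G | s.ι x ∉ V ∪ V'}.Finite := by
    have hcomp : IsCompact (V ∪ V')ᶜ := (hV.union hV').isClosed_compl.isCompact
    have hcov : (V ∪ V')ᶜ ⊆ ⋃ g : s.G, ({s.ι g} : Set s.Z) := by
      intro z hz
      have : z ∉ T s.ι := by
        intro hzT
        by_cases hzU : z ∈ U
        · exact hz (Or.inl (hUV hzU))
        · exact hz (Or.inr (hUV' ⟨hzT, hzU⟩))
      simp only [T, mem_compl_iff, not_not] at this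
      obtain ⟨g, rfl⟩ := this
      exact mem_iUnion.2 ⟨g, rfl⟩
    obtain ⟨t, ht⟩ := hcomp.elim_finite_subcover (fun g : s.G => ({s.ι g} : Set s.Z))
      (fun g => s.bdry.isol g) hcov
    refine t.finite_toSet.subset fun x hx => ?_
    have := ht hx
    simp only [mem_iUnion, mem_singleton_iff, exists_prop] at this
    obtain ⟨g, hg, hxg⟩ := this
    rw [s.bdry.inj hxg]
    exact hg
  -- the two closed sets are at positive distance outside ... : use a Lebesgue number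
  have hbd : (bd s.S A).Finite := by
    -- bad first coordinates are finite
    have hcl : IsCompact (T s.ι) := (isClosed_T s).isCompact
    -- there is `ε` such that no two points `z ∈ V`, `w ∈ V'` far out are `ε`-close
    by_contra hinf
    have hinf : (bd s.S A).Infinite := hinf
    -- first coordinates form an infinite set
    have hinf1 : (Prod.fst '' bd s.S A).Infinite := by
      intro hf
      apply hinf
      have : bd s.S A ⊆ (fun p : s.G × s.G => (p.1, p.1 * p.2)) ''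
          ((Prod.fst '' bd s.S A) ×ˢ (s.S : Set s.G)) := by
        rintro ⟨x, y⟩ hxy
        refine ⟨(x, x⁻¹ * y), ⟨⟨(x, y), hxy, rfl⟩, hxy.1⟩, ?_⟩
        simp
      exact ((hf.prod s.S.finite_toSet).image _).subset this
    -- choose an accumulation point
    have hinf2 : (s.ι '' (Prod.fst '' bd s.S A)).Infinite := hinf1.image s.bdry.inj.injOn
    obtain ⟨θ, hθ⟩ := hinf2.exists_accPt_principal
    have hacc : ∀ r : ℝ, 0 < r → ∀ K : Finset s.G, ∃ x ∈ Prod.fst '' bd s.S A,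
        x ∉ K ∧ dist (s.ι x) θ < r := by
      intro r hr K
      by_contra hcon
      push Not at hcon
      -- then only finitely many points of the set are in the ball
      have hfr := (accPt_iff_frequently.1 hθ)
      have hfin' : (s.ι '' (K : Set s.G)).Finite := K.finite_toSet.image _
      have hcl' : IsClosed (s.ι '' (K : Set s.G) \ {θ}) := (hfin'.subset sdiff_subset).isClosed
      have hev : ∀ᶠ z in 𝓝 θ, z ∉ s.ι '' (K : Set s.G) \ {θ} :=
        hcl'.isOpen_compl.mem_nhds (by simp)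
      have hev2 : ∀ᶠ z in 𝓝 θ, dist z θ < r := Metric.ball_mem_nhds θ hr
      obtain ⟨z, ⟨hzne, x, hx, hxz⟩, hz1, hz2⟩ := (hfr.and_eventually (hev.and hev2)).exists
      subst hxz
      by_cases hxK : x ∈ K
      · exact hz1 ⟨⟨x, hxK, rfl⟩, hzne⟩
      · exact absurd hz2 (not_lt.2 (hcon x hx hxK))
    have hθT : θ ∈ T s.ι := by
      rintro ⟨g, rfl⟩
      obtain ⟨r, hr, hb⟩ := isolated s g
      obtain ⟨x, _, hxK, hxr⟩ := hacc r hr {g}
      exact hxK (by rw [s.bdry.inj (hb _ hxr)]; simp)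
    by_cases hθU : θ ∈ U
    · -- neighbours of far vertices near `θ` are in `V`
      obtain ⟨r, hr, hb⟩ := Metric.isOpen_iff.1 hV θ (hUV hθU)
      obtain ⟨K, hK⟩ := near_adj s (ε := r / 4) (by linarith)
      obtain ⟨x, ⟨p, hp, hpx⟩, hxK, hxr⟩ := hacc (r / 2) (by linarith) K
      have h1 := hK x hxK p.2 (by rw [← hpx]; exact hp.1)
      apply hp.2.2
      apply hb
      rw [Metric.mem_ball]
      calc dist (s.ι p.2) θ ≤ dist (s.ι p.2) (s.ι x) + dist (s.ι x) θ := dist_triangle _ _ _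
        _ < r := by linarith
    · obtain ⟨r, hr, hb⟩ := Metric.isOpen_iff.1 hV' θ (hUV' ⟨hθT, hθU⟩)
      obtain ⟨x, ⟨p, hp, hpx⟩, hxK, hxr⟩ := hacc r hr ∅
      have h1 : s.ι x ∈ V' := hb hxr
      have h2 : s.ι x ∈ V := by rw [← hpx]; exact hp.2.1
      exact Set.disjoint_left.1 hVV' h2 h1
  rcases s.top.oneEnd A hbd with h | h
  · obtain ⟨θ, hθ⟩ := hne
    exact infinite_near s (hUT hθ) hV (hUV hθ) h
  · obtain ⟨θ, hθ⟩ := hne'
    refine infinite_near s hθ.1 hV' (hUV' hθ) (h.subset fun x hx hx' => ?_)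
    exact Set.disjoint_left.1 hVV' hx' hx

open P213 in
/-- P2 -/
theorem pHalf (s : Sys) (h1 : PConn s) : PHalf s := by
  intro η U ξ W hU hW hne hξU
  have hUT : U ⊆ T s.ι := ro_sub hU.ro
  have hWT : W ⊆ T s.ι := ro_sub hW.ro
  -- general fact
  have key : ∀ W' : Set s.Z, RO s.ι W' → RO s.ι (cmp s.ι ξ W') → ξ ∉ W' → η ∉ W' →
      U ∩ W' = ∅ := by
    intro W' hW' hW'' hξ hη
    by_contra hcon
    have hcon : (U ∩ W').Nonempty := nonempty_iff_ne_empty.2 hcon
    refine h1 (U ∩ W') (ro_inter hU.ro hW') ?_ hcon ⟨η, hU.mem, fun h => hU.notMem h.1⟩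
    have : T s.ι \ (U ∩ W') = cmp s.ι η U ∪ cmp s.ι ξ W' := by
      ext z
      simp only [Set.mem_sdiff, mem_inter_iff, mem_union, cmp, mem_ofPred_eq, not_and]
      constructor
      · rintro ⟨hz, hz'⟩
        by_cases hzU : z ∈ U
        · right
          refine ⟨hz, fun h => hξU (h ▸ hzU), hz' hzU⟩
        · by_cases hzη : z = η
          · right
            exact ⟨hz, fun h => hne (hzη ▸ h), fun h => hη (hzη ▸ h)⟩
          · left
            exact ⟨hz, hzη, hzU⟩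
      · rintro (⟨h1, h2, h3⟩ | ⟨h1, h2, h3⟩)
        · exact ⟨h1, fun h => absurd h h3⟩
        · exact ⟨h1, fun _ => h3⟩
    rw [this]
    exact ro_union hU.ro' hW''
  by_cases hη : η ∈ W
  · left
    have hk := key (cmp s.ι ξ W) hW.ro' ?_ (fun h => h.2.1 rfl) (fun h => h.2.2 hη)
    · rintro z (hz | hz)
      · by_contra hzW
        have : z ∈ U ∩ cmp s.ι ξ W := ⟨hz, hUT hz, fun h => hξU (h ▸ hz), hzW⟩
        rw [hk] at this
        exact this
      · rw [mem_singleton_iff] at hz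
        rw [hz]; exact hη
    · have : cmp s.ι ξ (cmp s.ι ξ W) = W := by
        ext z
        simp only [cmp, mem_ofPred_eq, not_and, not_not]
        constructor
        · rintro ⟨h1, h2, h3⟩
          exact h3 h1 h2
        · intro h
          exact ⟨hWT h, fun h' => hW.notMem (h' ▸ h), fun _ _ => h⟩
      rw [this]; exact hW.ro
  · right
    have hk := key W hW.ro hW.ro' hW.notMem hη
    rw [Set.disjoint_left]
    rintro z (hz | hz) hzW
    · have : z ∈ U ∩ W := ⟨hz, hzW⟩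
      rw [hk] at this
      exact this
    · rw [mem_singleton_iff] at hz
      exact hη (hz ▸ hzW)

namespace P213

variable {s : Sys}

theorem cmp_cmp {η : s.Z} {U : Set s.Z} (hU : Clp s.ι η U) :
    cmp s.ι η (cmp s.ι η U) = U := by
  ext z
  simp only [cmp, mem_ofPred_eq, not_and, not_not]
  constructor
  · rintro ⟨h1, h2, h3⟩
    exact h3 h1 h2
  · intro h
    exact ⟨ro_sub hU.ro h, fun h' => hU.notMem (h' ▸ h), fun _ _ => h⟩

theorem clp_cmp {η : s.Z} {U : Set s.Z} (hU : Clp s.ι η U) : Clp s.ι η (cmp s.ι η U) :=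
  ⟨hU.mem, fun h => h.2.1 rfl, hU.ro', by rw [cmp_cmp hU]; exact hU.ro⟩

theorem clp_inter {η : s.Z} {U V : Set s.Z} (hU : Clp s.ι η U) (hV : Clp s.ι η V) :
    Clp s.ι η (U ∩ V) := by
  refine ⟨hU.mem, fun h => hU.notMem h.1, ro_inter hU.ro hV.ro, ?_⟩
  have : cmp s.ι η (U ∩ V) = cmp s.ι η U ∪ cmp s.ι η V := by
    ext z
    simp only [cmp, mem_ofPred_eq, mem_inter_iff, mem_union]
    tauto
  rw [this]
  exact ro_union hU.ro' hV.ro'

theorem clp_union {η : s.Z} {U V : Set s.Z} (hU : Clp s.ι η U) (hV : Clp s.ι η V) :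
    Clp s.ι η (U ∪ V) := by
  have := clp_cmp (clp_inter (clp_cmp hU) (clp_cmp hV))
  have h2 : cmp s.ι η (cmp s.ι η U ∩ cmp s.ι η V) = U ∪ V := by
    have hU' := cmp_cmp hU
    have hV' := cmp_cmp hV
    ext z
    have e1 : z ∈ cmp s.ι η (cmp s.ι η U) ↔ z ∈ U := by rw [hU']
    have e2 : z ∈ cmp s.ι η (cmp s.ι η V) ↔ z ∈ V := by rw [hV']
    rw [mem_union, ← e1, ← e2]
    simp only [cmp, mem_ofPred_eq, mem_inter_iff]
    tauto
  rwa [h2] at this

theorem clp_diff {η : s.Z} {U V : Set s.Z} (hU : Clp s.ι η U) (hV : Clp s.ι η V) :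
    Clp s.ι η (U \ V) := by
  have := clp_inter hU (clp_cmp hV)
  have h2 : U ∩ cmp s.ι η V = U \ V := by
    ext z
    simp only [cmp, mem_ofPred_eq, mem_inter_iff, Set.mem_sdiff]
    constructor
    · rintro ⟨h1, _, _, h2⟩; exact ⟨h1, h2⟩
    · rintro ⟨h1, h2⟩
      exact ⟨h1, ro_sub hU.ro h1, fun h => hU.notMem (h ▸ h1), h2⟩
  rwa [h2] at this

theorem smul_open (g : s.G) {O : Set s.Z} (hO : IsOpen O) :
    IsOpen ((fun z => g • z) '' O) := by
  have : (fun z : s.Z => g • z) '' O = (fun z : s.Z => g⁻¹ • z) ⁻¹' O := by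
    ext z
    constructor
    · rintro ⟨w, hw, rfl⟩
      simpa using hw
    · intro h
      exact ⟨g⁻¹ • z, h, by simp⟩
  rw [this]
  exact hO.preimage (s.bdry.cont g⁻¹)

theorem smul_T_sub (g : s.G) {z : s.Z} (hz : z ∈ T s.ι) : g • z ∈ T s.ι := by
  rintro ⟨x, hx⟩
  apply hz
  refine ⟨g⁻¹ * x, ?_⟩
  rw [← s.bdry.eqv, hx, inv_smul_smul]

theorem smul_T (g : s.G) : (fun z => g • z) '' T s.ι = T s.ι := by
  ext z
  constructor
  · rintro ⟨w, hw, rfl⟩
    exact smul_T_sub g hw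
  · intro h
    exact ⟨g⁻¹ • z, smul_T_sub g⁻¹ h, by simp⟩

theorem smul_inj (g : s.G) : Function.Injective (fun z : s.Z => g • z) := MulAction.injective g

theorem smul_ro (g : s.G) {U : Set s.Z} (hU : RO s.ι U) : RO s.ι ((fun z => g • z) '' U) := by
  obtain ⟨O, hO, rfl⟩ := hU
  refine ⟨_, smul_open g hO, ?_⟩
  rw [image_inter (smul_inj g), smul_T]

theorem smul_cmp (g : s.G) (η : s.Z) (U : Set s.Z) :
    cmp s.ι (g • η) ((fun z => g • z) '' U) = (fun z => g • z) '' cmp s.ι η U := by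
  ext z
  constructor
  · rintro ⟨h1, h2, h3⟩
    refine ⟨g⁻¹ • z, ⟨smul_T_sub g⁻¹ h1, fun h => h2 ?_, fun h => h3 ⟨_, h, by simp⟩⟩, by simp⟩
    rw [← h]; simp
  · rintro ⟨w, ⟨h1, h2, h3⟩, rfl⟩
    refine ⟨smul_T_sub g h1, fun h => h2 (smul_inj g h), ?_⟩
    rintro ⟨v, hv, hvw⟩
    exact h3 ((smul_inj g hvw) ▸ hv)

theorem clp_smul (g : s.G) {η : s.Z} {U : Set s.Z} (hU : Clp s.ι η U) :
    Clp s.ι (g • η) ((fun z => g • z) '' U) := by
  refine ⟨smul_T_sub g hU.mem, ?_, smul_ro g hU.ro, ?_⟩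
  · rintro ⟨w, hw, hwη⟩
    exact hU.notMem ((smul_inj g hwη) ▸ hw)
  · rw [smul_cmp]
    exact smul_ro g hU.ro'

end P213

/-- P3 -/
theorem pAlg (s : Sys) : PAlg s := fun _ _ _ hU hV =>
  ⟨P213.clp_cmp hU, P213.clp_inter hU hV, P213.clp_union hU hV, P213.clp_diff hU hV,
    fun g => P213.clp_smul g hU⟩

end Crest.Agent.R224
end
end

-- ▼ part R224/XB0
section

set_option autoImplicit false

noncomputable section

open MeasureTheory Set Filter Topology

namespace Crest.Agent.R224.XB2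

/-- vertices from which the branch at `η` is almost everything -/
def Ob (s : Sys) (a b η : s.Z) : Set s.G := {x | 1 - s.c0 < hh s.ν (Dn s.ι a b η) x}

/-- outer vertex boundary -/
def ob {G : Type} [Group G] (S : Finset G) (Y : Set G) : Set G := {w | w ∉ Y ∧ ∃ y ∈ Y, Adj S y w}

variable (s : Sys)

theorem c0_pos : 0 < s.c0 := by
  have := s.card_pos
  unfold Sys.c0
  positivity

theorem c0_sq : (s.S.card : ℝ) ^ 2 * s.c0 = 1 / 4 := by
  have := s.card_pos
  unfold Sys.c0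
  field_simp

theorem c0_one : (s.S.card : ℝ) * s.c0 ≤ 1 / 4 := by
  have h1 := s.one_le_card
  have h2 := c0_sq s
  have h3 := c0_pos s
  nlinarith [mul_nonneg (mul_nonneg s.card_pos.le h3.le) (sub_nonneg.2 h1)]

theorem c0_le : s.c0 ≤ 1 / 4 := by
  have h1 := s.one_le_card
  have h2 := c0_one s
  have h3 := c0_pos s
  nlinarith

variable {s} {a b : s.Z}

theorem mem_Ob {η : s.Z} {x : s.G} : x ∈ Ob s a b η ↔ 1 - s.c0 < hh s.ν (Dn s.ι a b η) x := Iff.rfl

/-- membership of the complement of `XB` -/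
theorem not_mem_XB {x : s.G} : x ∉ XB s.ι s.ν a b s.c0 ↔
    ∃ η, IsCut s.ι η ∧ η ∈ Blk s.ι a b ∧ x ∈ Ob s a b η := by
  unfold XB Ob
  simp only [mem_ofPred_eq]
  push Not
  rfl

theorem mem_XB {x : s.G} : x ∈ XB s.ι s.ν a b s.c0 ↔
    ∀ η, IsCut s.ι η → η ∈ Blk s.ι a b → x ∉ Ob s a b η := by
  unfold XB Ob
  simp only [mem_ofPred_eq, not_lt]

theorem Dn_clp (hP : NPart s) (hu : Unsep s.ι a b) {η : s.Z} (h1 : IsCut s.ι η)
    (h2 : η ∈ Blk s.ι a b) : Clp s.ι η (Dn s.ι a b η) := ((hP a b hu).2.2.2.1 η h1 h2).1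

/-- far from the branch `η'` when the branch `η` is almost everything -/
theorem lt_of_mem_Ob (hP : NPart s) (hu : Unsep s.ι a b) {η η' : s.Z} (h1 : IsCut s.ι η)
    (h2 : η ∈ Blk s.ι a b) (h1' : IsCut s.ι η') (h2' : η' ∈ Blk s.ι a b) (hne : η ≠ η')
    {x : s.G} (hx : x ∈ Ob s a b η) : hh s.ν (Dn s.ι a b η') x < s.c0 := by
  have hd := (hP a b hu).2.2.2.2.1 η η' h1 h2 h1' h2' hne
  have hm := (Dn_clp hP hu h1' h2').meas
  have h := measureReal_union (μ := s.ν x) hd hm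
  have h3 : (s.ν x).real (Dn s.ι a b η ∪ Dn s.ι a b η') ≤ 1 := measureReal_le_one
  rw [h] at h3
  have h4 := mem_Ob.1 hx
  unfold hh at h4 ⊢
  linarith

/-- the sets `Ob η` are at distance at least 3 -/
theorem eq_of_two (hP : NPart s) (hu : Unsep s.ι a b) {η η' : s.Z} (h1 : IsCut s.ι η)
    (h2 : η ∈ Blk s.ι a b) (h1' : IsCut s.ι η') (h2' : η' ∈ Blk s.ι a b)
    {x y z : s.G} (hxy : Adj s.S x y) (hyz : Adj s.S y z) (hx : x ∈ Ob s a b η)
    (hz : z ∈ Ob s a b η') : η = η' := by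
  by_contra hne
  have h3 := lt_of_mem_Ob hP hu h1 h2 h1' h2' hne hx
  have hm := (Dn_clp hP hu h1' h2').meas
  have h4 := s.harnack hxy hm
  have h5 := s.harnack hyz hm
  have h6 := mem_Ob.1 hz
  have h7 := c0_sq s
  have h8 := c0_le s
  have h9 := s.card_pos
  have h10 : hh s.ν (Dn s.ι a b η') z ≤ (s.S.card : ℝ) ^ 2 * s.c0 := by
    calc _ ≤ (s.S.card : ℝ) * hh s.ν (Dn s.ι a b η') y := h5
      _ ≤ s.S.card * (s.S.card * hh s.ν (Dn s.ι a b η') x) := mul_le_mul_of_nonneg_left h4 h9.le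
      _ ≤ s.S.card * (s.S.card * s.c0) := by
          exact mul_le_mul_of_nonneg_left (mul_le_mul_of_nonneg_left h3.le h9.le) h9.le
      _ = _ := by ring
  linarith

theorem adj_refl (x : s.G) : Adj s.S x x := by
  have := s.top.one
  simpa [Adj] using this

theorem eq_of_adj (hP : NPart s) (hu : Unsep s.ι a b) {η η' : s.Z} (h1 : IsCut s.ι η)
    (h2 : η ∈ Blk s.ι a b) (h1' : IsCut s.ι η') (h2' : η' ∈ Blk s.ι a b)
    {x y : s.G} (hxy : Adj s.S x y) (hx : x ∈ Ob s a b η)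
    (hz : y ∈ Ob s a b η') : η = η' :=
  eq_of_two hP hu h1 h2 h1' h2' (adj_refl x) hxy hx hz


/-- the outer boundary of a component of `A` does not meet `A` -/
theorem ob_comp_notMem {G : Type} [Group G] {S : Finset G} {A : Set G} {v w : G}
    (hw : w ∈ ob S (FC.comp S A v)) : w ∉ A := by
  intro h
  obtain ⟨h1, y, hy, hyw⟩ := hw
  exact h1 ((FC.isPiece_comp v).2 y w hy h hyw)

/-- the neighbours outside `Ob η` of vertices of `Ob η` belong to `XB` -/
theorem mem_XB_of_adj (hP : NPart s) (hu : Unsep s.ι a b) {η : s.Z} (h1 : IsCut s.ι η)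
    (h2 : η ∈ Blk s.ι a b) {x y : s.G} (hxy : Adj s.S x y) (hx : x ∈ Ob s a b η)
    (hy : y ∉ Ob s a b η) : y ∈ XB s.ι s.ν a b s.c0 := by
  rw [mem_XB]
  intro η' h1' h2' hy'
  have := eq_of_adj hP hu h1 h2 h1' h2' hxy hx hy'
  subst this
  exact hy hy'

theorem mem_Bal_of_adj (hP : NPart s) (hu : Unsep s.ι a b) {η : s.Z} (h1 : IsCut s.ι η)
    (h2 : η ∈ Blk s.ι a b) {x y : s.G} (hxy : Adj s.S x y) (hx : x ∈ Ob s a b η)
    (hy : y ∉ Ob s a b η) : y ∈ Bal s.ν s.c0 (Dn s.ι a b η) := by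
  have hm := (Dn_clp hP hu h1 h2).meas
  refine ⟨?_, not_lt.1 hy⟩
  have h3 := s.harnack (s.adj_symm hxy) hm
  have h4 := mem_Ob.1 hx
  have h5 := c0_one s
  have h6 := c0_le s
  have h7 := s.card_pos
  by_contra hcon
  push Not at hcon
  have h8 := mul_le_mul_of_nonneg_left hcon.le h7.le
  linarith

theorem ob_sub_XB (hP : NPart s) (hu : Unsep s.ι a b) {η : s.Z} (h1 : IsCut s.ι η)
    (h2 : η ∈ Blk s.ι a b) (v : s.G) :
    ob s.S (FC.comp s.S (Ob s a b η) v) ⊆ XB s.ι s.ν a b s.c0 := by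
  intro w hw
  obtain ⟨y, hy, hyw⟩ := hw.2
  exact mem_XB_of_adj hP hu h1 h2 hyw hy.1 (ob_comp_notMem hw)

theorem ob_sub_Bal (hP : NPart s) (hu : Unsep s.ι a b) {η : s.Z} (h1 : IsCut s.ι η)
    (h2 : η ∈ Blk s.ι a b) (v : s.G) :
    ob s.S (FC.comp s.S (Ob s a b η) v) ⊆ Bal s.ν s.c0 (Dn s.ι a b η) := by
  intro w hw
  obtain ⟨y, hy, hyw⟩ := hw.2
  exact mem_Bal_of_adj hP hu h1 h2 hyw hy.1 (ob_comp_notMem hw)

/-! ### the complementary component -/

theorem sel_eq (hu : Unsep s.ι a b) {η : s.Z} :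
    ∃ θ ∈ T s.ι, θ ≠ η ∧ sel s.ι a b η = Compo s.ι η θ := by
  unfold sel
  split_ifs with h
  · subst h
    exact ⟨b, hu.hb, hu.ne.symm, rfl⟩
  · exact ⟨a, hu.ha, Ne.symm h, rfl⟩

theorem sel_pair (hu : Unsep s.ι a b) {η : s.Z} (h1 : IsCut s.ι η) :
    (η, sel s.ι a b η) ∈ s.Pairs := by
  obtain ⟨θ, h2, h3, h4⟩ := sel_eq hu (η := η)
  exact ⟨h1, θ, h2, h3, h4⟩

theorem sel_clp (hO : NOpen s) (hu : Unsep s.ι a b) {η : s.Z} (hη : η ∈ T s.ι) :
    Clp s.ι η (sel s.ι a b η) := by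
  obtain ⟨θ, h2, h3, h4⟩ := sel_eq hu (η := η)
  rw [h4]
  exact hO η hη θ h2 h3

theorem hh_Dn (hO : NOpen s) (hu : Unsep s.ι a b) {η : s.Z} (hη : η ∈ T s.ι) (x : s.G) :
    hh s.ν (Dn s.ι a b η) x = 1 - hh s.ν (sel s.ι a b η) x := by
  have := (sel_clp hO hu hη).hh_add x
  unfold Dn
  linarith

theorem Bal_sel (hO : NOpen s) (hu : Unsep s.ι a b) {η : s.Z} (hη : η ∈ T s.ι) (c : ℝ) :
    Bal s.ν c (Dn s.ι a b η) = Bal s.ν c (sel s.ι a b η) := by
  ext x
  simp only [Bal, mem_ofPred_eq, hh_Dn hO hu hη]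
  constructor <;> rintro ⟨h1, h2⟩ <;> constructor <;> linarith

theorem Blk_sub {z : s.Z} (hz : z ∈ Blk s.ι a b) : z ∈ T s.ι := hz.1

end Crest.Agent.R224.XB2
end
end

-- ▼ part R224/XB1
section

set_option autoImplicit false

noncomputable section

open MeasureTheory Set Filter Topology

namespace Crest.Agent.R224.XB1

variable {s : Sys}

/-! ### maximum principle -/

/-- if a function attains at `x` its maximum over the neighbours and is `≤` its average at `x`
then it is constant on the neighbours -/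
theorem eq_of_avg {v : s.G → ℝ} {x : s.G} {M : ℝ} (hx : M ≤ Pop s.S v x)
    (hM : ∀ y, Adj s.S x y → v y ≤ M) {y : s.G} (hy : Adj s.S x y) : v y = M := by
  refine le_antisymm (hM y hy) ?_
  by_contra hlt
  rw [not_le] at hlt
  have hsum : ∑ g ∈ s.S, v (x * g) < ∑ g ∈ s.S, M := by
    refine Finset.sum_lt_sum (fun g hg => hM _ (by simpa [Adj] using hg)) ⟨x⁻¹ * y, hy, ?_⟩
    rwa [mul_inv_cancel_left]
  rw [Finset.sum_const, nsmul_eq_mul] at hsum
  unfold Pop at hx
  rw [le_div_iff₀ s.card_pos] at hx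
  linarith

theorem closed_univ {P : s.G → Prop} (hP : ∀ x y, P x → Adj s.S x y → P y) {x : s.G} (hx : P x)
    (y : s.G) : P y := by
  have := s.conn_univ x y
  induction this with
  | refl => exact hx
  | tail _ h2 ih => exact hP _ _ ih h2

/-- maximum principle -/
theorem max_princ {v : s.G → ℝ} (hv : ∀ x, v x ≤ Pop s.S v x)
    (hfin : ∀ ε : ℝ, 0 < ε → {x | ε ≤ v x}.Finite) (x : s.G) : v x ≤ 0 := by
  by_contra hx
  rw [not_le] at hx
  obtain ⟨x1, h1, h2⟩ := (hfin (v x) hx).exists_maximalFor v _ ⟨x, le_refl (v x)⟩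
  have h1' : v x ≤ v x1 := h1
  have hmax : ∀ y, v y ≤ v x1 := by
    intro y
    by_contra hy
    rw [not_le] at hy
    exact absurd (h2 (j := y) (by simp only [mem_ofPred_eq]; linarith) hy.le) (not_le.2 hy)
  have hall : ∀ y, v y = v x1 := fun y =>
    closed_univ (P := fun y => v y = v x1)
      (fun a b ha hab => eq_of_avg (ha ▸ hv a) (fun y _ => hmax y) hab) rfl y
  refine Set.infinite_univ ((hfin (v x) hx).subset fun y _ => ?_)
  simp only [mem_ofPred_eq]
  rw [hall y]; exact h1'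

theorem pop_sub (u v : s.G → ℝ) (x : s.G) :
    Pop s.S (fun y => u y - v y) x = Pop s.S u x - Pop s.S v x := by
  unfold Pop
  rw [Finset.sum_sub_distrib, sub_div]

theorem pop_const (c : ℝ) (x : s.G) : Pop s.S (fun _ => c) x = c := by
  unfold Pop
  rw [Finset.sum_const, nsmul_eq_mul, mul_div_cancel_left₀ _ s.card_pos.ne']

theorem pop_mono {u v : s.G → ℝ} {x : s.G} (h : ∀ y, Adj s.S x y → u y ≤ v y) :
    Pop s.S u x ≤ Pop s.S v x := by
  unfold Pop
  refine div_le_div_of_nonneg_right (Finset.sum_le_sum fun g hg => h _ ?_) s.card_pos.le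
  simpa [Adj] using hg

theorem hh_harm {A : Set s.Z} (hA : MeasurableSet A) (x : s.G) :
    hh s.ν A x = Pop s.S (hh s.ν A) x := s.harm.harm x A hA

/-- masses of small balls tend to zero -/
theorem ball_small (x : s.G) (η : s.Z) {e : ℝ} (he : 0 < e) :
    ∃ r : ℝ, 0 < r ∧ hh s.ν (Metric.ball η r) x < e := by
  have h1 : Tendsto (fun n : ℕ => s.ν x (Metric.ball η (1 / ((n : ℝ) + 1)))) atTop
      (𝓝 (s.ν x (⋂ n : ℕ, Metric.ball η (1 / ((n : ℝ) + 1))))) := by
    refine tendsto_measure_iInter_atTop (fun n => Metric.isOpen_ball.measurableSet.nullMeasurableSet)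
      ?_ ⟨0, measure_ne_top _ _⟩
    intro m n hmn
    refine Metric.ball_subset_ball ?_
    exact Nat.one_div_le_one_div hmn
  have h2 : (⋂ n : ℕ, Metric.ball η (1 / ((n : ℝ) + 1))) = {η} := by
    ext z
    simp only [mem_iInter, Metric.mem_ball, mem_singleton_iff]
    constructor
    · intro h
      by_contra hne
      obtain ⟨n, hn⟩ := exists_nat_one_div_lt (dist_pos.2 hne)
      exact lt_irrefl _ ((h n).trans hn)
    · rintro rfl n
      rw [dist_self]; exact Nat.one_div_pos_of_nat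
  rw [h2, s.harm.atomless x η] at h1
  have h3 := (ENNReal.tendsto_toReal ENNReal.zero_ne_top).comp h1
  rw [ENNReal.toReal_zero] at h3
  obtain ⟨n, hn⟩ := ((tendsto_order.1 h3).2 e he).exists
  exact ⟨1 / ((n : ℝ) + 1), Nat.one_div_pos_of_nat, hn⟩

/-- a bounded subharmonic function with non-positive limits outside one point is non-positive -/
theorem sub_nonpos {u : s.G → ℝ} (hu : ∀ x, u x ≤ Pop s.S u x) (hb : ∀ x, u x ≤ 1) {η : s.Z}
    (hfin : ∀ ε : ℝ, 0 < ε → ∀ r : ℝ, 0 < r → {x | ε ≤ u x ∧ r ≤ dist (s.ι x) η}.Finite)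
    (x : s.G) : u x ≤ 0 := by
  by_contra hx
  rw [not_le] at hx
  obtain ⟨r, hr, hr'⟩ := ball_small x η hx
  have hB : MeasurableSet (Metric.ball η r) := Metric.isOpen_ball.measurableSet
  have key := max_princ (v := fun y => u y - hh s.ν (Metric.ball η r) y)
    (fun y => by
      rw [pop_sub, ← hh_harm hB]
      exact sub_le_sub_right (hu y) _) ?_ x
  · linarith
  · intro ε hε
    obtain ⟨K, hK⟩ := s.harm.conc (min (ε / 2) (r / 2)) (lt_min (by linarith) (by linarith))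
    refine ((hfin ε hε (r / 2) (by linarith)).union K.finite_toSet).subset ?_
    intro y hy
    simp only [mem_ofPred_eq] at hy
    by_cases hyK : y ∈ K
    · right; exact hyK
    left
    refine ⟨?_, ?_⟩
    · have := s.hh_nonneg (Metric.ball η r) y
      linarith
    · by_contra hd
      rw [not_le] at hd
      have h1 := hK y hyK
      have hm : MeasurableSet {z : s.Z | min (ε / 2) (r / 2) ≤ dist z (s.ι y)} :=
        (isClosed_le continuous_const (continuous_id.dist continuous_const)).measurableSet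
      have h2 : (s.ν y).real {z : s.Z | min (ε / 2) (r / 2) ≤ dist z (s.ι y)}ᶜ =
          1 - (s.ν y).real {z : s.Z | min (ε / 2) (r / 2) ≤ dist z (s.ι y)} := by
        rw [measureReal_compl hm, probReal_univ]
      have h3 : {z : s.Z | min (ε / 2) (r / 2) ≤ dist z (s.ι y)}ᶜ ⊆ Metric.ball η r := by
        intro z hz
        simp only [mem_compl_iff, mem_ofPred_eq, not_le] at hz
        rw [Metric.mem_ball]
        have h4 := hz.trans_le (min_le_right _ _)
        calc dist z η ≤ dist z (s.ι y) + dist (s.ι y) η := dist_triangle _ _ _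
          _ < r := by linarith
      have h5 : (s.ν y).real {z : s.Z | min (ε / 2) (r / 2) ≤ dist z (s.ι y)}ᶜ ≤
          hh s.ν (Metric.ball η r) y := measureReal_mono h3
      have h6 := min_le_left (ε / 2) (r / 2)
      have h7 := hb y
      linarith

/-! ### accumulation -/

theorem exists_acc {A : Set s.G} (hA : A.Infinite) :
    ∃ θ ∈ T s.ι, ∀ ε : ℝ, 0 < ε → ∃ x ∈ A, dist (s.ι x) θ < ε := by
  classical
  have : Infinite A := hA.to_subtype
  let f := Infinite.natEmbedding A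
  obtain ⟨τ, hτ, φ, hφ, hlim⟩ := s.subseq_T (fun n => (f n : s.G)) (fun g => by
    refine Set.Subsingleton.finite ?_
    intro m hm n hn
    apply f.injective
    apply Subtype.ext
    simp only [mem_ofPred_eq] at hm hn
    rw [hm, hn])
  refine ⟨τ, hτ, fun ε hε => ?_⟩
  obtain ⟨N, hN⟩ := (Metric.tendsto_atTop.1 hlim) ε hε
  exact ⟨_, (f (φ N)).2, hN N le_rfl⟩

/-! ### superlevel sets are connected -/

/-- component in `A` -/
abbrev cc (A : Set s.G) (x : s.G) : Set s.G := FC.comp s.S A x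


theorem cc_sub {A : Set s.G} {x : s.G} : cc A x ⊆ A := fun _ h => h.1

theorem cc_step {A : Set s.G} {x y z : s.G} (hy : y ∈ cc A x) (hz : z ∈ A) (h : Adj s.S y z) :
    z ∈ cc A x := (FC.isPiece_comp x).2 y z hy hz h

theorem self_cc {A : Set s.G} {x : s.G} (hx : x ∈ A) : x ∈ cc A x := FC.mem_comp_self hx

/-- a connected subset of `A` meeting the component is in the component -/
theorem sub_cc {A Y : Set s.G} (hY : Conn s.S Y) (hYA : Y ⊆ A) {x y z : s.G} (hy : y ∈ Y)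
    (hyx : y ∈ cc A x) (hz : z ∈ Y) : z ∈ cc A x := by
  have h := hY y hy z hz
  refine ⟨hYA hz, hyx.2.trans ?_⟩
  exact FC.rtg_map id (fun a b h => ⟨hYA h.2.1, hYA h.2.2, h.1⟩) h

theorem acc_point (hL : PLim s) {η : s.Z} {C : Set s.Z} (hC : Clp s.ι η C) {c : ℝ}
    (hc0 : 0 < c) (hc1 : c < 1) {x : s.G} (hx : c ≤ hh s.ν C x) :
    ∃ θ ∈ C, ∀ ε : ℝ, 0 < ε → ∃ y ∈ cc {x | c ≤ hh s.ν C x} x, dist (s.ι y) θ < ε := by
  classical
  set A : Set s.G := {x | c ≤ hh s.ν C x} with hA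
  set Y : Set s.G := cc A x with hY
  by_contra hcon
  push Not at hcon
  set u : s.G → ℝ := fun y => if y ∈ Y then hh s.ν C y - c else 0 with hu
  have hxY : x ∈ Y := self_cc hx
  have hYc : ∀ y ∈ Y, c ≤ hh s.ν C y := fun y hy => cc_sub hy
  have hu0 : ∀ y, 0 ≤ u y := by
    intro y
    simp only [hu]
    split_ifs with h
    · have := hYc y h; linarith
    · exact le_rfl
  have hub : ∀ y, u y ≤ 1 := by
    intro y
    simp only [hu]
    split_ifs with h
    · have := s.hh_le_one C y; linarith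
    · exact zero_le_one
  have hge : ∀ y z, y ∈ Y → Adj s.S y z → hh s.ν C z - c ≤ u z := by
    intro y z hy hyz
    simp only [hu]
    split_ifs with h
    · exact le_rfl
    · have : ¬ c ≤ hh s.ν C z := fun hz => h (cc_step hy hz hyz)
      linarith
  have hsub : ∀ y, u y ≤ Pop s.S u y := by
    intro y
    by_cases hy : y ∈ Y
    · have h1 : u y = Pop s.S (fun z => hh s.ν C z - c) y := by
        rw [pop_sub, pop_const, ← hh_harm hC.meas]
        simp only [hu, if_pos hy]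
      rw [h1]
      exact pop_mono fun z hz => hge y z hy hz
    · have h1 : u y = 0 := by simp only [hu, if_neg hy]
      rw [h1]
      have := pop_mono (s := s) (u := fun _ => (0 : ℝ)) (v := u) (x := y) (fun z _ => hu0 z)
      rwa [pop_const] at this
  have hfin : ∀ ε : ℝ, 0 < ε → ∀ r : ℝ, 0 < r → {x | ε ≤ u x ∧ r ≤ dist (s.ι x) η}.Finite := by
    intro ε hε r hr
    by_contra hinf
    obtain ⟨θ, hθ, hacc⟩ := exists_acc hinf
    have hmem : ∀ y, ε ≤ u y → y ∈ Y := by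
      intro y hy
      by_contra hyY
      simp only [hu, if_neg hyY] at hy
      linarith
    have hne : θ ≠ η := by
      rintro rfl
      obtain ⟨y, hy, hd⟩ := hacc r hr
      exact absurd hd (not_lt.2 hy.2)
    have hθC : θ ∉ C := by
      intro hθC
      obtain ⟨e, he, h⟩ := hcon θ hθC
      obtain ⟨y, hy, hd⟩ := hacc e he
      exact absurd hd (not_lt.2 (h y (hmem y hy.1)))
    obtain ⟨δ, hδ, h⟩ := (hL η C hC c hc0).2 θ ⟨hθ, hne, hθC⟩
    obtain ⟨y, hy, hd⟩ := hacc δ hδ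
    exact absurd (h y hd) (not_lt.2 (hYc y (hmem y hy.1)))
  have hle := sub_nonpos hsub hub hfin
  have heq : ∀ y ∈ Y, hh s.ν C y = c := by
    intro y hy
    refine le_antisymm ?_ (hYc y hy)
    have := hle y
    simp only [hu, if_pos hy] at this
    linarith
  have hnb : ∀ y z, y ∈ Y → Adj s.S y z → z ∈ Y := by
    intro y z hy hyz
    have h1 : hh s.ν C z = c := by
      refine eq_of_avg (v := hh s.ν C) (x := y) (by rw [← hh_harm hC.meas, heq y hy]) ?_ hyz
      intro w hw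
      by_cases hwY : w ∈ Y
      · exact (heq w hwY).le
      · have : ¬ c ≤ hh s.ν C w := fun h => hwY (cc_step hy h hw)
        linarith
    exact cc_step hy (show c ≤ hh s.ν C z from h1.ge) hyz
  have hall : ∀ y, y ∈ Y := fun y => closed_univ (P := fun y => y ∈ Y) hnb hxY y
  -- `C` is nonempty
  have hne : C.Nonempty := by
    by_contra hC0
    rw [not_nonempty_iff_eq_empty] at hC0
    rw [hC0] at hx
    have : hh s.ν (∅ : Set s.Z) x = 0 := by simp [hh]
    linarith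
  obtain ⟨θ, hθ⟩ := hne
  obtain ⟨δ, hδ, h⟩ := (hL η C hC (1 - c) (by linarith)).1 θ hθ
  obtain ⟨y, hy⟩ := s.exists_near θ hδ
  have := h y hy
  rw [heq y (hall y)] at this
  linarith

/-- near a point of `C` all vertices are in one connected subset of the superlevel set -/
theorem local_conn (hL : PLim s) {η : s.Z} {C : Set s.Z} (hC : Clp s.ι η C) {c : ℝ}
    (hc1 : c < 1) {θ : s.Z} (hθ : θ ∈ C) :
    ∃ Y : Set s.G, Conn s.S Y ∧ Y ⊆ {x | c ≤ hh s.ν C x} ∧
      ∃ δ : ℝ, 0 < δ ∧ ∀ x, dist (s.ι x) θ < δ → x ∈ Y := by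
  obtain ⟨δ, hδ, h⟩ := (hL η C hC (1 - c) (by linarith)).1 θ hθ
  obtain ⟨Y, hY, hYd, hY'⟩ := s.bdry.lc θ (hC.sub hθ) δ hδ
  refine ⟨Y, hY, fun y hy => ?_, hY'⟩
  have := h y (hYd y hy)
  simp only [mem_ofPred_eq]
  linarith

/-- **superlevel sets of the mass of a component are connected** -/
theorem conn_super (hL : PLim s) {η : s.Z} {C : Set s.Z} (hC : Clp s.ι η C)
    (hq : ∀ U, Clp s.ι η U → U ⊆ C → U.Nonempty → C ⊆ U) {c : ℝ}
    (hc0 : 0 < c) (hc1 : c < 1) : Conn s.S {x | c ≤ hh s.ν C x} := by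
  classical
  set A : Set s.G := {x | c ≤ hh s.ν C x} with hA
  -- the points of `C` accumulated by the component of `x`
  have hacc : ∀ x ∈ A, ∀ θ ∈ C, ∀ ε : ℝ, 0 < ε → ∃ y ∈ cc A x, dist (s.ι y) θ < ε := by
    intro x hx
    set U : Set s.Z := {θ | θ ∈ C ∧ ∀ ε : ℝ, 0 < ε → ∃ y ∈ cc A x, dist (s.ι y) θ < ε} with hU
    have hUC : U ⊆ C := fun z hz => hz.1
    -- dichotomy near a point of `C`
    have hdich : ∀ θ ∈ C, ∃ δ : ℝ, 0 < δ ∧ ∀ θ' ∈ T s.ι, dist θ' θ < δ →
        (θ' ∈ C ∧ (θ' ∈ U ↔ θ ∈ U)) := by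
      intro θ hθ
      obtain ⟨Y, hY, hYA, δ, hδ, hδY⟩ := local_conn hL hC hc1 hθ
      obtain ⟨δ', hδ', hδC⟩ := (ro_iff.1 hC.ro).2 θ hθ
      have hiff : θ ∈ U ↔ ∀ z ∈ Y, z ∈ cc A x := by
        constructor
        · intro h z hz
          obtain ⟨y, hy, hyd⟩ := h.2 δ hδ
          exact sub_cc hY hYA (hδY y hyd) hy hz
        · intro h
          refine ⟨hθ, fun ε hε => ?_⟩
          obtain ⟨y, hy⟩ := s.exists_near θ (lt_min hε hδ)
          exact ⟨y, h y (hδY y (hy.trans_le (min_le_right _ _))), hy.trans_le (min_le_left _ _)⟩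
      refine ⟨min δ δ', lt_min hδ hδ', fun θ' hθ'T hd => ?_⟩
      have hθ'C : θ' ∈ C := hδC θ' hθ'T (hd.trans_le (min_le_right _ _))
      have hd1 : dist θ' θ < δ := hd.trans_le (min_le_left _ _)
      refine ⟨hθ'C, ?_⟩
      constructor
      · intro h
        rw [hiff]
        intro z hz
        obtain ⟨y, hy, hyd⟩ := h.2 (δ - dist θ' θ) (by linarith)
        have : dist (s.ι y) θ < δ := by
          have := dist_triangle (s.ι y) θ' θ
          linarith
        exact sub_cc hY hYA (hδY y this) hy hz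
      · intro h
        rw [hiff] at h
        refine ⟨hθ'C, fun ε hε => ?_⟩
        obtain ⟨y, hy⟩ := s.exists_near θ' (ε := min ε (δ - dist θ' θ)) (lt_min hε (by linarith))
        have h1 := hy.trans_le (min_le_left _ _)
        have h2 := hy.trans_le (min_le_right _ _)
        have h3 : dist (s.ι y) θ < δ := by
          have := dist_triangle (s.ι y) θ' θ
          linarith
        exact ⟨y, h y (hδY y h3), h1⟩
    have hUro : RO s.ι U := by
      rw [ro_iff]
      refine ⟨hUC.trans hC.sub, fun θ hθ => ?_⟩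
      obtain ⟨δ, hδ, h⟩ := hdich θ (hUC hθ)
      exact ⟨δ, hδ, fun θ' hθ' hd => (h θ' hθ' hd).2.2 hθ⟩
    have hUro' : RO s.ι (cmp s.ι η U) := by
      have h1 : RO s.ι (C \ U) := by
        rw [ro_iff]
        refine ⟨fun z hz => hC.sub hz.1, fun θ hθ => ?_⟩
        obtain ⟨δ, hδ, h⟩ := hdich θ hθ.1
        refine ⟨δ, hδ, fun θ' hθ' hd => ?_⟩
        obtain ⟨h1, h2⟩ := h θ' hθ' hd
        exact ⟨h1, fun h3 => hθ.2 (h2.1 h3)⟩
      have h2 : cmp s.ι η U = cmp s.ι η C ∪ (C \ U) := by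
        ext z
        constructor
        · rintro ⟨h1, h2, h3⟩
          by_cases hz : z ∈ C
          · exact Or.inr ⟨hz, h3⟩
          · exact Or.inl ⟨h1, h2, hz⟩
        · rintro (⟨h1, h2, h3⟩ | ⟨h1, h2⟩)
          · exact ⟨h1, h2, fun h => h3 (hUC h)⟩
          · exact ⟨hC.sub h1, fun h => hC.notMem (h ▸ h1), h2⟩
      rw [h2]
      exact hC.ro'.union h1
    have hUclp : Clp s.ι η U := ⟨hC.mem, fun h => hC.notMem (hUC h), hUro, hUro'⟩
    have hUne : U.Nonempty := by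
      obtain ⟨θ, hθ, h⟩ := acc_point hL hC hc0 hc1 hx
      exact ⟨θ, hθ, h⟩
    have := hq U hUclp hUC hUne
    intro θ hθ
    exact (this hθ).2
  intro x hx y hy
  obtain ⟨θ, hθ, -⟩ := acc_point hL hC hc0 hc1 hx
  obtain ⟨Y, hY, hYA, δ, hδ, hδY⟩ := local_conn hL hC hc1 hθ
  obtain ⟨x', hx', hxd⟩ := hacc x hx θ hθ δ hδ
  obtain ⟨y', hy', hyd⟩ := hacc y hy θ hθ δ hδ
  have h1 : y' ∈ cc A x := sub_cc hY hYA (hδY x' hxd) hx' (hδY y' hyd)
  have h2 : Relation.ReflTransGen (FC.adjIn s.S A) x y :=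
    h1.2.trans (FC.rtg_adjIn_symm s.top.toStd hy'.2)
  exact FC.rtg_cst_iff.2 h2

end Crest.Agent.R224.XB1
end
end

-- ▼ part R224/XB2
section

set_option autoImplicit false

noncomputable section

open MeasureTheory Set Filter Topology

namespace Crest.Agent.R224.XB2

variable {s : Sys} {a b : s.Z}

theorem rtg_mono {α : Type*} {r p : α → α → Prop} (hrp : ∀ u v, r u v → p u v) {x y : α}
    (h : Relation.ReflTransGen r x y) : Relation.ReflTransGen p x y := by
  induction h with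
  | refl => exact .refl
  | tail _ h2 ih => exact ih.tail (hrp _ _ h2)

/-- reachability inside a set, steps in `S` -/
def R1 (s : Sys) (Y : Set s.G) (x y : s.G) : Prop :=
  Relation.ReflTransGen (fun a b => Adj s.S a b ∧ a ∈ Y ∧ b ∈ Y) x y

theorem R1.path2 {Y : Set s.G} {x y : s.G} (h : R1 s Y x y) : s.Path2 Y x y := by
  unfold R1 at h
  unfold Sys.Path2
  refine rtg_mono ?_ h
  rintro u v ⟨h1, h2, h3⟩
  exact ⟨⟨u⁻¹ * v, h1, 1, s.top.one, by group⟩, h2, h3⟩

theorem R1.mono {Y Y' : Set s.G} (hY : Y ⊆ Y') {x y : s.G} (h : R1 s Y x y) : R1 s Y' x y := by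
  unfold R1 at *
  exact rtg_mono (fun u v h => ⟨h.1, hY h.2.1, hY h.2.2⟩) h

theorem R1.symm {Y : Set s.G} {x y : s.G} (h : R1 s Y x y) : R1 s Y y x := by
  unfold R1 at *
  induction h with
  | refl => exact .refl
  | tail _ h2 ih => exact ih.head ⟨s.adj_symm h2.1, h2.2.2, h2.2.1⟩

theorem R1.trans {Y : Set s.G} {x y z : s.G} (h : R1 s Y x y) (h' : R1 s Y y z) : R1 s Y x z :=
  Relation.ReflTransGen.trans h h'

theorem R1.mem {Y : Set s.G} {x y : s.G} (h : R1 s Y x y) (hx : x ∈ Y) : y ∈ Y := by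
  unfold R1 at h
  induction h with
  | refl => exact hx
  | tail _ h2 _ => exact h2.2.2

/-- first exit of a path from a set -/
theorem first_exit {α : Type*} {r : α → α → Prop} {P : α → Prop} {x y : α}
    (h : Relation.ReflTransGen r x y) (hx : P x) :
    (Relation.ReflTransGen (fun u v => r u v ∧ P u ∧ P v) x y ∧ P y) ∨
    ∃ c d, Relation.ReflTransGen (fun u v => r u v ∧ P u ∧ P v) x c ∧ r c d ∧ P c ∧ ¬ P d := by
  induction h with
  | refl => exact Or.inl ⟨.refl, hx⟩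
  | @tail c d h1 h2 ih =>
    rcases ih with ⟨ih1, ih2⟩ | ih
    · by_cases hd : P d
      · exact Or.inl ⟨ih1.tail ⟨h2, ih2, hd⟩, hd⟩
      · exact Or.inr ⟨c, d, ih1, h2, ih2, hd⟩
    · exact Or.inr ih

theorem nb_finite (k : s.G) : {y | Adj s.S k y}.Finite := by
  have : {y | Adj s.S k y} ⊆ (fun u => k * u) '' (s.S : Set s.G) := by
    intro y hy
    exact ⟨k⁻¹ * y, hy, by simp⟩
  exact (s.S.finite_toSet.image _).subset this

theorem comp_eq {A : Set s.G} {v y : s.G} (hy : y ∈ FC.comp s.S A v) :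
    FC.comp s.S A y = FC.comp s.S A v := by
  ext z
  constructor
  · rintro ⟨h1, h2⟩
    exact ⟨h1, hy.2.trans h2⟩
  · rintro ⟨h1, h2⟩
    exact ⟨h1, (FC.rtg_adjIn_symm s.top.toStd hy.2).trans h2⟩

/-- in an infinite piece of balanced vertices there are vertices near the cut point -/
theorem near_of_infinite (hB : PBal s) {η : s.Z} {U : Set s.Z} (hU : Clp s.ι η U) {P : Set s.G}
    (hP : P.Infinite) {c : ℝ} (hc : 0 < c) (hPB : P ⊆ Bal s.ν c U) {δ : ℝ} (hδ : 0 < δ) :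
    ∃ x ∈ P, dist (s.ι x) η < δ := by
  by_contra hcon
  push Not at hcon
  exact hP ((hB η U hU c δ hc hδ).subset fun x hx => ⟨hPB hx, hcon x hx⟩)

/-- balanced vertices of `U` stay away from a point `θ ≠ η` -/
theorem ball_of_ne (hB : PBal s) {η : s.Z} {U : Set s.Z} (hU : Clp s.ι η U) {c : ℝ} (hc : 0 < c)
    {θ : s.Z} (hθ : θ ∈ T s.ι) (hne : η ≠ θ) :
    ∃ r > 0, ∀ x, dist (s.ι x) θ < r → x ∉ Bal s.ν c U := by
  have hd : 0 < dist η θ / 2 := half_pos (dist_pos.2 hne)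
  obtain ⟨r, hr, h⟩ := s.exists_ball_notMem hθ (hB η U hU c _ hc hd)
  refine ⟨min r (dist η θ / 2), lt_min hr hd, fun x hx hxB => ?_⟩
  refine h x (hx.trans_le (min_le_left _ _)) ⟨hxB, ?_⟩
  have h1 := hx.trans_le (min_le_right r (dist η θ / 2))
  have h2 := dist_triangle η (s.ι x) θ
  rw [dist_comm η (s.ι x)] at h2
  linarith

/-- the case `η = θ` -/
theorem entry_self (hP : NPart s) (hB : PBal s) (hu : Unsep s.ι a b)
    {θ : s.Z} (h1 : IsCut s.ι θ) (h2 : θ ∈ Blk s.ι a b)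
    (hob : ∀ v ∈ Ob s a b θ, Conn s.S (ob s.S (FC.comp s.S (Ob s a b θ) v)))
    {ε : ℝ} (hε : 0 < ε) :
    ∃ r > 0, ∀ v ∈ Ob s a b θ, ∀ z ∈ ob s.S (FC.comp s.S (Ob s a b θ) v), dist (s.ι z) θ < r →
      (∀ w ∈ ob s.S (FC.comp s.S (Ob s a b θ) v), dist (s.ι w) θ < ε) ∨
      ∀ δ : ℝ, 0 < δ → ∃ x', dist (s.ι x') θ < δ ∧
        R1 s (XB s.ι s.ν a b s.c0 ∩ {y | dist (s.ι y) θ < ε}) z x' := by
  classical
  have hclp := Dn_clp hP hu h1 h2
  have hc0 := c0_pos s
  set A := Ob s a b θ with hA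
  set K0 : Set s.G := {x | x ∈ Bal s.ν s.c0 (Dn s.ι a b θ) ∧ ε ≤ dist (s.ι x) θ} with hK0
  have hK0f : K0.Finite := hB θ _ hclp s.c0 ε hc0 hε
  -- the set of neighbours
  set N : Set s.G := ⋃ k ∈ K0, {y | Adj s.S k y} with hN
  have hNf : N.Finite := hK0f.biUnion fun k _ => nb_finite k
  let P : s.G → s.G → Set s.G := fun y w => FC.comp s.S (ob s.S (FC.comp s.S A y) \ K0) w
  let F : Set s.G := ⋃ y ∈ N, ⋃ w ∈ N, (if (P y w).Finite then P y w else ∅)
  have hFf : F.Finite := by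
    refine hNf.biUnion fun y _ => hNf.biUnion fun w _ => ?_
    split_ifs with h
    · exact h
    · exact finite_empty
  obtain ⟨r, hr, hr'⟩ := s.exists_ball_notMem (Blk_sub h2) hFf
  refine ⟨min r ε, lt_min hr hε, fun v hv z hz hzd => ?_⟩
  set L := ob s.S (FC.comp s.S A v) with hL
  have hLB : L ⊆ Bal s.ν s.c0 (Dn s.ι a b θ) := ob_sub_Bal hP hu h1 h2 v
  have hLX : L ⊆ XB s.ι s.ν a b s.c0 := ob_sub_XB hP hu h1 h2 v
  have hzK : z ∉ K0 := fun h => absurd (hzd.trans_le (min_le_right _ _)) (not_lt.2 h.2)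
  by_cases hLK : ∀ w ∈ L, w ∉ K0
  · left
    intro w hw
    by_contra hcon
    exact hLK w hw ⟨hLB hw, not_lt.1 hcon⟩
  · right
    push Not at hLK
    obtain ⟨k, hkL, hkK⟩ := hLK
    -- `k` has a neighbour in the component
    obtain ⟨y, hy, hyk⟩ := hkL.2
    have hyN : y ∈ N := by
      simp only [hN, mem_iUnion, mem_ofPred_eq, exists_prop]
      exact ⟨k, hkK, s.adj_symm hyk⟩
    have hLy : ob s.S (FC.comp s.S A y) = L := by rw [comp_eq hy]
    -- path in `L` from `z` to `k`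
    have hpath := hob v hv z hz k hkL
    rcases first_exit (P := fun u => u ∉ K0) hpath hzK with h | ⟨c, d, h3, h4, h5, h6⟩
    · exact absurd hkK h.2
    · have h6' : d ∈ K0 := not_not.1 h6
      have hcN : c ∈ N := by
        simp only [hN, mem_iUnion, mem_ofPred_eq, exists_prop]
        exact ⟨d, h6', s.adj_symm h4.1⟩
      have hR : Relation.ReflTransGen (FC.adjIn s.S (L \ K0)) z c := by
        refine rtg_mono ?_ h3
        rintro u v' ⟨⟨k1, k2, k3⟩, k4, k5⟩
        exact ⟨⟨k2, k4⟩, ⟨k3, k5⟩, k1⟩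
      have hzP : z ∈ P y c := by
        show z ∈ FC.comp s.S (ob s.S (FC.comp s.S A y) \ K0) c
        rw [hLy]
        exact ⟨⟨hz, hzK⟩, FC.rtg_adjIn_symm s.top.toStd hR⟩
      have hPinf : (P y c).Infinite := by
        intro hfin
        refine hr' z (hzd.trans_le (min_le_left _ _)) ?_
        simp only [F, mem_iUnion, exists_prop]
        refine ⟨y, hyN, c, hcN, ?_⟩
        rw [if_pos hfin]
        exact hzP
      have hPsub : P y c ⊆ L \ K0 := by
        intro w hw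
        have : w ∈ FC.comp s.S (ob s.S (FC.comp s.S A y) \ K0) c := hw
        rw [hLy] at this
        exact this.1
      intro δ hδ
      obtain ⟨x', hx', hd'⟩ := near_of_infinite hB hclp hPinf hc0
        (fun w hw => hLB (hPsub hw).1) hδ
      refine ⟨x', hd', ?_⟩
      have hx'' : x' ∈ FC.comp s.S (L \ K0) c := by
        have : x' ∈ FC.comp s.S (ob s.S (FC.comp s.S A y) \ K0) c := hx'
        rwa [hLy] at this
      have hR2 : Relation.ReflTransGen (FC.adjIn s.S (L \ K0)) z x' := hR.trans hx''.2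
      unfold R1
      refine rtg_mono ?_ hR2
      rintro u v' ⟨⟨k1, k2⟩, ⟨k3, k4⟩, k5⟩
      refine ⟨k5, ⟨hLX k1, ?_⟩, hLX k3, ?_⟩
      · by_contra hcon
        exact k2 ⟨hLB k1, not_lt.1 hcon⟩
      · by_contra hcon
        exact k4 ⟨hLB k3, not_lt.1 hcon⟩

/-- entry lemma -/
theorem entry (hP : NPart s) (hN : NNull s) (hB : PBal s) (hO : NOpen s) (hu : Unsep s.ι a b)
    (hob : ∀ η, IsCut s.ι η → η ∈ Blk s.ι a b → ∀ v ∈ Ob s a b η,
      Conn s.S (ob s.S (FC.comp s.S (Ob s a b η) v)))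
    {θ : s.Z} (hθ : θ ∈ Blk s.ι a b) {ε : ℝ} (hε : 0 < ε) :
    ∃ r > 0, ∀ η, IsCut s.ι η → η ∈ Blk s.ι a b → ∀ v ∈ Ob s a b η,
      ∀ z ∈ ob s.S (FC.comp s.S (Ob s a b η) v), dist (s.ι z) θ < r →
      (∀ w ∈ ob s.S (FC.comp s.S (Ob s a b η) v), dist (s.ι w) θ < ε) ∨
      ∀ δ : ℝ, 0 < δ → ∃ x', dist (s.ι x') θ < δ ∧
        R1 s (XB s.ι s.ν a b s.c0 ∩ {y | dist (s.ι y) θ < ε}) z x' := by
  classical
  have hc0 := c0_pos s
  -- exceptional cut points
  set E : Set s.Z := {η | IsCut s.ι η ∧ η ∈ Blk s.ι a b ∧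
    ∃ x ∈ Bal s.ν s.c0 (Dn s.ι a b η), ∃ x' ∈ Bal s.ν s.c0 (Dn s.ι a b η),
      ε / 2 ≤ dist (s.ι x) (s.ι x')} with hE
  have hEf : E.Finite := by
    have h := hN s.c0 (ε / 2) hc0 (half_pos hε)
    refine (h.image Prod.fst).subset ?_
    rintro η ⟨h1, h2, x, hx, x', hx', hd⟩
    rw [Bal_sel hO hu (Blk_sub h2)] at hx hx'
    exact ⟨(η, sel s.ι a b η), ⟨sel_pair hu h1, x, hx, x', hx', hd⟩, rfl⟩
  -- radii for the exceptional cut points
  have key : ∀ η ∈ E, ∃ r > 0, ∀ v ∈ Ob s a b η,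
      ∀ z ∈ ob s.S (FC.comp s.S (Ob s a b η) v), dist (s.ι z) θ < r →
      (∀ w ∈ ob s.S (FC.comp s.S (Ob s a b η) v), dist (s.ι w) θ < ε) ∨
      ∀ δ : ℝ, 0 < δ → ∃ x', dist (s.ι x') θ < δ ∧
        R1 s (XB s.ι s.ν a b s.c0 ∩ {y | dist (s.ι y) θ < ε}) z x' := by
    rintro η ⟨h1, h2, -⟩
    by_cases hne : η = θ
    · subst hne
      exact entry_self hP hB hu h1 h2 (hob _ h1 h2) hε
    · obtain ⟨r, hr, h⟩ := ball_of_ne hB (Dn_clp hP hu h1 h2) hc0 (Blk_sub hθ) hne
      exact ⟨r, hr, fun v _ z hz hd => absurd (ob_sub_Bal hP hu h1 h2 v hz) (h z hd)⟩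
  choose! r hr h using key
  obtain ⟨r0, hr0, hr0'⟩ : ∃ r0 > 0, ∀ η ∈ E, r0 ≤ r η := by
    rcases E.eq_empty_or_nonempty with h0 | hne
    · exact ⟨1, one_pos, fun η hη => by rw [h0] at hη; exact absurd hη (notMem_empty _)⟩
    · obtain ⟨η0, h0, hmin⟩ := hEf.exists_minimalFor r E hne
      refine ⟨r η0, hr η0 h0, fun η hη => ?_⟩
      by_contra hcon
      push Not at hcon
      exact absurd (hmin hη hcon.le) (not_le.2 hcon)
  refine ⟨min r0 (ε / 2), lt_min hr0 (half_pos hε), fun η h1 h2 v hv z hz hzd => ?_⟩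
  by_cases hηE : η ∈ E
  · exact h η hηE v hv z hz ((hzd.trans_le (min_le_left _ _)).trans_le (hr0' η hηE))
  · left
    intro w hw
    have hzB := ob_sub_Bal hP hu h1 h2 v hz
    have hwB := ob_sub_Bal hP hu h1 h2 v hw
    have hd : dist (s.ι w) (s.ι z) < ε / 2 := by
      by_contra hcon
      exact hηE ⟨h1, h2, w, hwB, z, hzB, not_lt.1 hcon⟩
    have h3 := dist_triangle (s.ι w) (s.ι z) θ
    have h4 := hzd.trans_le (min_le_right r0 (ε / 2))
    linarith

/-- **clause (3) of NXB** -/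
theorem loc (hP : NPart s) (hN : NNull s) (hB : PBal s) (hO : NOpen s) (hu : Unsep s.ι a b)
    (hob : ∀ η, IsCut s.ι η → η ∈ Blk s.ι a b → ∀ v ∈ Ob s a b η,
      Conn s.S (ob s.S (FC.comp s.S (Ob s a b η) v)))
    (hacc : ∀ θ ∈ Blk s.ι a b, ∀ ε : ℝ, 0 < ε →
      ∃ x ∈ XB s.ι s.ν a b s.c0, dist (s.ι x) θ < ε) :
    ∀ θ ∈ Blk s.ι a b, ∀ ε : ℝ, 0 < ε → ∃ δ : ℝ, 0 < δ ∧ ∀ x ∈ XB s.ι s.ν a b s.c0,
      dist (s.ι x) θ < δ → ∀ δ' : ℝ, 0 < δ' → ∃ x', dist (s.ι x') θ < δ' ∧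
        s.Path2 (XB s.ι s.ν a b s.c0 ∩ {y | dist (s.ι y) θ < ε}) x x' := by
  intro θ hθ ε hε
  obtain ⟨r, hr, hent⟩ := entry hP hN hB hO hu hob hθ hε
  obtain ⟨Y0, hY0, hY0r, δ0, hδ0, hY0n⟩ := s.bdry.lc θ (Blk_sub hθ) (min r ε) (lt_min hr hε)
  refine ⟨δ0, hδ0, fun x hx hxd δ' hδ' => ?_⟩
  set W := XB s.ι s.ν a b s.c0 ∩ {y | dist (s.ι y) θ < ε} with hW
  suffices hgoal : ∃ x', dist (s.ι x') θ < δ' ∧ R1 s W x x' by
    obtain ⟨x', h1, h2⟩ := hgoal
    exact ⟨x', h1, h2.path2⟩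
  by_contra hno
  push Not at hno
  obtain ⟨x1, hx1, hx1d⟩ := hacc θ hθ (min δ' δ0) (lt_min hδ' hδ0)
  have hpath := hY0 x (hY0n x hxd) x1 (hY0n x1 (hx1d.trans_le (min_le_right _ _)))
  have hYW : ∀ z ∈ Y0, z ∈ XB s.ι s.ν a b s.c0 → z ∈ W := fun z hz hzX =>
    ⟨hzX, (hY0r z hz).trans_le (min_le_right _ _)⟩
  have inv : ∀ z, Relation.ReflTransGen (fun a b => Adj s.S a b ∧ a ∈ Y0 ∧ b ∈ Y0) x z →
      (z ∈ XB s.ι s.ν a b s.c0 → R1 s W x z) ∧
      ∀ η, IsCut s.ι η → η ∈ Blk s.ι a b → z ∈ Ob s a b η →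
        ∀ w ∈ ob s.S (FC.comp s.S (Ob s a b η) z), R1 s W x w := by
    intro z hz
    induction hz with
    | refl =>
      refine ⟨fun _ => .refl, fun η h1 h2 h3 => ?_⟩
      exact absurd h3 (mem_XB.1 hx η h1 h2)
    | @tail z z' _ hst ih =>
      obtain ⟨hadj, hzY, hz'Y⟩ := hst
      obtain ⟨ih1, ih2⟩ := ih
      constructor
      · intro hz'X
        by_cases hzX : z ∈ XB s.ι s.ν a b s.c0
        · exact (ih1 hzX).tail ⟨hadj, hYW z hzY hzX, hYW z' hz'Y hz'X⟩
        · obtain ⟨η, h1, h2, h3⟩ := not_mem_XB.1 hzX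
          refine ih2 η h1 h2 h3 z' ⟨fun h => mem_XB.1 hz'X η h1 h2 h.1, z, ?_, hadj⟩
          exact FC.mem_comp_self h3
      · intro η h1 h2 h3 w hw
        by_cases hzX : z ∈ XB s.ι s.ν a b s.c0
        · have hzob : z ∈ ob s.S (FC.comp s.S (Ob s a b η) z') :=
            ⟨fun h => mem_XB.1 hzX η h1 h2 h.1, z', FC.mem_comp_self h3, s.adj_symm hadj⟩
          rcases hent η h1 h2 z' h3 z hzob
            ((hY0r z hzY).trans_le (min_le_left _ _)) with h | h
          · have hc : R1 s (ob s.S (FC.comp s.S (Ob s a b η) z')) z w :=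
              hob η h1 h2 z' h3 z hzob w hw
            have hsub : ob s.S (FC.comp s.S (Ob s a b η) z') ⊆ W := fun u hu' =>
              ⟨ob_sub_XB hP hu h1 h2 z' hu', h u hu'⟩
            exact (ih1 hzX).trans (R1.mono hsub hc)
          · obtain ⟨x', h4, h5⟩ := h δ' hδ'
            exact absurd ((ih1 hzX).trans h5) (hno x' h4)
        · obtain ⟨η', h1', h2', h3'⟩ := not_mem_XB.1 hzX
          have he := eq_of_adj hP hu h1' h2' h1 h2 hadj h3' h3
          subst he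
          refine ih2 η' h1' h2' h3' w ?_
          have : FC.comp s.S (Ob s a b η') z' = FC.comp s.S (Ob s a b η') z := by
            have hst' : FC.adjIn s.S (Ob s a b η') z z' := ⟨h3', h3, hadj⟩
            exact comp_eq ⟨h3, Relation.ReflTransGen.single hst'⟩
          rwa [this] at hw
  exact hno x1 (hx1d.trans_le (min_le_left _ _)) ((inv x1 hpath).1 hx1)

end Crest.Agent.R224.XB2
end
end

-- ▼ part R224/XB3
section

set_option autoImplicit false

noncomputable section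

open MeasureTheory Set Filter Topology

namespace Crest.Agent.R224.XB2

variable {s : Sys} {a b : s.Z}

theorem mem_sel_of_Blk {η z : s.Z} (hz : z ∈ Blk s.ι a b) (h1 : IsCut s.ι η) (hne : z ≠ η) :
    z ∈ sel s.ι a b η := (hz.2 η h1).resolve_left hne

theorem Dn_sel_disj {η z : s.Z} (hz : z ∈ sel s.ι a b η) : z ∉ Dn s.ι a b η := fun h => h.2.2 hz

theorem sel_nonempty (hu : Unsep s.ι a b) (η : s.Z) : (sel s.ι a b η).Nonempty := by
  obtain ⟨θ, h2, h3, h4⟩ := sel_eq hu (η := η)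
  rw [h4]
  exact ⟨θ, h2, h3, fun U _ h => h⟩

/-- **clause (2)** -/
theorem acc (hC : PConn s) (hL : PLim s) (hO : NOpen s) (hP : NPart s)
    (hu : Unsep s.ι a b) : ∀ θ ∈ Blk s.ι a b, ∀ ε : ℝ, 0 < ε →
      ∃ x ∈ XB s.ι s.ν a b s.c0, dist (s.ι x) θ < ε := by
  intro θ hθ ε hε
  by_contra hcon
  push Not at hcon
  obtain ⟨Y0, hY0, hY0r, δ0, hδ0, hY0n⟩ := s.bdry.lc θ (Blk_sub hθ) ε hε
  have hno : ∀ z ∈ Y0, z ∉ XB s.ι s.ν a b s.c0 := fun z hz hzX =>
    absurd (hY0r z hz) (not_lt.2 (hcon z hzX))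
  obtain ⟨x0, hx0⟩ := s.exists_near θ hδ0
  have hx0Y := hY0n x0 hx0
  obtain ⟨η, h1, h2, h3⟩ := not_mem_XB.1 (hno x0 hx0Y)
  have hall : ∀ z ∈ Y0, z ∈ Ob s a b η := by
    intro z hz
    have hpath := hY0 x0 hx0Y z hz
    clear hz
    induction hpath with
    | refl => exact h3
    | @tail z z' _ hst ih =>
      obtain ⟨hadj, hzY, hz'Y⟩ := hst
      obtain ⟨η', h1', h2', h3'⟩ := not_mem_XB.1 (hno z' hz'Y)
      have := eq_of_adj hP hu h1 h2 h1' h2' hadj ih h3'
      rwa [this]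
  have hz : ∃ z ∈ sel s.ι a b η, dist z θ < δ0 := by
    by_cases hne : θ = η
    · subst hne
      exact Blk.near_eta hC (sel_clp hO hu (Blk_sub hθ)) (sel_nonempty hu θ) hδ0
    · exact ⟨θ, mem_sel_of_Blk hθ h1 hne, by simpa using hδ0⟩
  obtain ⟨z, hz, hzd⟩ := hz
  have hzc : z ∈ cmp s.ι η (Dn s.ι a b η) := by
    have := sel_clp hO hu (Blk_sub h2)
    exact ⟨this.sub hz, fun h => this.notMem (h ▸ hz), Dn_sel_disj hz⟩
  obtain ⟨δ, hδ, hδ'⟩ := (hL η _ (Dn_clp hP hu h1 h2) (1 / 2) (by norm_num)).2 z hzc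
  obtain ⟨x, hx⟩ := s.exists_near z (lt_min hδ (sub_pos.2 hzd))
  have h4 := hδ' x (hx.trans_le (min_le_left _ _))
  have h5 : x ∈ Y0 := by
    refine hY0n x ?_
    have := dist_triangle (s.ι x) z θ
    have := hx.trans_le (min_le_right δ (δ0 - dist z θ))
    linarith
  have h6 := mem_Ob.1 (hall x h5)
  have h7 := c0_le s
  linarith

/-- **clause (1)** -/
theorem conn1 (hP : NPart s) (hu : Unsep s.ι a b)
    (hob : ∀ η, IsCut s.ι η → η ∈ Blk s.ι a b → ∀ v ∈ Ob s a b η,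
      Conn s.S (ob s.S (FC.comp s.S (Ob s a b η) v))) :
    ∀ x ∈ XB s.ι s.ν a b s.c0, ∀ y ∈ XB s.ι s.ν a b s.c0,
      s.Path2 (XB s.ι s.ν a b s.c0) x y := by
  intro x hx y hy
  have inv : ∀ z, Relation.ReflTransGen (fun a b => Adj s.S a b) x z →
      (z ∈ XB s.ι s.ν a b s.c0 → R1 s (XB s.ι s.ν a b s.c0) x z) ∧
      ∀ η, IsCut s.ι η → η ∈ Blk s.ι a b → z ∈ Ob s a b η →
        ∀ w ∈ ob s.S (FC.comp s.S (Ob s a b η) z), R1 s (XB s.ι s.ν a b s.c0) x w := by
    intro z hz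
    induction hz with
    | refl =>
      refine ⟨fun _ => .refl, fun η h1 h2 h3 => ?_⟩
      exact absurd h3 (mem_XB.1 hx η h1 h2)
    | @tail z z' _ hadj ih =>
      obtain ⟨ih1, ih2⟩ := ih
      constructor
      · intro hz'X
        by_cases hzX : z ∈ XB s.ι s.ν a b s.c0
        · exact (ih1 hzX).tail ⟨hadj, hzX, hz'X⟩
        · obtain ⟨η, h1, h2, h3⟩ := not_mem_XB.1 hzX
          refine ih2 η h1 h2 h3 z' ⟨fun h => mem_XB.1 hz'X η h1 h2 h.1, z, ?_, hadj⟩
          exact FC.mem_comp_self h3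
      · intro η h1 h2 h3 w hw
        by_cases hzX : z ∈ XB s.ι s.ν a b s.c0
        · have hzob : z ∈ ob s.S (FC.comp s.S (Ob s a b η) z') :=
            ⟨fun h => mem_XB.1 hzX η h1 h2 h.1, z', FC.mem_comp_self h3, s.adj_symm hadj⟩
          have hc : R1 s (ob s.S (FC.comp s.S (Ob s a b η) z')) z w :=
            hob η h1 h2 z' h3 z hzob w hw
          exact (ih1 hzX).trans (R1.mono (ob_sub_XB hP hu h1 h2 z') hc)
        · obtain ⟨η', h1', h2', h3'⟩ := not_mem_XB.1 hzX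
          have he := eq_of_adj hP hu h1' h2' h1 h2 hadj h3' h3
          subst he
          refine ih2 η' h1' h2' h3' w ?_
          have : FC.comp s.S (Ob s a b η') z' = FC.comp s.S (Ob s a b η') z := by
            have hst' : FC.adjIn s.S (Ob s a b η') z z' := ⟨h3', h3, hadj⟩
            exact comp_eq ⟨h3, Relation.ReflTransGen.single hst'⟩
          rwa [this] at hw
  exact ((inv y (s.conn_univ x y)).1 hy).path2

/-- **NXB** from the connectivity of the outer boundaries -/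
theorem nXB_of_hob (hC : PConn s) (hL : PLim s) (hB : PBal s) (hO : NOpen s) (hN : NNull s)
    (hP : NPart s)
    (hob : ∀ a b, Unsep s.ι a b → ∀ η, IsCut s.ι η → η ∈ Blk s.ι a b → ∀ v ∈ Ob s a b η,
      Conn s.S (ob s.S (FC.comp s.S (Ob s a b η) v))) : NXB s := by
  intro a b hu
  have hacc := acc hC hL hO hP hu
  exact ⟨conn1 hP hu (hob a b hu), hacc, loc hP hN hB hO hu (hob a b hu) hacc⟩

end Crest.Agent.R224.XB2
end
end

-- ▼ part R224/XB4
section

set_option autoImplicit false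

noncomputable section

open MeasureTheory Set Filter Topology Relation

namespace Crest.Agent.R224.XB4

open XB1 XB2

variable {s : Sys} {a b : s.Z}

/-- a component of `T \ {η}` has no proper clopen subset -/
theorem compo_quasi (hA : PAlg s) {η θ : s.Z} (hθ : θ ∈ T s.ι) (hne : θ ≠ η) :
    ∀ U, Clp s.ι η U → U ⊆ Compo s.ι η θ → U.Nonempty → Compo s.ι η θ ⊆ U := by
  intro U hU hUC hUn z hz
  by_cases h : θ ∈ U
  · exact hz.2.2 U hU h
  · exfalso
    obtain ⟨w, hw⟩ := hUn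
    have := (hUC hw).2.2 (cmp s.ι η U) (hA η U U hU hU).1 ⟨hθ, hne, h⟩
    exact this.2.2 hw

theorem low_conn (hA : PAlg s) (hL : PLim s) (hO : NOpen s) (hu : Unsep s.ι a b) {η : s.Z}
    (hη : η ∈ T s.ι) : Conn s.S (Ob s a b η)ᶜ := by
  obtain ⟨θ, h2, h3, h4⟩ := sel_eq hu (η := η)
  have hC : Clp s.ι η (sel s.ι a b η) := sel_clp hO hu hη
  have h5 := conn_super hL hC (c := s.c0) (by rw [h4]; exact compo_quasi hA h2 h3) (c0_pos s)
    (by have := c0_le s; linarith)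
  have he : (Ob s a b η)ᶜ = {x | s.c0 ≤ hh s.ν (sel s.ι a b η) x} := by
    ext x
    simp only [Ob, mem_compl_iff, mem_ofPred_eq, not_lt, hh_Dn hO hu hη]
    constructor <;> intro h <;> linarith
  rw [he]; exact h5

theorem low_nonempty (hL : PLim s) (hO : NOpen s) (hu : Unsep s.ι a b) {η : s.Z}
    (hη : η ∈ T s.ι) : ∃ x, x ∉ Ob s a b η := by
  obtain ⟨θ, h2, h3, h4⟩ := sel_eq hu (η := η)
  have hC : Clp s.ι η (sel s.ι a b η) := sel_clp hO hu hη
  have hθ : θ ∈ sel s.ι a b η := by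
    rw [h4]; exact ⟨h2, h3, fun _ _ h => h⟩
  obtain ⟨δ, hδ, h⟩ := (hL η _ hC (1 / 2) (by norm_num)).1 θ hθ
  obtain ⟨x, hx⟩ := s.exists_near θ hδ
  refine ⟨x, fun hxO => ?_⟩
  have h6 := mem_Ob.1 hxO
  rw [hh_Dn hO hu hη] at h6
  have h7 := c0_le s
  have h8 := h x hx
  linarith

theorem compl_conn (hA : PAlg s) (hL : PLim s) (hO : NOpen s) (hu : Unsep s.ι a b) {η : s.Z}
    (hη : η ∈ T s.ι) (v : s.G) : Conn s.S (FC.comp s.S (Ob s a b η) v)ᶜ := by
  have hlow := low_conn hA hL hO hu hη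
  obtain ⟨h0, hh0⟩ := low_nonempty hL hO hu hη
  have hAY : (Ob s a b η)ᶜ ⊆ (FC.comp s.S (Ob s a b η) v)ᶜ :=
    compl_subset_compl.2 (fun y h => h.1)
  have key : ∀ x ∈ (FC.comp s.S (Ob s a b η) v)ᶜ,
      ReflTransGen (FC.adjIn s.S (FC.comp s.S (Ob s a b η) v)ᶜ) x h0 := by
    intro x hx
    by_cases hxA : x ∈ Ob s a b η
    · obtain ⟨c, d, -, hcd, -, hc, hd⟩ := exists_step
        (P := fun z => z ∈ FC.comp s.S (Ob s a b η) x) (s.conn_univ x h0)
        (FC.mem_comp_self hxA) (fun h => hh0 h.1)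
      have hdA : d ∉ Ob s a b η := fun h => hd (cc_step hc h hcd)
      have h1 : ReflTransGen (FC.adjIn s.S (FC.comp s.S (Ob s a b η) x)) x c :=
        FC.conn_comp s.top.toStd x x (FC.mem_comp_self hxA) c hc
      have hsub : FC.comp s.S (Ob s a b η) x ⊆ (FC.comp s.S (Ob s a b η) v)ᶜ := by
        intro z hz hzY
        apply hx
        exact ⟨hxA, hzY.2.trans (FC.rtg_adjIn_symm s.top.toStd hz.2)⟩
      have h2 := FC.rtg_adjIn_mono hsub h1
      have h3 := FC.rtg_adjIn_mono hAY (FC.conn_iff.1 hlow d hdA h0 hh0)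
      exact (h2.tail ⟨hsub hc, hAY hdA, hcd⟩).trans h3
    · exact FC.rtg_adjIn_mono hAY (FC.conn_iff.1 hlow x hxA h0 hh0)
  rw [FC.conn_iff]
  intro x hx y hy
  exact (key x hx).trans (FC.rtg_adjIn_symm s.top.toStd (key y hy))

/-- outer boundaries of the components of `Ob η` are connected -/
theorem ob_conn (hA : PAlg s) (hL : PLim s) (hO : NOpen s) (hu : Unsep s.ι a b) {η : s.Z}
    (hη : η ∈ T s.ι) (v : s.G) : Conn s.S (ob s.S (FC.comp s.S (Ob s a b η) v)) := by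
  intro w hw w' hw'
  obtain ⟨hwY, y, hy, hyw⟩ := hw
  obtain ⟨hwY', y', hy', hyw'⟩ := hw'
  have h := FC.bd_conn s.top (FC.conn_iff.2 (FC.conn_comp s.top.toStd v))
    (compl_conn hA hL hO hu hη v) (y, w) ⟨hyw, hy, hwY⟩ (y', w') ⟨hyw', hy', hwY'⟩
  have key : ∀ e, ReflTransGen (fun a' b' => tstep s.S a' b' ∧
      a' ∈ bd s.S (FC.comp s.S (Ob s a b η) v) ∧ b' ∈ bd s.S (FC.comp s.S (Ob s a b η) v))
      (y, w) e → ReflTransGen (fun a' b' => Adj s.S a' b' ∧
      a' ∈ ob s.S (FC.comp s.S (Ob s a b η) v) ∧ b' ∈ ob s.S (FC.comp s.S (Ob s a b η) v))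
      w e.2 := by
    intro e he
    induction he with
    | refl => exact .refl
    | @tail e f _ h2 ih =>
      have he : e.2 ∈ ob s.S (FC.comp s.S (Ob s a b η) v) :=
        ⟨h2.2.1.2.2, e.1, h2.2.1.2.1, h2.2.1.1⟩
      have hf : f.2 ∈ ob s.S (FC.comp s.S (Ob s a b η) v) :=
        ⟨h2.2.2.2.2, f.1, h2.2.2.2.1, h2.2.2.1⟩
      rcases h2.1 with ⟨_, h⟩ | ⟨h, _⟩
      · exact ih.tail ⟨h, he, hf⟩
      · rw [← h]; exact ih
  exact key _ h

end Crest.Agent.R224.XB4

namespace Crest.Agent.R224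

/-- E8 -/
theorem nXB (s : Sys) (hC : PConn s) (hA : PAlg s) (hL : PLim s) (hB : PBal s) (hO : NOpen s)
    (hN : NNull s) (hP : NPart s) : NXB s :=
  XB2.nXB_of_hob hC hL hB hO hN hP fun _ _ hu _ _ h2 v _ => XB4.ob_conn hA hL hO hu h2.1 v

end Crest.Agent.R224
end
end

-- ▼ part R224/CutFam
section

set_option autoImplicit false
set_option linter.deprecated false

noncomputable section

open MeasureTheory Set Filter Topology

namespace Crest.Agent.R224

/-- a cut: a clopen subset `U` of `T \ {η}` -/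
structure CutP (s : Sys) where
  η : s.Z
  U : Set s.Z
  clp : Clp s.ι η U

theorem Sys.hh_pos_of_ro (s : Sys) {U : Set s.Z} (h : RO s.ι U) (hne : U.Nonempty) (x : s.G) :
    0 < hh s.ν U x := by
  obtain ⟨O, hO, rfl⟩ := h
  have h1 := s.harm.full x O hO hne
  have h2 : (s.ν x).real O ≤ (s.ν x).real (O ∩ T s.ι) + (s.ν x).real (T s.ι)ᶜ := by
    refine (measureReal_mono ?_).trans (measureReal_union_le _ _)
    intro z hz
    by_cases hT : z ∈ T s.ι
    · exact Or.inl ⟨hz, hT⟩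
    · exact Or.inr hT
  have h3 : (s.ν x).real (T s.ι)ᶜ = 0 := by
    simp [Measure.real, s.harm.supp x]
  rw [h3, add_zero] at h2
  exact lt_of_lt_of_le h1 h2

theorem Sys.hh_add_disj (s : Sys) {U V W : Set s.Z} (hV : MeasurableSet V)
    (hd : Disjoint U V) (hU : U ⊆ W) (hVW : V ⊆ W) (x : s.G) :
    hh s.ν U x + hh s.ν V x ≤ hh s.ν W x := by
  have h1 : (s.ν x).real (U ∪ V) = hh s.ν U x + hh s.ν V x := measureReal_union hd hV
  rw [← h1]
  exact measureReal_mono (union_subset hU hVW)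

namespace CutP

variable {s : Sys}

/-- the vertices on the majority side -/
def D (c : CutP s) : Set s.G := {x | 1 / 2 < hh s.ν c.U x}

/-- strict order of cuts -/
def Lt (c d : CutP s) : Prop := insert c.η c.U ⊆ d.U

theorem mem_D {c : CutP s} {x : s.G} : x ∈ c.D ↔ 1 / 2 < hh s.ν c.U x := Iff.rfl

theorem Lt.ne {c d : CutP s} (h : Lt c d) : c.η ≠ d.η := by
  intro he
  apply d.clp.notMem
  rw [← he]
  exact h (mem_insert _ _)

theorem Lt.trans {a b c : CutP s} (h : Lt a b) (h' : Lt b c) : Lt a c := by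
  intro z hz
  exact h' (mem_insert_of_mem _ (h hz))

theorem Lt.sub {c d : CutP s} (h : Lt c d) : c.U ⊆ d.U := (subset_insert _ _).trans h

theorem Lt.D_subset {c d : CutP s} (h : Lt c d) : c.D ⊆ d.D := fun x hx =>
  lt_of_lt_of_le hx (s.hh_mono h.sub x)

theorem Lt.gap (hP : PConn s) {c d : CutP s} (h : Lt c d) :
    (d.U ∩ cmp s.ι c.η c.U).Nonempty := by
  by_contra hemp
  rw [not_nonempty_iff_eq_empty] at hemp
  have hEq : T s.ι \ d.U = cmp s.ι c.η c.U := by
    ext z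
    constructor
    · rintro ⟨hz, hzd⟩
      refine ⟨hz, ?_, ?_⟩
      · rintro rfl; exact hzd (h (mem_insert _ _))
      · intro hzc; exact hzd (h.sub hzc)
    · rintro ⟨hz, h1, h2⟩
      refine ⟨hz, fun hzd => ?_⟩
      have : z ∈ d.U ∩ cmp s.ι c.η c.U := ⟨hzd, hz, h1, h2⟩
      rw [hemp] at this
      exact this
  exact hP d.U d.clp.ro (by rw [hEq]; exact c.clp.ro') ⟨c.η, h (mem_insert _ _)⟩
    ⟨d.η, d.clp.mem, d.clp.notMem⟩


theorem Lt.D_ssubset (hP : PConn s) (hL : PLim s) {c d : CutP s} (h : Lt c d) :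
    ∃ v, v ∈ d.D ∧ v ∉ c.D := by
  obtain ⟨θ, hθd, hθc⟩ := h.gap hP
  obtain ⟨δ1, hδ1, h1⟩ := (hL d.η d.U d.clp (1 / 4) (by norm_num)).1 θ hθd
  obtain ⟨δ2, hδ2, h2⟩ := (hL c.η c.U c.clp (1 / 4) (by norm_num)).2 θ hθc
  obtain ⟨x, hx⟩ := s.exists_near θ (lt_min hδ1 hδ2)
  refine ⟨x, ?_, ?_⟩
  · rw [mem_D]
    have := h1 x (hx.trans_le (min_le_left _ _))
    linarith
  · rw [mem_D]
    have := h2 x (hx.trans_le (min_le_right _ _))
    linarith

/-- (L1) -/
theorem comparable (hP : PConn s) (hH : PHalf s) (hA : PAlg s) {c d : CutP s} (hne : c.η ≠ d.η)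
    {x y : s.G} (hxc : x ∈ c.D) (hxd : x ∈ d.D) (hyc : y ∉ c.D) (hyd : y ∉ d.D) :
    Lt c d ∨ Lt d c := by
  have hins : ∀ (η : s.Z) (U : Set s.Z), U ∪ {η} = insert η U := fun η U => by
    rw [union_comm]; rfl
  by_cases h1 : d.η ∈ c.U
  · by_cases h2 : c.η ∈ d.U
    · exfalso
      -- complements
      have hc := (hA c.η c.U c.U c.clp c.clp).1
      have hnot : d.η ∉ cmp s.ι c.η c.U := fun h => h.2.2 h1
      rcases hH c.η (cmp s.ι c.η c.U) d.η d.U hc d.clp hne hnot with h | h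
      · -- `cmp U ∪ {η} ⊆ W`
        have hcov : T s.ι ⊆ c.U ∪ d.U := by
          intro z hz
          by_cases hzU : z ∈ c.U
          · exact Or.inl hzU
          · right
            by_cases hzη : z = c.η
            · rw [hzη]; exact h2
            · exact h (Or.inl ⟨hz, hzη, hzU⟩)
        have hro : RO s.ι (c.U ∩ d.U) := c.clp.ro.inter d.clp.ro
        have hnonempty : (c.U ∩ d.U).Nonempty := by
          by_contra hemp
          rw [not_nonempty_iff_eq_empty] at hemp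
          have hEq : T s.ι \ c.U = d.U := by
            ext z
            constructor
            · rintro ⟨hz, hzc⟩
              rcases hcov hz with h' | h'
              · exact absurd h' hzc
              · exact h'
            · intro hz
              refine ⟨d.clp.ro.sub hz, fun hzc => ?_⟩
              have : z ∈ c.U ∩ d.U := ⟨hzc, hz⟩
              rw [hemp] at this
              exact this
          exact hP c.U c.clp.ro (by rw [hEq]; exact d.clp.ro) ⟨d.η, h1⟩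
            (by rw [hEq]; exact ⟨c.η, h2⟩)
        have hpos := s.hh_pos_of_ro hro hnonempty y
        have hsum : 1 + hh s.ν (c.U ∩ d.U) y ≤ hh s.ν c.U y + hh s.ν d.U y := by
          have e1 := c.clp.hh_add y
          have e2 : hh s.ν (cmp s.ι c.η c.U) y + hh s.ν (c.U ∩ d.U) y ≤ hh s.ν d.U y := by
            apply s.hh_add_disj hro.meas
            · rw [Set.disjoint_left]
              rintro z ⟨_, _, h4⟩ ⟨h5, _⟩
              exact h4 h5
            · intro z hz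
              exact h (Or.inl hz)
            · exact inter_subset_right
          linarith
        rw [mem_D, not_lt] at hyc hyd
        linarith
      · rw [Set.disjoint_left] at h
        exact h (Or.inr rfl) h2
    · -- η ∉ W
      rcases hH d.η d.U c.η c.U d.clp c.clp hne.symm h2 with h | h
      · right
        rw [hins] at h
        exact h
      · exfalso
        have hd : Disjoint d.U c.U := h.mono_left (subset_union_left)
        have := s.hh_add_disj (U := d.U) (V := c.U) (W := univ) c.clp.meas hd (subset_univ _)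
          (subset_univ _) x
        have h1' := s.hh_le_one univ x
        rw [mem_D] at hxc hxd
        linarith
  · rcases hH c.η c.U d.η d.U c.clp d.clp hne h1 with h | h
    · left
      rw [hins] at h
      exact h
    · exfalso
      have hd : Disjoint c.U d.U := h.mono_left (subset_union_left)
      have := s.hh_add_disj (U := c.U) (V := d.U) (W := univ) d.clp.meas hd (subset_univ _)
        (subset_univ _) x
      have h1' := s.hh_le_one univ x
      rw [mem_D] at hxc hxd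
      linarith

theorem bal_of_bd (c : CutP s) {p : s.G × s.G} (hp : p ∈ bd s.S c.D) :
    p.1 ∈ Bal s.ν (1 / (2 * (s.S.card : ℝ))) c.U := by
  obtain ⟨h1, h2, h3⟩ := hp
  rw [mem_D] at h2
  rw [mem_D, not_lt] at h3
  have hS := s.one_le_card
  have hpos := s.card_pos
  have hle : 1 / (2 * (s.S.card : ℝ)) ≤ 1 / 2 := by
    rw [div_le_div_iff₀ (by positivity) (by norm_num)]
    linarith
  refine ⟨hle.trans h2.le, ?_⟩
  have e1 := c.clp.hh_add p.1
  have e2 := c.clp.hh_add p.2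
  have h4 := s.harnack h1 c.clp.ro'.meas
  have h5 : (1 : ℝ) / 2 ≤ s.S.card * hh s.ν (cmp s.ι c.η c.U) p.1 := by linarith
  have h6 : 1 / (2 * (s.S.card : ℝ)) ≤ hh s.ν (cmp s.ι c.η c.U) p.1 := by
    rw [div_le_iff₀ (by positivity)]
    linarith
  linarith

/-- (L2) -/
theorem bd_finite (hB : PBal s) {c d : CutP s} (hne : c.η ≠ d.η) :
    (bd s.S c.D ∩ bd s.S d.D).Finite := by
  have hS := s.card_pos
  have hε : 0 < dist c.η d.η / 2 := half_pos (dist_pos.2 hne)
  have hc0 : 0 < 1 / (2 * (s.S.card : ℝ)) := by positivity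
  have f1 := hB c.η c.U c.clp _ _ hc0 hε
  have f2 := hB d.η d.U d.clp _ _ hc0 hε
  have f3 := ((f1.union f2).prod s.S.finite_toSet).image (fun q : s.G × s.G => (q.1, q.1 * q.2))
  refine f3.subset ?_
  rintro ⟨a, b⟩ ⟨h1, h2⟩
  refine ⟨(a, a⁻¹ * b), ⟨?_, h1.1⟩, ?_⟩
  · have b1 := c.bal_of_bd h1
    have b2 := d.bal_of_bd h2
    by_cases hd : dist c.η d.η / 2 ≤ dist (s.ι a) c.η
    · exact Or.inl ⟨b1, hd⟩
    · right
      refine ⟨b2, ?_⟩
      have := dist_triangle c.η (s.ι a) d.η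
      rw [dist_comm c.η (s.ι a)] at this
      push Not at hd
      change dist c.η d.η / 2 ≤ dist (s.ι a) d.η
      linarith
  · simp

/-- translate of a cut -/
def smul (hA : PAlg s) (g : s.G) (c : CutP s) : CutP s where
  η := g • c.η
  U := (fun z => g • z) '' c.U
  clp := (hA c.η c.U c.U c.clp c.clp).2.2.2.2 g


theorem mem_smul_D (hA : PAlg s) (g : s.G) (c : CutP s) (x : s.G) :
    x ∈ (smul hA g c).D ↔ g⁻¹ * x ∈ c.D := by
  rw [mem_D, mem_D]
  have := s.hh_smul g (g⁻¹ * x) c.clp.meas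
  rw [mul_inv_cancel_left] at this
  change 1 / 2 < hh s.ν ((fun z => g • z) '' c.U) x ↔ _
  rw [this]

theorem Lt.smul (hA : PAlg s) (g : s.G) {c d : CutP s} (h : Lt c d) :
    Lt (smul hA g c) (smul hA g d) := by
  intro z hz
  rcases hz with rfl | ⟨w, hw, rfl⟩
  · exact ⟨c.η, h (mem_insert _ _), rfl⟩
  · exact ⟨w, h (mem_insert_of_mem _ hw), rfl⟩

end CutP

/-- limit walls from below -/
def LimF (s : Sys) : Set (Set s.G) :=
  {M | M ≠ univ ∧ ∀ K : Finset s.G, (∀ x ∈ K, x ∈ M) →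
    ∃ c1 c2 c3 c4 : CutP s, c1.Lt c2 ∧ c2.Lt c3 ∧ c3.Lt c4 ∧ (∀ x ∈ K, x ∈ c1.D) ∧ c4.D ⊆ M}

section limF

open CutP

variable {s : Sys}

theorem LimF.nonempty (hP : PConn s) (hL : PLim s) {M : Set s.G} (hM : M ∈ LimF s) :
    M.Nonempty := by
  obtain ⟨c1, c2, c3, c4, h12, h23, h34, _, h4⟩ := hM.2 ∅ (by simp)
  obtain ⟨v, hv, _⟩ := h34.D_ssubset hP hL
  exact ⟨v, h4 hv⟩

theorem LimF.exists_notMem {M : Set s.G} (hM : M ∈ LimF s) : ∃ y, y ∉ M := by
  by_contra h
  push Not at h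
  exact hM.1 (eq_univ_of_forall h)

/-- cuts with prescribed finite part and label different from a given one -/
theorem LimF.cut_ne {M : Set s.G} (hM : M ∈ LimF s) (K : Finset s.G) (hK : ∀ x ∈ K, x ∈ M)
    (η : s.Z) : ∃ d e f : CutP s, d.η ≠ η ∧ d.Lt e ∧ e.Lt f ∧ (∀ x ∈ K, x ∈ d.D) ∧ f.D ⊆ M := by
  obtain ⟨c1, c2, c3, c4, h12, h23, h34, h1, h4⟩ := hM.2 K hK
  by_cases h : c1.η = η
  · refine ⟨c2, c3, c4, ?_, h23, h34, fun x hx => h12.D_subset (h1 x hx), h4⟩
    rw [← h]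
    exact h12.ne.symm
  · exact ⟨c1, c2, c3, h, h12, h23, h1, h34.D_subset.trans h4⟩

theorem LimF.inv (hA : PAlg s) (g : s.G) {M : Set s.G} (hM : M ∈ LimF s) :
    {x | g⁻¹ * x ∈ M} ∈ LimF s := by
  refine ⟨?_, fun K hK => ?_⟩
  · obtain ⟨y, hy⟩ := LimF.exists_notMem hM
    intro h
    have : g * y ∈ {x | g⁻¹ * x ∈ M} := by rw [h]; trivial
    simp only [mem_setOf_eq, inv_mul_cancel_left] at this
    exact hy this
  · classical
    obtain ⟨c1, c2, c3, c4, h12, h23, h34, h1, h4⟩ := hM.2 (K.image fun x => g⁻¹ * x) (by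
      intro x hx
      obtain ⟨k, hk, rfl⟩ := Finset.mem_image.1 hx
      exact hK k hk)
    refine ⟨smul hA g c1, smul hA g c2, smul hA g c3, smul hA g c4, h12.smul hA g, h23.smul hA g,
      h34.smul hA g, ?_, ?_⟩
    · intro x hx
      rw [mem_smul_D]
      exact h1 _ (Finset.mem_image_of_mem _ hx)
    · intro x hx
      rw [mem_smul_D] at hx
      exact h4 hx

theorem LimF.chain (hP : PConn s) (hH : PHalf s) (hA : PAlg s) {M M' : Set s.G}
    (hM : M ∈ LimF s) (hM' : M' ∈ LimF s) {x y : s.G} (hx : x ∈ M) (hx' : x ∈ M') (hy : y ∉ M)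
    (hy' : y ∉ M') : M ⊆ M' ∨ M' ⊆ M := by
  classical
  by_contra hcon
  rw [not_or, not_subset, not_subset] at hcon
  obtain ⟨⟨a, ha, ha'⟩, ⟨b, hb, hb'⟩⟩ := hcon
  obtain ⟨c1, c2, c3, c4, h12, h23, h34, h1, h4⟩ := hM.2 {x, a} (by
    intro z hz
    rw [Finset.mem_insert, Finset.mem_singleton] at hz
    rcases hz with rfl | rfl
    · exact hx
    · exact ha)
  obtain ⟨d, e, f, hne, hde, hef, h5, h6⟩ := LimF.cut_ne hM' {x, b} (by
    intro z hz
    rw [Finset.mem_insert, Finset.mem_singleton] at hz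
    rcases hz with rfl | rfl
    · exact hx'
    · exact hb) c1.η
  have hc1M : c1.D ⊆ M := (h12.D_subset.trans (h23.D_subset.trans h34.D_subset)).trans h4
  have hdM' : d.D ⊆ M' := (hde.D_subset.trans hef.D_subset).trans h6
  have hxc : x ∈ c1.D := h1 x (by simp)
  have hac : a ∈ c1.D := h1 a (by simp)
  have hxd : x ∈ d.D := h5 x (by simp)
  have hbd : b ∈ d.D := h5 b (by simp)
  rcases comparable hP hH hA hne hxd hxc (fun h => hy' (hdM' h)) (fun h => hy (hc1M h)) with h | h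
  · exact hb' (hc1M (h.D_subset hbd))
  · exact ha' (hdM' (h.D_subset hac))

/-- between two limit walls there are two cuts at different points, avoiding a given label -/
theorem LimF.between (hP : PConn s) (hH : PHalf s) (hA : PAlg s) {M M' : Set s.G}
    (hM : M ∈ LimF s) (hM' : M' ∈ LimF s) {x y : s.G} (hx : x ∈ M) (hy' : y ∉ M') {v : s.G}
    (hx' : x ∈ M') (hv : v ∉ M) (hv' : v ∈ M') (K : Finset s.G) (hK : ∀ z ∈ K, z ∈ M')
    (hyM : y ∉ M) :
    ∃ d e f : CutP s, d.Lt e ∧ e.Lt f ∧ M ⊆ d.D ∧ f.D ⊆ M' ∧ ∀ z ∈ K, z ∈ d.D := by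
  classical
  obtain ⟨c1, c2, c3, c4, h12, h23, h34, h1, h4⟩ := hM'.2 (insert x (insert v K)) (by
    intro z hz
    rw [Finset.mem_insert, Finset.mem_insert] at hz
    rcases hz with rfl | rfl | h
    · exact hx'
    · exact hv'
    · exact hK z h)
  refine ⟨c2, c3, c4, h23, h34, ?_, h4, fun z hz => h12.D_subset (h1 z (by simp [hz]))⟩
  intro m hm
  by_contra hm2
  -- a cut below `M` containing `x` and `m`
  obtain ⟨d, e, f, hne, hde, hef, h5, h6⟩ := LimF.cut_ne hM {x, m} (by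
    intro z hz
    rw [Finset.mem_insert, Finset.mem_singleton] at hz
    rcases hz with rfl | rfl
    · exact hx
    · exact hm) c2.η
  have hdM : d.D ⊆ M := (hde.D_subset.trans hef.D_subset).trans h6
  have hc2M' : c2.D ⊆ M' := (h23.D_subset.trans h34.D_subset).trans h4
  have hxc : x ∈ c2.D := h12.D_subset (h1 x (by simp))
  have hvc : v ∈ c2.D := h12.D_subset (h1 v (by simp))
  have hxd : x ∈ d.D := h5 x (by simp)
  have hmd : m ∈ d.D := h5 m (by simp)
  rcases comparable hP hH hA hne hxd hxc (fun h => hyM (hdM h)) (fun h => hy' (hc2M' h)) with h | h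
  · exact hm2 (h.D_subset hmd)
  · exact hv (hdM (h.D_subset hvc))

theorem LimF.fin (hP : PConn s) (hH : PHalf s) (hA : PAlg s) (hB : PBal s) {M M' : Set s.G}
    (hM : M ∈ LimF s) (hM' : M' ∈ LimF s) {x y : s.G} (hx : x ∈ M) (hx' : x ∈ M') (hy : y ∉ M)
    (hy' : y ∉ M') (hne : M ≠ M') :
    {p : s.G × s.G | Adj s.S p.1 p.2 ∧ p.1 ∈ M ∧ p.1 ∈ M' ∧ p.2 ∉ M ∧ p.2 ∉ M'}.Finite := by
  have key : ∀ {M M' : Set s.G}, M ∈ LimF s → M' ∈ LimF s → x ∈ M → x ∈ M' → y ∉ M → y ∉ M' →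
      M ⊆ M' → M ≠ M' →
      {p : s.G × s.G | Adj s.S p.1 p.2 ∧ p.1 ∈ M ∧ p.1 ∈ M' ∧ p.2 ∉ M ∧ p.2 ∉ M'}.Finite := by
    intro M M' hM hM' hx hx' hy hy' hsub hne
    obtain ⟨v, hv', hv⟩ := exists_of_ssubset (ssubset_iff_subset_ne.2 ⟨hsub, hne⟩)
    obtain ⟨d, e, f, hde, hef, h1, h2, _⟩ := LimF.between hP hH hA hM hM' hx hy' hx' hv hv' ∅
      (by simp) hy
    refine (bd_finite hB hde.ne).subset ?_
    rintro ⟨a, b⟩ ⟨hab, ha, _, _, hb'⟩
    have haD : a ∈ d.D := h1 ha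
    have hbe : b ∉ e.D := fun h => hb' (h2 (hef.D_subset h))
    exact ⟨⟨hab, haD, fun h => hbe (hde.D_subset h)⟩, ⟨hab, hde.D_subset haD, hbe⟩⟩
  rcases LimF.chain hP hH hA hM hM' hx hx' hy hy' with h | h
  · exact key hM hM' hx hx' hy hy' h hne
  · refine (key hM' hM hx' hx hy' hy h hne.symm).subset ?_
    rintro p ⟨h1, h2, h3, h4, h5⟩
    exact ⟨h1, h3, h2, h5, h4⟩

theorem LimF.sUnion {C : Set (Set s.G)} (hC : C ⊆ LimF s) (hne : ⋃₀ C ≠ univ)
    (hn : C.Nonempty) (hdir : DirectedOn (· ⊆ ·) C) : ⋃₀ C ∈ LimF s := by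
  refine ⟨hne, fun K hK => ?_⟩
  have : ∃ M ∈ C, ∀ x ∈ K, x ∈ M := by
    classical
    induction K using Finset.induction_on with
    | empty => obtain ⟨M, hM⟩ := hn; exact ⟨M, hM, by simp⟩
    | insert a K _ ih =>
      obtain ⟨M1, hM1, h1⟩ := ih fun x hx => hK x (Finset.mem_insert_of_mem hx)
      obtain ⟨M2, hM2, h2⟩ := hK a (Finset.mem_insert_self _ _)
      obtain ⟨M3, hM3, h3, h4⟩ := hdir M1 hM1 M2 hM2
      refine ⟨M3, hM3, fun x hx => ?_⟩
      rcases Finset.mem_insert.1 hx with rfl | hx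
      · exact h4 h2
      · exact h3 (h1 x hx)
  obtain ⟨M, hM, h1⟩ := this
  obtain ⟨c1, c2, c3, c4, h12, h23, h34, h5, h6⟩ := (hC hM).2 K h1
  exact ⟨c1, c2, c3, c4, h12, h23, h34, h5, h6.trans (subset_sUnion_of_mem hM)⟩

end limF

end Crest.Agent.R224
end
end

-- ▼ part R224/CutFam2

set_option autoImplicit false
set_option linter.deprecated false

noncomputable section

open MeasureTheory Set Filter Topology

namespace Crest.Agent.R224

open CutP

variable {s : Sys}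

theorem pow_inj_of_tf (s : Sys) {g : s.G} (hg : g ≠ 1) : Function.Injective fun n : ℕ => g ^ n := by
  rw [injective_pow_iff_not_isOfFinOrder, isOfFinOrder_iff_pow_eq_one]
  rintro ⟨n, hn, h⟩
  exact s.top.tf g hg n hn h

theorem exists_edge {s : Sys} {M : Set s.G} {x y : s.G} (hx : x ∈ M) (hy : y ∉ M) :
    ∃ a b, Adj s.S a b ∧ a ∈ M ∧ b ∉ M := by
  obtain ⟨c, d, _, h2, _, h4, h5⟩ := exists_step (P := fun z => z ∈ M) (s.conn_univ x y) hx hy
  exact ⟨c, d, h2, h4, h5⟩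

theorem stab_aux (hP : PConn s) (hH : PHalf s) (hA : PAlg s) (hB : PBal s) {M : Set s.G}
    {g : s.G} (hg : g ≠ 1) (hM : ∀ x, g * x ∈ M ↔ x ∈ M) {x y : s.G} (hxy : Adj s.S x y)
    (hy : y ∉ M) {c d : CutP s} (hcd : c.Lt d) (hd : d.D ⊆ M) (hx : x ∈ c.D)
    (hgx : g * x ∈ c.D) : g • c.η = c.η := by
  by_contra hne
  have hcM : c.D ⊆ M := hcd.D_subset.trans hd
  have hgy : g * y ∉ M := fun h => hy ((hM y).1 h)
  have hfin := bd_finite hB hcd.ne
  have e1 : g * x ∈ (CutP.smul hA g c).D := by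
    rw [mem_smul_D, inv_mul_cancel_left]; exact hx
  have e2 : g * y ∉ (CutP.smul hA g c).D := by
    rw [mem_smul_D, inv_mul_cancel_left]; exact fun h => hy (hcM h)
  have key : ∀ k : s.G, k ≠ 1 → (∀ z, k * z ∈ M ↔ z ∈ M) → (∀ z ∈ c.D, k * z ∈ c.D) → False := by
    intro k hk hkM hkD
    have h1 : ∀ n : ℕ, k ^ n * x ∈ c.D := by
      intro n
      induction n with
      | zero => simpa using hx
      | succ n ih =>
        rw [pow_succ', mul_assoc]
        exact hkD _ ih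
    have h2 : ∀ n : ℕ, k ^ n * y ∉ M := by
      intro n
      induction n with
      | zero => simpa using hy
      | succ n ih =>
        rw [pow_succ', mul_assoc, hkM]
        exact ih
    have h3 : Function.Injective fun n : ℕ => ((k ^ n * x, k ^ n * y) : s.G × s.G) := by
      intro m n h
      simp only [Prod.mk.injEq, mul_left_inj] at h
      exact pow_inj_of_tf s hk h.1
    apply Set.infinite_range_of_injective h3
    refine hfin.subset ?_
    rintro _ ⟨n, rfl⟩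
    refine ⟨⟨s.adj_mul _ hxy, h1 n, fun h => h2 n (hcM h)⟩,
      ⟨s.adj_mul _ hxy, hcd.D_subset (h1 n), fun h => h2 n (hd h)⟩⟩
  rcases comparable (c := c) (d := CutP.smul hA g c) hP hH hA (fun h => hne h.symm) hgx e1
    (fun h => hgy (hcM h)) e2 with h | h
  · refine key g⁻¹ (inv_ne_one.2 hg) (fun z => ?_) (fun z hz => ?_)
    · rw [← hM (g⁻¹ * z), mul_inv_cancel_left]
    · have := h.D_subset hz
      rwa [mem_smul_D] at this
  · refine key g hg hM (fun z hz => ?_)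
    apply h.D_subset
    rw [mem_smul_D, inv_mul_cancel_left]
    exact hz

theorem smul_pow_fix {s : Sys} {g : s.G} {a : s.Z} (h : g • a = a) (n : ℕ) : g ^ n • a = a := by
  induction n with
  | zero => simp
  | succ n ih => rw [pow_succ, mul_smul, h, ih]

theorem LimF.stab (hP : PConn s) (hH : PHalf s) (hA : PAlg s) (hL : PLim s) (hB : PBal s)
    (hT : NTriple s) {M : Set s.G} (hM : M ∈ LimF s) {g : s.G}
    (hgM : ∀ x, g * x ∈ M ↔ x ∈ M) : g = 1 := by
  classical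
  by_contra hg
  obtain ⟨x0, hx0⟩ := LimF.nonempty hP hL hM
  obtain ⟨y0, hy0⟩ := LimF.exists_notMem hM
  obtain ⟨x, y, hxy, hx, hy⟩ := exists_edge hx0 hy0
  obtain ⟨c1, c2, c3, c4, h12, h23, h34, h1, h4⟩ := hM.2 {x, g * x} (by
    intro z hz
    rw [Finset.mem_insert, Finset.mem_singleton] at hz
    rcases hz with rfl | rfl
    · exact hx
    · exact (hgM x).2 hx)
  have a1 : x ∈ c1.D := h1 x (by simp)
  have b1 : g * x ∈ c1.D := h1 _ (by simp)
  have f1 := stab_aux hP hH hA hB hg hgM hxy hy h12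
    ((h23.D_subset.trans h34.D_subset).trans h4) a1 b1
  have f2 := stab_aux hP hH hA hB hg hgM hxy hy h23 (h34.D_subset.trans h4)
    (h12.D_subset a1) (h12.D_subset b1)
  have f3 := stab_aux hP hH hA hB hg hgM hxy hy h34 h4
    (h23.D_subset (h12.D_subset a1)) (h23.D_subset (h12.D_subset b1))
  have n12 := h12.ne
  have n23 := h23.ne
  have n13 := (h12.trans h23).ne
  let ε := min (dist c1.η c2.η) (min (dist c1.η c3.η) (dist c2.η c3.η))
  have hε : 0 < ε := lt_min (dist_pos.2 n12) (lt_min (dist_pos.2 n13) (dist_pos.2 n23))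
  have e12 : ε ≤ dist c1.η c2.η := min_le_left _ _
  have e13 : ε ≤ dist c1.η c3.η := (min_le_right _ _).trans (min_le_left _ _)
  have e23 : ε ≤ dist c2.η c3.η := (min_le_right _ _).trans (min_le_right _ _)
  apply Set.infinite_range_of_injective (pow_inj_of_tf s hg)
  refine (hT ε hε).subset ?_
  rintro _ ⟨n, rfl⟩
  refine ⟨c1.η, c1.clp.mem, c2.η, c2.clp.mem, c3.η, c3.clp.mem, e12, e13, e23, ?_, ?_, ?_⟩
  · simp only [smul_pow_fix f1, smul_pow_fix f2]; exact e12
  · simp only [smul_pow_fix f1, smul_pow_fix f3]; exact e13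
  · simp only [smul_pow_fix f2, smul_pow_fix f3]; exact e23

/-! ### harmonic functions of limit walls -/

theorem pop_hh (s : Sys) {A : Set s.Z} (hA : MeasurableSet A) (x : s.G) :
    Pop s.S (fun y => hh s.ν A y) x = hh s.ν A x := (s.harm.harm x A hA).symm

theorem har_of_seq (W : Set s.Z) (hW : MeasurableSet W) {M : Set s.G}
    (h1 : ∀ x, 1 / 2 < hh s.ν W x → x ∈ M) (h2 : ∀ x ∈ M, 1 / 2 ≤ hh s.ν W x)
    {x y : s.G} (hx : 1 / 2 ≤ hh s.ν W x) (hy : hh s.ν W y ≤ 1 / 2) : Har s.S M := by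
  refine ⟨fun x => hh s.ν W x, fun x => pop_hh s hW x, fun x => s.hh_nonneg W x,
    fun x => s.hh_le_one W x, fun x hx => h1 x hx, fun x hx => h2 x hx, ?_, ?_⟩
  · obtain ⟨z, hz⟩ := s.harm.zeroone W hW ⟨x, by
      change 0 < hh s.ν W x
      linarith⟩ (3 / 4) (by norm_num)
    exact ⟨z, hz⟩
  · have hc : ∀ z, (s.ν z).real Wᶜ = 1 - hh s.ν W z := fun z => by
      unfold hh
      rw [probReal_compl_eq_one_sub hW]
    obtain ⟨z, hz⟩ := s.harm.zeroone Wᶜ hW.compl ⟨y, by rw [hc]; linarith⟩ (3 / 4) (by norm_num)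
    rw [hc] at hz
    exact ⟨z, by linarith⟩

theorem hh_iUnion_le {U : ℕ → Set s.Z} (hmono : Monotone U) {x : s.G} {r : ℝ}
    (h : ∀ n, hh s.ν (U n) x ≤ r) : hh s.ν (⋃ n, U n) x ≤ r := by
  have h1 := tendsto_measure_iUnion_atTop (μ := s.ν x) hmono
  have h2 : Tendsto (fun n => hh s.ν (U n) x) atTop (𝓝 (hh s.ν (⋃ n, U n) x)) := by
    unfold hh Measure.real
    exact (ENNReal.tendsto_toReal (measure_ne_top _ _)).comp h1
  exact le_of_tendsto' h2 h

theorem le_hh_iInter {U : ℕ → Set s.Z} (hanti : Antitone U) (hm : ∀ n, MeasurableSet (U n))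
    {x : s.G} {r : ℝ} (h : ∀ n, r ≤ hh s.ν (U n) x) : r ≤ hh s.ν (⋂ n, U n) x := by
  have h1 := tendsto_measure_iInter_atTop (μ := s.ν x) (fun n => (hm n).nullMeasurableSet) hanti
    ⟨0, measure_ne_top _ _⟩
  have h2 : Tendsto (fun n => hh s.ν (U n) x) atTop (𝓝 (hh s.ν (⋂ n, U n) x)) := by
    unfold hh Measure.real
    exact (ENNReal.tendsto_toReal (measure_ne_top _ _)).comp h1
  exact ge_of_tendsto' h2 h

theorem LimF.har (hP : PConn s) (hH : PHalf s) (hA : PAlg s) (hL : PLim s) {M : Set s.G}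
    (hM : M ∈ LimF s) : Har s.S M := by
  classical
  obtain ⟨x0, hx0⟩ := LimF.nonempty hP hL hM
  obtain ⟨y0, hy0⟩ := LimF.exists_notMem hM
  haveI := s.countable_G
  obtain ⟨e, he⟩ := exists_surjective_nat s.G
  -- good cuts
  let Good := {c : CutP s // x0 ∈ c.D ∧ ∃ d, c.Lt d ∧ d.D ⊆ M}
  have step : ∀ (n : ℕ) (c : Good), ∃ d : Good, c.1.Lt d.1 ∧ (e n ∈ M → e n ∈ d.1.D) := by
    rintro n ⟨c, hxc, c', hcc', hc'M⟩
    obtain ⟨v, hv, hvc⟩ := hcc'.D_ssubset hP hL
    have hvM : v ∈ M := hc'M hv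
    let K : Finset s.G := insert x0 (insert v (if e n ∈ M then {e n} else ∅))
    obtain ⟨d, d', d'', hne, hdd', hd'd'', hK, hd''⟩ := LimF.cut_ne hM K (by
      intro z hz
      simp only [K, Finset.mem_insert] at hz
      rcases hz with rfl | rfl | h
      · exact hx0
      · exact hvM
      · split_ifs at h with hen
        · rw [Finset.mem_singleton] at h
          rw [h]; exact hen
        · simp at h) c.η
    have hd'M : d'.D ⊆ M := hd'd''.D_subset.trans hd''
    refine ⟨⟨d, hK x0 (by simp [K]), d', hdd', hd'M⟩, ?_, ?_⟩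
    · rcases comparable hP hH hA hne (hK x0 (by simp [K])) hxc
        (fun h => hy0 (hd'M (hdd'.D_subset h))) (fun h => hy0 (hc'M (hcc'.D_subset h))) with h | h
      · exact absurd (h.D_subset (hK v (by simp [K]))) hvc
      · exact h
    · intro hen
      exact hK _ (by simp [K, hen])
  have start : Nonempty Good := by
    obtain ⟨c1, c2, c3, c4, h12, h23, h34, h1, h4⟩ := hM.2 {x0} (by simpa using hx0)
    exact ⟨⟨c1, h1 x0 (by simp), c2, h12, (h23.D_subset.trans h34.D_subset).trans h4⟩⟩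
  choose nxt hnxt using step
  let c : ℕ → Good := fun n => Nat.rec start.some (fun n c => nxt n c) n
  have hc : ∀ n, c (n + 1) = nxt n (c n) := fun n => rfl
  have hlt : ∀ n, (c n).1.Lt (c (n + 1)).1 := fun n => by rw [hc]; exact (hnxt n (c n)).1
  have hmono : Monotone fun n => (c n).1.U := monotone_nat_of_le_succ fun n => (hlt n).sub
  have hcM : ∀ n, (c n).1.D ⊆ M := fun n => by
    obtain ⟨_, d, hd, hdM⟩ := (c n).2
    exact hd.D_subset.trans hdM
  refine har_of_seq (⋃ n, (c n).1.U) (MeasurableSet.iUnion fun n => (c n).1.clp.meas) ?_ ?_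
    (x := x0) (y := y0) ?_ ?_
  · intro x hx
    by_contra hxM
    refine absurd (hh_iUnion_le hmono fun n => ?_) (not_le.2 hx)
    by_contra h
    exact hxM (hcM n (not_le.1 h))
  · intro x hx
    obtain ⟨n, rfl⟩ := he x
    have h1 : e n ∈ (c (n + 1)).1.D := by rw [hc]; exact (hnxt n (c n)).2 hx
    exact (le_of_lt h1).trans (s.hh_mono (subset_iUnion (fun n => (c n).1.U) (n + 1)) _)
  · exact (le_of_lt (c 0).2.1).trans (s.hh_mono (subset_iUnion (fun n => (c n).1.U) 0) _)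
  · refine hh_iUnion_le hmono fun n => ?_
    by_contra h
    exact hy0 (hcM n (not_le.1 h))

theorem LimF.harAnti (hP : PConn s) (hH : PHalf s) (hA : PAlg s) (hL : PLim s)
    {M : ℕ → Set s.G} (hM : ∀ n, M n ∈ LimF s) (hanti : StrictAnti M) {x y : s.G}
    (hx : ∀ n, x ∈ M n) (hy : ∀ n, y ∉ M n) : Har s.S (⋂ n, M n) := by
  classical
  -- cuts between consecutive members
  have step : ∀ (n : ℕ) (c : {c : CutP s // M (n + 1) ⊆ c.D ∧ c.D ⊆ M n}),
      ∃ d : {c : CutP s // M (n + 1 + 1) ⊆ c.D ∧ c.D ⊆ M (n + 1)}, d.1.Lt c.1 := by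
    rintro n ⟨c, hc1, hc2⟩
    obtain ⟨v, hv, hv'⟩ := exists_of_ssubset (hanti (Nat.lt_succ_self (n + 1)))
    obtain ⟨d, e, f, hde, hef, h1, h2, _⟩ := LimF.between hP hH hA (hM (n + 1 + 1)) (hM (n + 1))
      (hx _) (hy _) (hx _) hv' hv ∅ (by simp) (hy _)
    -- choose a cut with a different label
    have : ∃ d : CutP s, d.η ≠ c.η ∧ M (n + 1 + 1) ⊆ d.D ∧ ∃ d', d.Lt d' ∧ d'.D ⊆ M (n + 1) := by
      by_cases h : d.η = c.η
      · refine ⟨e, ?_, h1.trans hde.D_subset, f, hef, h2⟩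
        rw [← h]; exact hde.ne.symm
      · exact ⟨d, h, h1, e, hde, hef.D_subset.trans h2⟩
    obtain ⟨d, hne, hd1, d', hdd', hd'⟩ := this
    have hdM : d.D ⊆ M (n + 1) := hdd'.D_subset.trans hd'
    refine ⟨⟨d, hd1, hdM⟩, ?_⟩
    have hxd : x ∈ d.D := hd1 (hx _)
    have hxc : x ∈ c.D := hc1 (hx _)
    rcases comparable hP hH hA hne hxd hxc (fun h => hy _ (hdM h)) (fun h => hy _ (hc2 h))
      with h | h
    · exact h
    · exfalso
      obtain ⟨v, hv, hvc⟩ := (h.trans hdd').D_ssubset hP hL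
      exact hvc (hc1 (hd' hv))
  have start : Nonempty {c : CutP s // M (0 + 1) ⊆ c.D ∧ c.D ⊆ M 0} := by
    obtain ⟨v, hv, hv'⟩ := exists_of_ssubset (hanti (Nat.lt_succ_self 0))
    obtain ⟨d, e, f, hde, hef, h1, h2, _⟩ := LimF.between hP hH hA (hM (0 + 1)) (hM 0)
      (hx _) (hy _) (hx _) hv' hv ∅ (by simp) (hy _)
    exact ⟨⟨d, h1, (hde.D_subset.trans hef.D_subset).trans h2⟩⟩
  choose nxt hnxt using step
  let c : ∀ n : ℕ, {c : CutP s // M (n + 1) ⊆ c.D ∧ c.D ⊆ M n} := fun n =>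
    Nat.rec (motive := fun n => {c : CutP s // M (n + 1) ⊆ c.D ∧ c.D ⊆ M n}) start.some
      (fun n c => nxt n c) n
  have hc : ∀ n, c (n + 1) = nxt n (c n) := fun n => rfl
  have hlt : ∀ n, (c (n + 1)).1.Lt (c n).1 := fun n => by rw [hc]; exact hnxt n (c n)
  have hmono : Antitone fun n => (c n).1.U := antitone_nat_of_succ_le fun n => (hlt n).sub
  have hmeas : ∀ n, MeasurableSet (c n).1.U := fun n => (c n).1.clp.meas
  refine har_of_seq (⋂ n, (c n).1.U) (MeasurableSet.iInter hmeas) ?_ ?_ (x := x) (y := y) ?_ ?_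
  · intro z hz
    rw [mem_iInter]
    intro n
    apply (c n).2.2
    exact lt_of_lt_of_le hz (s.hh_mono (iInter_subset _ n) _)
  · intro z hz
    rw [mem_iInter] at hz
    exact le_hh_iInter hmono hmeas fun n => le_of_lt ((c n).2.1 (hz (n + 1)))
  · exact le_hh_iInter hmono hmeas fun n => le_of_lt ((c n).2.1 (hx (n + 1)))
  · refine (s.hh_mono (iInter_subset _ 0) _).trans ?_
    by_contra h
    exact hy 0 ((c 0).2.2 (not_le.1 h))

/-! ### the node -/

theorem limFam_eq (s : Sys) : LimFam s.ι s.ν = LimF s := by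
  ext M
  constructor
  · rintro ⟨h1, h2⟩
    refine ⟨h1, fun K hK => ?_⟩
    obtain ⟨c1, c2, c3, c4, k1, k2, k3, k4, l1, l2, l3, h5, h6⟩ := h2 K hK
    exact ⟨⟨c1.1, c1.2, k1⟩, ⟨c2.1, c2.2, k2⟩, ⟨c3.1, c3.2, k3⟩, ⟨c4.1, c4.2, k4⟩, l1, l2, l3,
      fun x hx => h5 hx, h6⟩
  · rintro ⟨h1, h2⟩
    refine ⟨h1, fun K hK => ?_⟩
    obtain ⟨c1, c2, c3, c4, l1, l2, l3, h5, h6⟩ := h2 K hK
    exact ⟨(c1.η, c1.U), (c2.η, c2.U), (c3.η, c3.U), (c4.η, c4.U), c1.clp, c2.clp, c3.clp, c4.clp,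
      l1, l2, l3, fun x hx => h5 x hx, h6⟩

theorem image_mul_eq {G : Type} [Group G] (g : G) (M : Set G) :
    (fun x => g * x) '' M = {x | g⁻¹ * x ∈ M} := by
  ext x
  constructor
  · rintro ⟨y, hy, rfl⟩
    simpa using hy
  · intro hx
    exact ⟨g⁻¹ * x, hx, by simp⟩

/-- (630) node NFam of BDefs -/
theorem nFam (s : Sys) (hP : PConn s) (hH : PHalf s) (hA : PAlg s) (hL : PLim s) (hB : PBal s)
    (hT : NTriple s) : NFam s := by
  unfold NFam
  rw [limFam_eq]
  refine ⟨?_, ?_, ?_, ?_, ?_, ?_, ?_⟩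
  · intro g M hM
    rw [image_mul_eq]
    exact LimF.inv hA g hM
  · intro M hM M' hM' x y _ hx hx' hy hy'
    exact LimF.chain hP hH hA hM hM' hx hx' hy hy'
  · intro M hM M' hM' hsub hne x y _ hx hy'
    refine (LimF.fin hP hH hA hB hM hM' hx (hsub hx) (fun h => hy' (hsub h)) hy' hne).subset ?_
    rintro p ⟨h1, h2, h3⟩
    exact ⟨h1, h2, hsub h2, fun h => h3 (hsub h), h3⟩
  · intro M hM g hg
    refine LimF.stab hP hH hA hL hB hT hM fun x => ?_
    constructor
    · intro h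
      rw [← hg] at h
      obtain ⟨y, hy, hxy⟩ := h
      have : y = x := mul_left_cancel hxy
      rw [← this]; exact hy
    · intro h
      rw [← hg]
      exact ⟨x, h, rfl⟩
  · intro M hM hmono hne
    have hr : (⋃ k, M k) = ⋃₀ (range M) := (sUnion_range M).symm
    rw [hr] at hne ⊢
    refine LimF.sUnion ?_ hne (range_nonempty M) ?_
    · rintro _ ⟨k, rfl⟩; exact hM k
    · rintro _ ⟨k, rfl⟩ _ ⟨l, rfl⟩
      exact ⟨M (max k l), ⟨_, rfl⟩, hmono (le_max_left _ _), hmono (le_max_right _ _)⟩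
  · intro M hM
    exact LimF.har hP hH hA hL hM
  · intro M hM hanti x y _ hx hy
    exact LimF.harAnti hP hH hA hL hM hanti hx hy

end Crest.Agent.R224
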