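/-
R224 / S0346 : the limit lemma (ultrafilter form), used twice in NFinal.   helper876
-/
import Crest.Agent.R224.Side

set_option autoImplicit false

noncomputable section

open MeasureTheory Set Filter Topology

namespace Crest.Agent.R224

namespace SideAux

theorem ro_of_nhds {s : Sys} {U : Set s.Z}
    (h : ∀ z ∈ U, z ∈ T s.ι ∧ ∃ r : ℝ, 0 < r ∧ ∀ w ∈ T s.ι, dist w z < r → w ∈ U) :
    RO s.ι U := by
  refine ⟨{w | ∃ z ∈ U, ∃ r : ℝ, dist w z < r ∧ ∀ w' ∈ T s.ι, dist w' z < r → w' ∈ U}, ?_, ?_⟩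
  · rw [Metric.isOpen_iff]
    rintro w ⟨z, hz, r, hr, hU⟩
    refine ⟨r - dist w z, by linarith, fun w' hw' => ⟨z, hz, r, ?_, hU⟩⟩
    have h1 := dist_triangle w' w z
    have h2 : dist w' w < r - dist w z := hw'
    linarith
  · ext w
    constructor
    · rintro ⟨⟨z, hz, r, hr, hU⟩, hT⟩
      exact hU w hT hr
    · intro hw
      obtain ⟨hT, r, hr, hU⟩ := h w hw
      exact ⟨⟨w, hw, r, by rwa [dist_self], hU⟩, hT⟩

theorem ro_nhds {s : Sys} {U : Set s.Z} (h : RO s.ι U) {z : s.Z} (hz : z ∈ U) :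
    ∃ r : ℝ, 0 < r ∧ ∀ w ∈ T s.ι, dist w z < r → w ∈ U := by
  obtain ⟨O, hO, rfl⟩ := h
  obtain ⟨r, hr, hb⟩ := Metric.isOpen_iff.1 hO z hz.1
  exact ⟨r, hr, fun w hw hd => ⟨hb (Metric.mem_ball.2 hd), hw⟩⟩


end SideAux

open SideAux

/-- Sides near a point `θ ≠ k` are eventually constant along an ultrafilter. -/
theorem limit_loc (s : Sys) (hP : NPart s) (hS : NSide s) {a b : s.Z} (hu : Unsep s.ι a b)
    {c3 δ : ℝ} (hδ : 0 < δ) (hsmall : (1 + (s.S.card : ℝ) ^ 2) * δ < c3)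
    (h3 : ∀ x ∈ XB s.ι s.ν a b s.c0, ∀ p q : s.Z,
      c3 ≤ hh s.ν (sat s.ι a b (Blk s.ι a b \ {p, q})) x)
    (K U V : ℕ → Set s.Z)
    (hK : ∀ n, IsClosed (K n) ∧ K n ⊆ Blk s.ι a b ∧ (∀ η ∈ K n, ¬ IsCut s.ι η) ∧
      ∀ x, hh s.ν (K n) x = 0)
    (hU : ∀ n, ∃ O, IsOpen O ∧ O ∩ Blk s.ι a b = U n)
    (hV : ∀ n, ∃ O, IsOpen O ∧ O ∩ Blk s.ι a b = V n)
    (hd : ∀ n, Disjoint (U n) (V n)) (huv : ∀ n, U n ∪ V n = Blk s.ι a b \ K n)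
    (k : s.Z)
    (l : Ultrafilter ℕ)
    (hKk : ∀ ε : ℝ, 0 < ε → ∀ᶠ n in (l : Filter ℕ), ∀ z ∈ K n, dist z k < ε)
    (hwb : ∀ ε : ℝ, 0 < ε → ∃ F : Finset s.G, ∀ᶠ n in (l : Filter ℕ),
      ∀ x ∈ XB s.ι s.ν a b s.c0, x ∉ F → s.WB a b δ (U n) (V n) x → dist (s.ι x) k < ε) :
    ∀ θ ∈ T s.ι, θ ≠ k → ∃ r : ℝ, 0 < r ∧
      ((∀ᶠ n in (l : Filter ℕ), ∀ z ∈ T s.ι, dist z θ < r → z ∈ sat s.ι a b (U n)) ∨
       (∀ᶠ n in (l : Filter ℕ), ∀ z ∈ T s.ι, dist z θ < r → z ∈ sat s.ι a b (V n))) := by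
  have blk : ∀ θ ∈ Blk s.ι a b, θ ≠ k → ∃ r : ℝ, 0 < r ∧
      ((∀ᶠ n in (l : Filter ℕ), ∀ z ∈ T s.ι, dist z θ < r → z ∈ sat s.ι a b (U n)) ∨
       (∀ᶠ n in (l : Filter ℕ), ∀ z ∈ T s.ι, dist z θ < r → z ∈ sat s.ι a b (V n))) := by
    intro θ hθ hθk
    have hd0 : 0 < dist θ k := dist_pos.2 hθk
    set e0 : ℝ := dist θ k / 2 with he0
    have he0' : 0 < e0 := by positivity
    obtain ⟨F, hF⟩ := hwb e0 he0'
    obtain ⟨ρ, hρ, hρF⟩ := away s F hθ.1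
    have hε : 0 < min e0 ρ := lt_min he0' hρ
    obtain ⟨r, hr, hr'⟩ := hS a b hu c3 δ hδ hsmall h3 θ hθ (min e0 ρ) hε
    refine ⟨r, hr, ?_⟩
    rw [← Ultrafilter.eventually_or]
    filter_upwards [hF, hKk e0 he0'] with n hn1 hn2
    refine hr' (K n) (U n) (V n) (hK n).1 (hK n).2.1 (hK n).2.2.1 (hK n).2.2.2 (hU n) (hV n)
      (hd n) (huv n) ?_ ?_
    · intro z hz
      have h1 := hn2 z hz
      have h2 := dist_triangle_left θ k z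
      have : e0 ≤ dist z θ := by linarith
      exact (min_le_left _ _).trans this
    · intro x hx hxε hwbx
      have h1 := hn1 x hx (hρF x (hxε.trans_le (min_le_right _ _))) hwbx
      have h2 := hxε.trans_le (min_le_left _ _)
      have h3 := dist_triangle_left θ k (s.ι x)
      linarith
  intro θ hθ hθk
  obtain ⟨-, -, -, h4, -, h6⟩ := hP a b hu
  rcases h6 θ hθ with hB | ⟨η, hη, hηB, hθD⟩
  · exact blk θ hB hθk
  · obtain ⟨r, hr, hr'⟩ := ro_nhds (h4 η hη hηB).1.ro hθD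
    refine ⟨r, hr, ?_⟩
    have hη' : (∀ᶠ n in (l : Filter ℕ), η ∈ U n) ∨ (∀ᶠ n in (l : Filter ℕ), η ∈ V n) := by
      rw [← Ultrafilter.eventually_or]
      refine Eventually.of_forall fun n => ?_
      have : η ∈ U n ∪ V n := by
        rw [huv n]
        exact ⟨hηB, fun h => (hK n).2.2.1 η h hη⟩
      exact this
    rcases hη' with h | h
    · left
      filter_upwards [h] with n hn z hz hzr
      exact Or.inr ⟨η, hη, hn, hηB, hr' z hz hzr⟩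
    · right
      filter_upwards [h] with n hn z hz hzr
      exact Or.inr ⟨η, hη, hn, hηB, hr' z hz hzr⟩

/-- **Limit lemma.** -/
theorem limit_lemma (s : Sys) (hP : NPart s) (hS : NSide s) {a b : s.Z} (hu : Unsep s.ι a b)
    {c3 δ : ℝ} (hδ : 0 < δ) (hsmall : (1 + (s.S.card : ℝ) ^ 2) * δ < c3)
    (h3 : ∀ x ∈ XB s.ι s.ν a b s.c0, ∀ p q : s.Z,
      c3 ≤ hh s.ν (sat s.ι a b (Blk s.ι a b \ {p, q})) x)
    (K U V : ℕ → Set s.Z)
    (hK : ∀ n, IsClosed (K n) ∧ K n ⊆ Blk s.ι a b ∧ (∀ η ∈ K n, ¬ IsCut s.ι η) ∧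
      ∀ x, hh s.ν (K n) x = 0)
    (hU : ∀ n, ∃ O, IsOpen O ∧ O ∩ Blk s.ι a b = U n)
    (hV : ∀ n, ∃ O, IsOpen O ∧ O ∩ Blk s.ι a b = V n)
    (hd : ∀ n, Disjoint (U n) (V n)) (huv : ∀ n, U n ∪ V n = Blk s.ι a b \ K n)
    (k : s.Z) (hk : k ∈ T s.ι)
    (l : Ultrafilter ℕ)
    (hKk : ∀ ε : ℝ, 0 < ε → ∀ᶠ n in (l : Filter ℕ), ∀ z ∈ K n, dist z k < ε)
    (hwb : ∀ ε : ℝ, 0 < ε → ∃ F : Finset s.G, ∀ᶠ n in (l : Filter ℕ),
      ∀ x ∈ XB s.ι s.ν a b s.c0, x ∉ F → s.WB a b δ (U n) (V n) x → dist (s.ι x) k < ε) :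
    let UU : Set s.Z := {z | z ∈ T s.ι ∧ z ≠ k ∧ ∀ᶠ n in (l : Filter ℕ), z ∈ sat s.ι a b (U n)}
    let VV : Set s.Z := {z | z ∈ T s.ι ∧ z ≠ k ∧ ∀ᶠ n in (l : Filter ℕ), z ∈ sat s.ι a b (V n)}
    Clp s.ι k UU ∧ VV = cmp s.ι k UU ∧
    (∀ θ ∈ T s.ι, θ ≠ k → ∃ r : ℝ, 0 < r ∧
      ((∀ᶠ n in (l : Filter ℕ), ∀ z ∈ T s.ι, dist z θ < r → z ∈ sat s.ι a b (U n)) ∨
       (∀ᶠ n in (l : Filter ℕ), ∀ z ∈ T s.ι, dist z θ < r → z ∈ sat s.ι a b (V n)))) := by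
  intro UU VV
  have loc := limit_loc s hP hS hu hδ hsmall h3 K U V hK hU hV hd huv k l hKk hwb
  have hdis : ∀ n, Disjoint (sat s.ι a b (U n)) (sat s.ι a b (V n)) :=
    fun n => sat_disj hP hu (hd n)
  have hnot : ∀ z, (∀ᶠ n in (l : Filter ℕ), z ∈ sat s.ι a b (U n)) →
      (∀ᶠ n in (l : Filter ℕ), z ∈ sat s.ι a b (V n)) → False := by
    intro z h1 h2
    obtain ⟨n, h1', h2'⟩ := (h1.and h2).exists
    exact Set.disjoint_left.1 (hdis n) h1' h2'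
  have hcmp : VV = cmp s.ι k UU := by
    ext z
    constructor
    · rintro ⟨hzT, hzk, hz⟩
      exact ⟨hzT, hzk, fun h => hnot z h.2.2 hz⟩
    · rintro ⟨hzT, hzk, hz⟩
      refine ⟨hzT, hzk, ?_⟩
      obtain ⟨r, hr, h | h⟩ := loc z hzT hzk
      · exact absurd ⟨hzT, hzk, h.mono fun n hn => hn z hzT (by rwa [dist_self])⟩ hz
      · exact h.mono fun n hn => hn z hzT (by rwa [dist_self])
  have hro : RO s.ι UU := by
    refine ro_of_nhds ?_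
    rintro z ⟨hzT, hzk, hz⟩
    refine ⟨hzT, ?_⟩
    obtain ⟨r, hr, h | h⟩ := loc z hzT hzk
    · refine ⟨min r (dist z k), lt_min hr (dist_pos.2 hzk), fun w hw hwz => ⟨hw, ?_, ?_⟩⟩
      · rintro rfl
        have := hwz.trans_le (min_le_right _ _)
        rw [dist_comm] at this
        exact lt_irrefl _ this
      · exact h.mono fun n hn => hn w hw (hwz.trans_le (min_le_left _ _))
    · exact (hnot z hz (h.mono fun n hn => hn z hzT (by rwa [dist_self]))).elim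
  have hro' : RO s.ι VV := by
    refine ro_of_nhds ?_
    rintro z ⟨hzT, hzk, hz⟩
    refine ⟨hzT, ?_⟩
    obtain ⟨r, hr, h | h⟩ := loc z hzT hzk
    · exact (hnot z (h.mono fun n hn => hn z hzT (by rwa [dist_self])) hz).elim
    · refine ⟨min r (dist z k), lt_min hr (dist_pos.2 hzk), fun w hw hwz => ⟨hw, ?_, ?_⟩⟩
      · rintro rfl
        have := hwz.trans_le (min_le_right _ _)
        rw [dist_comm] at this
        exact lt_irrefl _ this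
      · exact h.mono fun n hn => hn w hw (hwz.trans_le (min_le_left _ _))
  refine ⟨⟨hk, fun h => h.2.1 rfl, hro, ?_⟩, hcmp, loc⟩
  rw [← hcmp]; exact hro'

end Crest.Agent.R224
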