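import Mathlib
import Crest.Agent.R224.Defs
import Crest.Agent.R224.Iface
import Crest.Agent.R224.T.Iface

-- ▼ part R224/Amen
section

/-!
Row 224 (S0346), helper792.  The amenable case: on a group with Følner sets every function with
finite energy is an energy limit of finitely supported functions.
Trace argument: `Q` = projection of `ℓ²(G × S)` on the gradients orthogonal to the gradients of
finitely supported functions; `tr (1_F Q 1_F) = c |F|` and `rank ≤ |∂F|`.
-/

set_option autoImplicit false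
set_option linter.unusedVariables false
set_option linter.unusedSectionVars false
set_option linter.unusedSimpArgs false
open scoped BigOperators RealInnerProductSpace Topology
open Filter

namespace Crest.Agent.R224.Amen

variable {G : Type*} [Group G]

abbrev L (S : Finset G) := lp (fun _ : G × S => ℝ) 2

/-- gradient -/
def grad (S : Finset G) (f : G → ℝ) : G × S → ℝ := fun p => f (p.1 * (p.2 : G)) - f p.1

theorem grad_add (S : Finset G) (f g : G → ℝ) : grad S (f + g) = grad S f + grad S g := by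
  funext p; simp only [grad, Pi.add_apply]; ring


theorem grad_smul (S : Finset G) (c : ℝ) (f : G → ℝ) : grad S (c • f) = c • grad S f := by
  funext p; simp only [grad, Pi.smul_apply, smul_eq_mul]; ring

/-- the space of square summable gradients -/
def Grad (S : Finset G) : Submodule ℝ (L S) where
  carrier := {b | ∃ h : G → ℝ, (b : G × S → ℝ) = grad S h}
  zero_mem' := ⟨0, by funext p; simp [grad]⟩
  add_mem' := by
    rintro a b ⟨h, hh⟩ ⟨k, hk⟩
    exact ⟨h + k, by rw [grad_add, lp.coeFn_add, hh, hk]⟩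
  smul_mem' := by
    rintro c a ⟨h, hh⟩
    exact ⟨c • h, by rw [grad_smul, lp.coeFn_smul, hh]⟩

theorem mem_Grad {S : Finset G} {b : L S} : b ∈ Grad S ↔ ∃ h : G → ℝ, (b : G × S → ℝ) = grad S h :=
  Iff.rfl

theorem tendsto_apply {S : Finset G} {b : ℕ → L S} {c : L S} (h : Tendsto b atTop (𝓝 c))
    (p : G × S) : Tendsto (fun n => b n p) atTop (𝓝 (c p)) := by
  rw [tendsto_iff_norm_sub_tendsto_zero] at h ⊢
  refine squeeze_zero (fun n => norm_nonneg _) (fun n => ?_) h
  have := lp.norm_apply_le_norm (p := 2) (by norm_num) (b n - c) p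
  simpa using this

theorem Grad_closed {S : Finset G} (hS : Subgroup.closure (S : Set G) = ⊤) :
    IsClosed (Grad S : Set (L S)) := by
  apply IsSeqClosed.isClosed
  intro b c hb hc
  choose h hh using fun n => mem_Grad.1 (hb n)
  have key : ∀ g : G, ∀ k : G, ∃ r : ℝ, Tendsto (fun n => h n (k * g) - h n k) atTop (𝓝 r) := by
    intro g
    have hg : g ∈ Subgroup.closure (S : Set G) := by rw [hS]; trivial
    induction hg using Subgroup.closure_induction with
    | mem x hx =>
      intro k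
      refine ⟨c (k, ⟨x, hx⟩), ?_⟩
      have := tendsto_apply hc (k, ⟨x, hx⟩)
      refine this.congr fun n => ?_
      rw [hh n]; rfl
    | one => intro k; exact ⟨0, by simp⟩
    | mul x y _ _ hx hy =>
      intro k
      obtain ⟨r, hr⟩ := hx k
      obtain ⟨r', hr'⟩ := hy (k * x)
      refine ⟨r' + r, (hr'.add hr).congr fun n => ?_⟩
      rw [mul_assoc]; ring
    | inv x _ hx =>
      intro k
      obtain ⟨r, hr⟩ := hx (k * x⁻¹)
      refine ⟨-r, hr.neg.congr fun n => ?_⟩
      rw [inv_mul_cancel_right]; ring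
  choose r hr using fun g => key g 1
  refine ⟨r, ?_⟩
  funext p
  refine tendsto_nhds_unique (tendsto_apply hc p) ?_
  have h1 := (hr (p.1 * p.2)).sub (hr p.1)
  refine h1.congr fun n => ?_
  rw [hh n]
  simp only [grad, one_mul]
  ring

theorem memlp_of_finite {S : Finset G} {b : G × S → ℝ} (h : (Function.support b).Finite) :
    Memℓp b 2 := by
  refine memℓp_gen ?_
  refine summable_of_hasFiniteSupport (h.subset ?_)
  intro p hp
  simp only [Function.mem_support] at hp ⊢
  intro h0
  apply hp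
  rw [h0]; simp

theorem memlp_iff {S : Finset G} {b : G × S → ℝ} :
    Memℓp b 2 ↔ Summable fun p => b p ^ 2 := by
  rw [memℓp_gen_iff (by norm_num)]
  simp

theorem support_grad_finite {S : Finset G} {u : G → ℝ} (hu : (Function.support u).Finite) :
    (Function.support (grad S u)).Finite := by
  have h1 : Function.support (grad S u) ⊆
      (⋃ s : S, (fun g => ((g * (s : G)⁻¹, s) : G × S)) '' Function.support u) ∪
      (⋃ s : S, (fun g => ((g, s) : G × S)) '' Function.support u) := by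
    rintro ⟨g, s⟩ hp
    simp only [Function.mem_support, grad] at hp
    by_cases h0 : u g = 0
    · left
      refine Set.mem_iUnion.2 ⟨s, g * s, ?_, by simp⟩
      intro h; apply hp; rw [h, h0]; simp
    · right
      exact Set.mem_iUnion.2 ⟨s, g, h0, rfl⟩
  refine Set.Finite.subset ?_ h1
  exact (Set.finite_iUnion fun s => hu.image _).union (Set.finite_iUnion fun s => hu.image _)

/-- gradients of finitely supported functions -/
def D0 (S : Finset G) : Submodule ℝ (L S) where
  carrier := {b | ∃ u : G → ℝ, (Function.support u).Finite ∧ (b : G × S → ℝ) = grad S u}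
  zero_mem' := ⟨0, by simp, by funext p; simp [grad]⟩
  add_mem' := by
    rintro a b ⟨h, hf, hh⟩ ⟨k, hf', hk⟩
    exact ⟨h + k, (hf.union hf').subset (Function.support_add _ _),
      by rw [grad_add, lp.coeFn_add, hh, hk]⟩
  smul_mem' := by
    rintro c a ⟨h, hf, hh⟩
    exact ⟨c • h, hf.subset (Function.support_const_smul_subset c h),
      by rw [grad_smul, lp.coeFn_smul, hh]⟩

/-- harmonic Dirichlet gradients -/
noncomputable def HD (S : Finset G) : Submodule ℝ (L S) := Grad S ⊓ (D0 S)ᗮ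

theorem HD_closed {S : Finset G} (hS : Subgroup.closure (S : Set G) = ⊤) :
    IsClosed (HD S : Set (L S)) := by
  have : (HD S : Set (L S)) = (Grad S : Set (L S)) ∩ ((D0 S)ᗮ : Submodule ℝ (L S)) := rfl
  rw [this]
  exact (Grad_closed hS).inter (Submodule.isClosed_orthogonal _)

section
variable [DecidableEq G]

/-- basis vector -/
noncomputable def dl {S : Finset G} (p : G × S) : L S := lp.single 2 p (1 : ℝ)

theorem inner_dl {S : Finset G} (p : G × S) (b : L S) : ⟪dl p, b⟫ = b p := by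
  rw [dl, lp.inner_single_left]; simp


/-- the gradient of a point mass -/
noncomputable def gpt (S : Finset G) (g : G) : L S :=
  ∑ s : S, (dl (g * (s : G)⁻¹, s) - dl (g, s))

theorem gpt_eq (S : Finset G) (g : G) : ((gpt S g : L S) : G × S → ℝ) = grad S (Pi.single g 1) := by
  funext p
  obtain ⟨k, t⟩ := p
  rw [← inner_dl, gpt, inner_sum]
  have : ∀ s : S, ⟪(dl (k, t) : L S), dl (g * (s : G)⁻¹, s) - dl (g, s)⟫ =
      if s = t then ((if k = g * (s:G)⁻¹ then (1:ℝ) else 0) - if k = g then 1 else 0) else 0 := by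
    intro s
    rw [inner_sub_right, inner_dl, inner_dl]
    simp only [dl, lp.coeFn_single]
    by_cases hst : s = t
    · subst hst
      simp [Pi.single_apply, Prod.ext_iff]
    · simp [Pi.single_apply, Prod.ext_iff, hst, Ne.symm hst, eq_comm]
  simp only [this, Finset.sum_ite_eq', Finset.mem_univ, if_true, grad, Pi.single_apply]
  congr 1
  by_cases h : k = g * (t : G)⁻¹
  · simp [h]
  · have h' : ¬ k * t = g := fun h' => h (by rw [← h']; group)
    simp [h, h']

theorem gpt_mem (S : Finset G) (g : G) : gpt S g ∈ D0 S := by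
  refine ⟨Pi.single g 1, ?_, gpt_eq S g⟩
  refine (Set.finite_singleton g).subset ?_
  intro k hk
  by_contra h
  simp only [Set.mem_singleton_iff] at h
  simp [Function.mem_support, Pi.single_apply, h] at hk

/-- elements of `HD` are harmonic -/
theorem harm_of_mem {S : Finset G} {b : L S} (hb : b ∈ HD S) (h : G → ℝ)
    (hh : (b : G × S → ℝ) = grad S h) (g : G) :
    ∑ s : S, ((h (g * (s : G)) - h g) + (h (g * (s : G)⁻¹) - h g)) = 0 := by
  have h1 : ⟪gpt S g, b⟫ = 0 := (Submodule.mem_orthogonal _ _).1 hb.2 _ (gpt_mem S g)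
  rw [gpt, sum_inner] at h1
  have h2 : ∀ s : S, ⟪(dl (g * (s : G)⁻¹, s) - dl (g, s) : L S), b⟫ =
      -((h (g * (s : G)) - h g) + (h (g * (s : G)⁻¹) - h g)) := by
    intro s
    rw [inner_sub_left, inner_dl, inner_dl, hh]
    simp only [grad, inv_mul_cancel_right]
    ring
  simp only [h2, Finset.sum_neg_distrib, neg_eq_zero] at h1
  exact h1

/-- outer vertex boundary -/
def bd (S F : Finset G) : Finset G :=
  (S.biUnion fun s => F.image (· * s) ∪ F.image (· * s⁻¹)) \ F

theorem mem_or_mem_bd {S F : Finset G} {g : G} (hg : g ∈ F) {s : G} (hs : s ∈ S) :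
    g * s ∈ F ∨ g * s ∈ bd S F := by
  by_cases h : g * s ∈ F
  · exact Or.inl h
  · right
    refine Finset.mem_sdiff.2 ⟨Finset.mem_biUnion.2 ⟨s, hs, Finset.mem_union_left _ ?_⟩, h⟩
    exact Finset.mem_image.2 ⟨g, hg, rfl⟩

theorem mem_or_mem_bd' {S F : Finset G} {g : G} (hg : g ∈ F) {s : G} (hs : s ∈ S) :
    g * s⁻¹ ∈ F ∨ g * s⁻¹ ∈ bd S F := by
  by_cases h : g * s⁻¹ ∈ F
  · exact Or.inl h
  · right
    refine Finset.mem_sdiff.2 ⟨Finset.mem_biUnion.2 ⟨s, hs, Finset.mem_union_right _ ?_⟩, h⟩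
    exact Finset.mem_image.2 ⟨g, hg, rfl⟩

theorem max_principle [Infinite G] {S : Finset G} (hS : Subgroup.closure (S : Set G) = ⊤)
    (F : Finset G) (h : G → ℝ)
    (hh : ∀ g ∈ F, ∑ s : S, ((h (g * (s : G)) - h g) + (h (g * (s : G)⁻¹) - h g)) = 0)
    (h0 : ∀ g ∈ bd S F, h g = 0) : ∀ g ∈ F, h g ≤ 0 := by
  intro g1 hg1
  by_contra hcon
  push Not at hcon
  obtain ⟨g0, hg0, hmax⟩ := F.exists_max_image h ⟨g1, hg1⟩
  set M := h g0 with hM
  have hMpos : 0 < M := hcon.trans_le (hmax g1 hg1)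
  have hle : ∀ x, (x ∈ F ∨ x ∈ bd S F) → h x ≤ M := by
    rintro x (hx | hx)
    · exact hmax x hx
    · rw [h0 x hx]; exact hMpos.le
  have step : ∀ g, (g ∈ F ∧ h g = M) → ∀ s ∈ S,
      (g * s ∈ F ∧ h (g * s) = M) ∧ (g * s⁻¹ ∈ F ∧ h (g * s⁻¹) = M) := by
    rintro g ⟨hg, hgM⟩ s hs
    have h1 := hh g hg
    have hneg : ∀ s : S, ((h (g * (s : G)) - h g) + (h (g * (s : G)⁻¹) - h g)) ≤ 0 := by
      intro t
      have e1 := hle _ (mem_or_mem_bd (S := S) hg t.2)
      have e2 := hle _ (mem_or_mem_bd' (S := S) hg t.2)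
      rw [hgM]; linarith
    have h2 := (Finset.sum_eq_zero_iff_of_nonpos (fun s _ => hneg s)).1 h1 ⟨s, hs⟩
      (Finset.mem_univ _)
    simp only at h2
    have e1 := hle _ (mem_or_mem_bd (S := S) hg hs)
    have e2 := hle _ (mem_or_mem_bd' (S := S) hg hs)
    have e3 : h (g * s) = M := by rw [hgM] at h2; linarith
    have e4 : h (g * s⁻¹) = M := by rw [hgM] at h2; linarith
    refine ⟨⟨?_, e3⟩, ⟨?_, e4⟩⟩
    · rcases mem_or_mem_bd (S := S) hg hs with h | h
      · exact h
      · rw [h0 _ h] at e3; exact absurd e3 hMpos.ne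
    · rcases mem_or_mem_bd' (S := S) hg hs with h | h
      · exact h
      · rw [h0 _ h] at e4; exact absurd e4 hMpos.ne
  have all : ∀ x : G, ∀ g, (g ∈ F ∧ h g = M) → (g * x ∈ F ∧ h (g * x) = M) ∧
      (g * x⁻¹ ∈ F ∧ h (g * x⁻¹) = M) := by
    intro x
    have hx : x ∈ Subgroup.closure (S : Set G) := by rw [hS]; trivial
    induction hx using Subgroup.closure_induction with
    | mem x hx => intro g hg; exact step g hg x hx
    | one => intro g hg; simpa using hg
    | mul x y _ _ hx hy =>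
      intro g hg
      refine ⟨?_, ?_⟩
      · have := (hy _ (hx g hg).1).1
        rwa [mul_assoc] at this
      · have := (hx _ (hy g hg).2).2
        rwa [mul_assoc, ← mul_inv_rev] at this
    | inv x _ hx =>
      intro g hg
      rw [inv_inv]
      exact ⟨(hx g hg).2, (hx g hg).1⟩
  have hfin : (Set.univ : Set G) ⊆ (F : Set G) := by
    intro x _
    have := (all (g0⁻¹ * x) g0 ⟨hg0, rfl⟩).1.1
    rw [mul_inv_cancel_left] at this
    exact this
  exact Set.infinite_univ (F.finite_toSet.subset hfin)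

theorem eq_zero_of_bd [Infinite G] {S : Finset G} (hS : Subgroup.closure (S : Set G) = ⊤)
    (F : Finset G) (h : G → ℝ)
    (hh : ∀ g ∈ F, ∑ s : S, ((h (g * (s : G)) - h g) + (h (g * (s : G)⁻¹) - h g)) = 0)
    (h0 : ∀ g ∈ bd S F, h g = 0) : ∀ g ∈ F, h g = 0 := by
  intro g hg
  refine le_antisymm (max_principle hS F h hh h0 g hg) ?_
  have := max_principle hS F (fun g => - h g) ?_ ?_ g hg
  · simpa using this
  · intro g hg
    have := hh g hg
    rw [← neg_eq_zero, ← Finset.sum_neg_distrib] at this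
    rw [← this]
    refine Finset.sum_congr rfl fun s _ => ?_
    ring
  · intro g hg; simp [h0 g hg]

/-- functions harmonic on `F` -/
def Harm (S F : Finset G) : Submodule ℝ (G → ℝ) where
  carrier := {h | ∀ g ∈ F, ∑ s : S, ((h (g * (s : G)) - h g) + (h (g * (s : G)⁻¹) - h g)) = 0}
  zero_mem' := by intro g _; simp
  add_mem' := by
    intro a b ha hb g hg
    have h1 := ha g hg
    have h2 := hb g hg
    have : ∀ s : S, (((a + b) (g * (s : G)) - (a + b) g) + ((a + b) (g * (s : G)⁻¹) - (a + b) g))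
      = ((a (g * (s : G)) - a g) + (a (g * (s : G)⁻¹) - a g)) +
        ((b (g * (s : G)) - b g) + (b (g * (s : G)⁻¹) - b g)) := by
      intro s; simp only [Pi.add_apply]; ring
    simp only [this, Finset.sum_add_distrib] at *
    rw [h1, h2, add_zero]
  smul_mem' := by
    intro c a ha g hg
    have h1 := ha g hg
    have : ∀ s : S, (((c • a) (g * (s : G)) - (c • a) g) + ((c • a) (g * (s : G)⁻¹) - (c • a) g))
      = c * ((a (g * (s : G)) - a g) + (a (g * (s : G)⁻¹) - a g)) := by
      intro s; simp only [Pi.smul_apply, smul_eq_mul]; ring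
    simp only [this, ← Finset.mul_sum]
    rw [h1, mul_zero]

/-- restriction of the gradient -/
def Rmap (S F : Finset G) : Harm S F →ₗ[ℝ] EuclideanSpace ℝ (F × S) where
  toFun h := WithLp.toLp 2 fun p => grad S (h : G → ℝ) (p.1, p.2)
  map_add' := by
    intro a b
    ext p
    simp only [Submodule.coe_add, grad_add, Pi.add_apply, PiLp.add_apply]
  map_smul' := by
    intro a b
    ext p
    simp only [Submodule.coe_smul, grad_smul, Pi.smul_apply, PiLp.smul_apply, RingHom.id_apply]

def Bmap (S F : Finset G) : Harm S F →ₗ[ℝ] (bd S F → ℝ) where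
  toFun h := fun p => (h : G → ℝ) p
  map_add' := by intro a b; rfl
  map_smul' := by intro a b; rfl

theorem ker_le [Infinite G] {S : Finset G} (hS : Subgroup.closure (S : Set G) = ⊤)
    (F : Finset G) : LinearMap.ker (Bmap S F) ≤ LinearMap.ker (Rmap S F) := by
  intro h hh
  rw [LinearMap.mem_ker] at hh ⊢
  have h0 : ∀ g ∈ bd S F, (h : G → ℝ) g = 0 := fun g hg => congrFun hh ⟨g, hg⟩
  have h1 := eq_zero_of_bd hS F h h.2 h0
  ext p
  show (h : G → ℝ) (p.1 * p.2) - (h : G → ℝ) p.1 = 0
  rw [h1 _ p.1.2]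
  rcases mem_or_mem_bd (S := S) p.1.2 p.2.2 with h' | h'
  · rw [h1 _ h', sub_zero]
  · rw [h0 _ h', sub_zero]

theorem finrank_range_le [Infinite G] {S : Finset G} (hS : Subgroup.closure (S : Set G) = ⊤)
    (F : Finset G) : Module.finrank ℝ (LinearMap.range (Rmap S F)) ≤ (bd S F).card := by
  have h1 : Module.finrank ℝ (LinearMap.range (Bmap S F)) ≤ (bd S F).card := by
    refine (Submodule.finrank_le _).trans ?_
    simp
  refine le_trans ?_ h1
  have e1 := (LinearMap.quotKerEquivRange (Bmap S F)).finrank_eq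
  have e2 := (LinearMap.quotKerEquivRange (Rmap S F)).finrank_eq
  rw [← e1, ← e2]
  have : FiniteDimensional ℝ ((Harm S F) ⧸ LinearMap.ker (Bmap S F)) :=
    LinearEquiv.finiteDimensional (LinearMap.quotKerEquivRange (Bmap S F)).symm
  exact LinearMap.finrank_le_finrank_of_surjective (f := Submodule.factor (ker_le hS F))
    (Submodule.factor_surjective _)

/-! ### translations -/

def shiftE (S : Finset G) (γ : G) : (G × S) ≃ (G × S) where
  toFun p := (γ * p.1, p.2)
  invFun p := (γ⁻¹ * p.1, p.2)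
  left_inv p := by simp
  right_inv p := by simp

noncomputable def Tr {S : Finset G} (γ : G) (b : L S) : L S :=
  ⟨fun p => b ((shiftE S γ).symm p), memlp_iff.2 (by
    have h := memlp_iff.1 b.2
    exact h.comp_injective (shiftE S γ).symm.injective)⟩

theorem Tr_apply {S : Finset G} (γ : G) (b : L S) (p : G × S) :
    Tr γ b p = b (γ⁻¹ * p.1, p.2) := rfl

theorem inner_Tr {S : Finset G} (γ : G) (b c : L S) : ⟪Tr γ b, c⟫ = ⟪b, Tr γ⁻¹ c⟫ := by
  rw [lp.inner_eq_tsum, lp.inner_eq_tsum, ← (shiftE S γ).tsum_eq]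
  refine tsum_congr fun p => ?_
  rw [Tr_apply, Tr_apply]
  simp [shiftE]

theorem Tr_Grad {S : Finset G} {b : L S} (hb : b ∈ Grad S) (γ : G) : Tr γ b ∈ Grad S := by
  obtain ⟨h, hh⟩ := hb
  refine ⟨fun g => h (γ⁻¹ * g), ?_⟩
  funext p
  rw [Tr_apply, hh]
  simp [grad, mul_assoc]

theorem Tr_D0 {S : Finset G} {b : L S} (hb : b ∈ D0 S) (γ : G) : Tr γ b ∈ D0 S := by
  obtain ⟨h, hf, hh⟩ := hb
  refine ⟨fun g => h (γ⁻¹ * g), ?_, ?_⟩
  · refine (hf.image (γ * ·)).subset ?_
    intro g hg
    exact ⟨γ⁻¹ * g, hg, by simp⟩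
  · funext p
    rw [Tr_apply, hh]
    simp [grad, mul_assoc]

theorem Tr_HD {S : Finset G} {b : L S} (hb : b ∈ HD S) (γ : G) : Tr γ b ∈ HD S := by
  refine ⟨Tr_Grad hb.1 γ, ?_⟩
  rw [SetLike.mem_coe, Submodule.mem_orthogonal]
  intro w hw
  have h2 := (Submodule.mem_orthogonal _ _).1 hb.2 _ (Tr_D0 hw γ⁻¹)
  rw [inner_Tr, inv_inv] at h2
  exact h2

/-! ### the trace inequality -/

theorem diag_eq {S : Finset G} (Q : L S → L S) (hQ1 : ∀ x, Q x ∈ HD S)
    (hQ2 : ∀ x, ∀ w ∈ HD S, ⟪x - Q x, w⟫ = 0) (γ : G) (p : G × S) :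
    Q (dl (γ * p.1, p.2)) (γ * p.1, p.2) = Q (dl p) p := by
  have huniq : ∀ x y, y ∈ HD S → (∀ w ∈ HD S, ⟪x, w⟫ = ⟪y, w⟫) → Q x = y := by
    intro x y hy hxy
    have h1 : Q x - y ∈ HD S := (HD S).sub_mem (hQ1 x) hy
    have h2 := hQ2 x _ h1
    have h3 := hxy _ h1
    rw [inner_sub_left, h3, ← inner_sub_left] at h2
    have h4 : ⟪Q x - y, Q x - y⟫ = 0 := by
      have : Q x - y = -(y - Q x) := by abel
      rw [this, inner_neg_left, ← this, h2, neg_zero]
    exact sub_eq_zero.1 (inner_self_eq_zero.1 h4)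
  have h5 : Q (dl (γ * p.1, p.2)) = Tr γ (Q (dl p)) := by
    apply huniq _ _ (Tr_HD (hQ1 _) γ)
    intro w hw
    rw [inner_Tr, inner_dl]
    have h6 := hQ2 (dl p) _ (Tr_HD hw γ⁻¹)
    rw [inner_sub_left, inner_dl, sub_eq_zero] at h6
    rw [← h6, Tr_apply, inv_inv]
  rw [h5, Tr_apply]
  simp

theorem norm_restrict_le {S : Finset G} (F : Finset G) (b : L S) :
    ‖(WithLp.toLp 2 (fun p : F × S => b (p.1, p.2)) : EuclideanSpace ℝ (F × S))‖ ≤ ‖b‖ := by
  rw [EuclideanSpace.norm_eq]
  apply Real.sqrt_le_iff.2 ⟨norm_nonneg _, ?_⟩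
  have h1 := lp.sum_rpow_le_norm_rpow (p := 2) (by norm_num) b
    (Finset.univ.image (fun p : F × S => ((p.1 : G), p.2)))
  rw [Finset.sum_image] at h1
  · simpa using h1
  · rintro ⟨a, b⟩ _ ⟨c, d⟩ _ h
    simp only [Prod.mk.injEq] at h ⊢
    exact ⟨Subtype.ext h.1, h.2⟩

theorem norm_ext {S : Finset G} (F : Finset G) (e : EuclideanSpace ℝ (F × S)) :
    ‖∑ p : F × S, e p • (dl ((p.1 : G), p.2) : L S)‖ = ‖e‖ := by
  classical
  let ι : F × S → G × S := fun p => ((p.1 : G), p.2)
  have hι : Function.Injective ι := by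
    rintro ⟨a, b⟩ ⟨c, d⟩ h
    simp only [ι, Prod.mk.injEq] at h ⊢
    exact ⟨Subtype.ext h.1, h.2⟩
  let f : G × S → ℝ := fun q => if h : q.1 ∈ F then e (⟨q.1, h⟩, q.2) else 0
  have hf : ∀ p, f (ι p) = e p := by
    rintro ⟨a, b⟩
    simp [f, ι]
  have h1 := lp.norm_sum_single (E := fun _ : G × S => ℝ) (p := 2) (by norm_num) f
    (Finset.univ.image ι)
  rw [Finset.sum_image (fun a _ b _ h => hι h), Finset.sum_image (fun a _ b _ h => hι h)] at h1
  have h2 : ∀ p : F × S, (lp.single (E := fun _ : G × S => ℝ) 2 (ι p) (f (ι p))) =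
      e p • (dl ((p.1 : G), p.2) : L S) := by
    intro p
    rw [hf, dl, ← lp.single_smul]
    simp [ι]
  have h3 : ∑ p : F × S, (lp.single (E := fun _ : G × S => ℝ) 2 (ι p) (f (ι p))) =
      ∑ p : F × S, e p • (dl ((p.1 : G), p.2) : L S) := Finset.sum_congr rfl fun p _ => h2 p
  rw [h3] at h1
  simp only [hf] at h1
  rw [EuclideanSpace.norm_eq]
  symm
  rw [Real.sqrt_eq_iff_eq_sq (by positivity) (norm_nonneg _)]
  have h4 : ‖∑ p : F × S, e p • (dl ((p.1 : G), p.2) : L S)‖ ^ 2 = ∑ p : F × S, ‖e p‖ ^ 2 := by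
    exact_mod_cast h1
  rw [h4]

theorem trace_le [Infinite G] {S : Finset G} (hS : Subgroup.closure (S : Set G) = ⊤)
    (Q : L S →ₗ[ℝ] L S) (hQ1 : ∀ x, Q x ∈ HD S) (hQn : ∀ x, ‖Q x‖ ≤ ‖x‖) (F : Finset G) :
    ∑ q : F × S, Q (dl ((q.1 : G), q.2)) ((q.1 : G), q.2) ≤ (bd S F).card := by
  classical
  set V := LinearMap.range (Rmap S F) with hV
  let R : L S →ₗ[ℝ] EuclideanSpace ℝ (F × S) :=
    { toFun := fun b => WithLp.toLp 2 (fun p : F × S => b (p.1, p.2))
      map_add' := by intro a b; rfl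
      map_smul' := by intro a b; rfl }
  have hRV : ∀ x, R (Q x) ∈ V := by
    intro x
    obtain ⟨h, hh⟩ := (hQ1 x).1
    have hharm := harm_of_mem (hQ1 x) h hh
    refine ⟨⟨h, fun g _ => hharm g⟩, ?_⟩
    ext p
    show grad S h (p.1, p.2) = Q x (p.1, p.2)
    rw [hh]
  let e := stdOrthonormalBasis ℝ V
  have hexp : ∀ q : F × S, Q (dl ((q.1 : G), q.2)) ((q.1 : G), q.2) =
      ∑ i, ⟪(e i : EuclideanSpace ℝ (F × S)), R (Q (dl ((q.1 : G), q.2)))⟫ *
        (e i : EuclideanSpace ℝ (F × S)) q := by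
    intro q
    have h1 := e.sum_repr' ⟨R (Q (dl ((q.1 : G), q.2))), hRV _⟩
    have h2 := congrArg (fun v : V => (v : EuclideanSpace ℝ (F × S)) q) h1
    simp only [Submodule.coe_sum, Submodule.coe_smul, WithLp.ofLp_sum, Finset.sum_apply,
      PiLp.smul_apply, smul_eq_mul, Submodule.coe_inner] at h2
    exact h2.symm
  simp only [hexp]
  rw [Finset.sum_comm]
  have hterm : ∀ i, ∑ q : F × S, ⟪(e i : EuclideanSpace ℝ (F × S)),
      R (Q (dl ((q.1 : G), q.2)))⟫ * (e i : EuclideanSpace ℝ (F × S)) q ≤ 1 := by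
    intro i
    have h1 : ∑ q : F × S, ⟪(e i : EuclideanSpace ℝ (F × S)),
      R (Q (dl ((q.1 : G), q.2)))⟫ * (e i : EuclideanSpace ℝ (F × S)) q =
        ⟪(e i : EuclideanSpace ℝ (F × S)),
          R (Q (∑ q : F × S, (e i : EuclideanSpace ℝ (F × S)) q • dl ((q.1 : G), q.2)))⟫ := by
      simp only [map_sum, map_smul, inner_sum, inner_smul_right]
      refine Finset.sum_congr rfl fun q _ => ?_
      ring
    rw [h1]
    refine (real_inner_le_norm _ _).trans ?_
    have h2 : ‖(e i : EuclideanSpace ℝ (F × S))‖ = 1 := e.orthonormal.1 i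
    rw [h2, one_mul]
    refine (norm_restrict_le F _).trans ((hQn _).trans ?_)
    rw [norm_ext, h2]
  refine (Finset.sum_le_sum fun i _ => hterm i).trans ?_
  rw [Finset.sum_const, Finset.card_univ, Fintype.card_fin, nsmul_eq_mul, mul_one]
  exact_mod_cast finrank_range_le hS F

/-- no harmonic Dirichlet gradients on groups with Følner sets -/
theorem HD_eq_bot [Infinite G] {S : Finset G} (hS : Subgroup.closure (S : Set G) = ⊤)
    (hA : ∀ ε : ℝ, 0 < ε → ∃ F : Finset G, F.Nonempty ∧ ((bd S F).card : ℝ) ≤ ε * F.card) :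
    HD S = ⊥ := by
  classical
  have : CompleteSpace (HD S) := (HD_closed hS).completeSpace_coe
  let Q : L S →ₗ[ℝ] L S := ((HD S).starProjection : L S →L[ℝ] L S)
  have hQ1 : ∀ x, Q x ∈ HD S := fun x => Submodule.starProjection_apply_mem _ x
  have hQ2 : ∀ x, ∀ w ∈ HD S, ⟪x - Q x, w⟫ = 0 := by
    intro x w hw
    exact Submodule.starProjection_inner_eq_zero _ w hw
  have hQn : ∀ x, ‖Q x‖ ≤ ‖x‖ := fun x => Submodule.norm_starProjection_apply_le _ x
  set c : ℝ := ∑ s : S, Q (dl (1, s)) (1, s) with hc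
  have hnn : ∀ p : G × S, Q (dl p) p = ‖Q (dl p)‖ ^ 2 := by
    intro p
    have h1 := hQ2 (dl p) _ (hQ1 (dl p))
    rw [inner_sub_left, inner_dl, sub_eq_zero, real_inner_self_eq_norm_sq] at h1
    exact h1
  have hc0 : 0 ≤ c := Finset.sum_nonneg fun s _ => by rw [hnn]; positivity
  have hmain : ∀ F : Finset G, c * F.card ≤ (bd S F).card := by
    intro F
    refine le_trans (le_of_eq ?_) (trace_le hS Q hQ1 hQn F)
    have h1 : ∀ q : F × S, Q (dl ((q.1 : G), q.2)) ((q.1 : G), q.2) = Q (dl (1, q.2)) (1, q.2) := by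
      intro q
      have := diag_eq Q hQ1 hQ2 (q.1 : G) (1, q.2)
      simpa using this
    simp only [h1]
    rw [Fintype.sum_prod_type]
    simp only
    rw [Finset.sum_const, ← hc, Finset.card_univ, Fintype.card_coe, nsmul_eq_mul, mul_comm]
  have hc1 : c = 0 := by
    by_contra hne
    have hpos : 0 < c := lt_of_le_of_ne hc0 (Ne.symm hne)
    obtain ⟨F, hF, hF2⟩ := hA (c / 2) (by linarith)
    have h1 := (hmain F).trans hF2
    have h2 : (0 : ℝ) < F.card := by exact_mod_cast hF.card_pos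
    nlinarith
  have hz : ∀ s : S, Q (dl (1, s)) (1, s) = 0 := by
    intro s
    exact (Finset.sum_eq_zero_iff_of_nonneg (fun s _ => by rw [hnn]; positivity)).1 hc1 s
      (Finset.mem_univ _)
  have hz2 : ∀ p : G × S, Q (dl p) = 0 := by
    intro p
    have h1 := diag_eq Q hQ1 hQ2 p.1 (1, p.2)
    simp only [mul_one] at h1
    rw [hz, hnn] at h1
    have : ‖Q (dl p)‖ = 0 := by
      have : ‖Q (dl p)‖ ^ 2 = 0 := h1
      exact pow_eq_zero_iff (by norm_num) |>.1 this
    exact norm_eq_zero.1 this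
  rw [eq_bot_iff]
  intro b hb
  rw [Submodule.mem_bot]
  ext p
  have h1 := hQ2 (dl p) b hb
  rw [hz2, sub_zero, inner_dl] at h1
  rw [h1]; rfl

end

/-- the conclusion of S0346 for one function, from `HD S = ⊥` -/
theorem approx_of_HD {S : Finset G} (hS : Subgroup.closure (S : Set G) = ⊤)
    (hHD : HD S = ⊥) (f : G → ℝ)
    (hf : Summable fun p : G × S => (f (p.1 * (p.2 : G)) - f p.1) ^ 2) (ε : ℝ) (hε : 0 < ε) :
    ∃ u : G → ℝ, (Function.support u).Finite ∧
      ∃ E : ℝ, HasSum (fun p : G × S =>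
        ((f - u) (p.1 * (p.2 : G)) - (f - u) p.1) ^ 2) E ∧ E < ε := by
  classical
  let b : L S := ⟨grad S f, memlp_iff.2 hf⟩
  have hbG : b ∈ Grad S := ⟨f, rfl⟩
  have hcl : (D0 S).topologicalClosure ≤ Grad S := by
    refine Submodule.topologicalClosure_minimal _ ?_ (Grad_closed hS)
    rintro a ⟨u, _, hu⟩
    exact ⟨u, hu⟩
  have hb : b ∈ (D0 S).topologicalClosure := by
    have : CompleteSpace ((D0 S).topologicalClosure) :=
      (Submodule.isClosed_topologicalClosure _).completeSpace_coe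
    let P := (D0 S).topologicalClosure.starProjection b
    have hP : P ∈ (D0 S).topologicalClosure := Submodule.starProjection_apply_mem _ b
    have h1 : b - P ∈ HD S := by
      refine ⟨(Grad S).sub_mem hbG (hcl hP), ?_⟩
      rw [SetLike.mem_coe, Submodule.mem_orthogonal']
      intro w hw
      exact Submodule.starProjection_inner_eq_zero _ w ((D0 S).le_topologicalClosure hw)
    rw [hHD, Submodule.mem_bot, sub_eq_zero] at h1
    rw [h1]; exact hP
  have hb2 : b ∈ closure ((D0 S : Submodule ℝ (L S)) : Set (L S)) := hb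
  rw [Metric.mem_closure_iff] at hb2
  obtain ⟨a, ⟨u, hu, hau⟩, hd⟩ := hb2 (Real.sqrt ε) (Real.sqrt_pos.2 hε)
  refine ⟨u, hu, ‖b - a‖ ^ 2, ?_, ?_⟩
  · have h2 := lp.hasSum_norm (p := 2) (by norm_num) (b - a)
    have h3 : ∀ p, (b - a) p = (f - u) (p.1 * (p.2 : G)) - (f - u) p.1 := by
      intro p
      rw [lp.coeFn_sub, Pi.sub_apply, hau]
      show grad S f p - grad S u p = _
      simp only [grad, Pi.sub_apply]; ring
    simpa [h3] using h2
  · rw [dist_eq_norm] at hd
    have := Real.lt_sqrt (norm_nonneg (b - a)) |>.1 hd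
    exact this


/-- the finite case -/
theorem finite_case [Finite G] {S : Finset G} (f : G → ℝ) (ε : ℝ) (hε : 0 < ε) :
    ∃ u : G → ℝ, (Function.support u).Finite ∧
      ∃ E : ℝ, HasSum (fun p : G × S =>
        ((f - u) (p.1 * (p.2 : G)) - (f - u) p.1) ^ 2) E ∧ E < ε := by
  refine ⟨f, Set.toFinite _, 0, ?_, hε⟩
  simp

end Crest.Agent.R224.Amen
end

-- ▼ part R224/Energy
section

/-!
Row 224 (S0346), helper792.  Comparison of energies for two finite sets, and the reduction of
S0346 to `HD T = ⊥` for one finite generating set `T`; dichotomy with the isoperimetric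
inequality.
-/

set_option autoImplicit false
set_option maxHeartbeats 400000
set_option linter.unusedVariables false
set_option linter.unusedSectionVars false
open scoped BigOperators RealInnerProductSpace Topology
open Filter

namespace Crest.Agent.R224

variable {G : Type} [Group G]

theorem En_nonneg (T : Finset G) (f : G → ℝ) : 0 ≤ En T f := tsum_nonneg fun p => sq_nonneg _

theorem dir_elem {T : Finset G} {f : G → ℝ} (hf : Dir T f) {t : G} (ht : t ∈ T) :
    Summable (fun g => (f (g * t) - f g) ^ 2) ∧ ∑' g, (f (g * t) - f g) ^ 2 ≤ En T f := by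
  have hi : Function.Injective (fun g : G => ((g, ⟨t, ht⟩) : G × T)) := by
    intro a b h; simpa using h
  have h1 : Summable ((fun p : G × T => (f (p.1 * (p.2 : G)) - f p.1) ^ 2) ∘
      (fun g : G => ((g, ⟨t, ht⟩) : G × T))) := Summable.comp_injective hf hi
  refine ⟨h1, ?_⟩
  have h2 := tsum_comp_le_tsum_of_inj (f := fun p : G × T => (f (p.1 * (p.2 : G)) - f p.1) ^ 2)
    hf (fun p => sq_nonneg _) hi
  exact h2

theorem dir_of_elem {T : Finset G} {f : G → ℝ}
    (h : ∀ t ∈ T, Summable (fun g => (f (g * t) - f g) ^ 2)) : Dir T f := by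
  have h1 : Summable fun p : T × G => (f (p.2 * (p.1 : G)) - f p.2) ^ 2 := by
    rw [summable_prod_of_nonneg (fun p => sq_nonneg _)]
    exact ⟨fun t => h t t.2, Summable.of_finite⟩
  exact ((Equiv.prodComm G T).summable_iff (f := fun p : T × G =>
    (f (p.2 * (p.1 : G)) - f p.2) ^ 2)).2 h1

theorem En_eq_sum {T : Finset G} {f : G → ℝ} (hf : Dir T f) :
    En T f = ∑ t : T, ∑' g, (f (g * (t : G)) - f g) ^ 2 := by
  have h1 := (Equiv.prodComm T G).tsum_eq (fun p : G × T => (f (p.1 * (p.2 : G)) - f p.1) ^ 2)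
  rw [En, ← h1]
  have h2 : Summable fun p : T × G => (f (p.2 * (p.1 : G)) - f p.2) ^ 2 :=
    ((Equiv.prodComm T G).summable_iff (f := fun p : G × T =>
      (f (p.1 * (p.2 : G)) - f p.1) ^ 2)).2 hf
  have h3 := h2.tsum_prod
  rw [show (∑' c : T × G, (fun p : G × T => (f (p.1 * (p.2 : G)) - f p.1) ^ 2)
    ((Equiv.prodComm T G) c)) = ∑' p : T × G, (f (p.2 * (p.1 : G)) - f p.2) ^ 2 from rfl, h3,
    tsum_fintype]

/-- every translation difference of a Dirichlet function is square summable, with a constant that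
only depends on the translation -/
theorem elem_bound {S : Finset G} (hS : Subgroup.closure (S : Set G) = ⊤) (t : G) :
    ∃ C : ℝ, 0 ≤ C ∧ ∀ f : G → ℝ, Dir S f →
      Summable (fun g => (f (g * t) - f g) ^ 2) ∧ ∑' g, (f (g * t) - f g) ^ 2 ≤ C * En S f := by
  have ht : t ∈ Subgroup.closure (S : Set G) := by rw [hS]; trivial
  induction ht using Subgroup.closure_induction with
  | mem x hx =>
    refine ⟨1, zero_le_one, fun f hf => ?_⟩
    rw [one_mul]
    exact dir_elem hf hx
  | one => exact ⟨0, le_rfl, fun f hf => by simpa using summable_zero⟩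
  | mul x y _ _ hx hy =>
    obtain ⟨C, hC0, hC⟩ := hx
    obtain ⟨D, hD0, hD⟩ := hy
    refine ⟨2 * (C + D), by positivity, fun f hf => ?_⟩
    obtain ⟨h1, h2⟩ := hC f hf
    obtain ⟨h3, h4⟩ := hD f hf
    have h5 : Summable (fun g => (f (g * x * y) - f (g * x)) ^ 2) :=
      h3.comp_injective (mul_left_injective x)
    have h6 : ∑' g, (f (g * x * y) - f (g * x)) ^ 2 = ∑' g, (f (g * y) - f g) ^ 2 :=
      (Equiv.mulRight x).tsum_eq (fun g => (f (g * y) - f g) ^ 2)
    have hle : ∀ g, (f (g * (x * y)) - f g) ^ 2 ≤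
        2 * (f (g * x * y) - f (g * x)) ^ 2 + 2 * (f (g * x) - f g) ^ 2 := by
      intro g
      rw [← mul_assoc]
      nlinarith [sq_nonneg ((f (g * x * y) - f (g * x)) - (f (g * x) - f g))]
    have h7 : Summable (fun g => 2 * (f (g * x * y) - f (g * x)) ^ 2 + 2 * (f (g * x) - f g) ^ 2) :=
      (h5.mul_left 2).add (h1.mul_left 2)
    have h8 : Summable (fun g => (f (g * (x * y)) - f g) ^ 2) :=
      Summable.of_nonneg_of_le (fun g => sq_nonneg _) hle h7
    refine ⟨h8, (h8.tsum_le_tsum hle h7).trans ?_⟩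
    rw [(h5.mul_left 2).tsum_add (h1.mul_left 2), tsum_mul_left, tsum_mul_left, h6]
    nlinarith
  | inv x _ hx =>
    obtain ⟨C, hC0, hC⟩ := hx
    refine ⟨C, hC0, fun f hf => ?_⟩
    obtain ⟨h1, h2⟩ := hC f hf
    have e : ∀ g, (f (g * x⁻¹) - f g) ^ 2 = (f ((g * x⁻¹) * x) - f (g * x⁻¹)) ^ 2 := by
      intro g; rw [inv_mul_cancel_right]; ring
    simp only [e]
    refine ⟨h1.comp_injective (mul_left_injective x⁻¹), ?_⟩
    have h6 : ∑' g, (f (g * x⁻¹ * x) - f (g * x⁻¹)) ^ 2 = ∑' g, (f (g * x) - f g) ^ 2 :=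
      (Equiv.mulRight x⁻¹).tsum_eq (fun g => (f (g * x) - f g) ^ 2)
    rw [h6]
    exact h2

/-- comparison of energies -/
theorem dir_transfer {S : Finset G} (hS : Subgroup.closure (S : Set G) = ⊤) (T : Finset G) :
    ∃ C : ℝ, 0 ≤ C ∧ ∀ f : G → ℝ, Dir S f → Dir T f ∧ En T f ≤ C * En S f := by
  choose C hC0 hC using fun t : G => elem_bound hS t
  refine ⟨∑ t : T, C t, Finset.sum_nonneg fun t _ => hC0 t, fun f hf => ?_⟩
  have h1 : Dir T f := dir_of_elem fun t _ => (hC t f hf).1
  refine ⟨h1, ?_⟩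
  rw [En_eq_sum h1, Finset.sum_mul]
  exact Finset.sum_le_sum fun t _ => (hC t f hf).2

theorem finsupp_dir (T : Finset G) {u : G → ℝ} (hu : (Function.support u).Finite) : Dir T u :=
  Amen.memlp_iff.1 (Amen.memlp_of_finite (Amen.support_grad_finite (S := T) hu))

theorem Dir.sub {T : Finset G} {f u : G → ℝ} (hf : Dir T f) (hu : Dir T u) : Dir T (f - u) := by
  have h1 : Summable fun p : G × T => 2 * (f (p.1 * (p.2 : G)) - f p.1) ^ 2 +
    2 * (u (p.1 * (p.2 : G)) - u p.1) ^ 2 := (Summable.mul_left 2 hf).add (Summable.mul_left 2 hu)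
  refine Summable.of_nonneg_of_le (fun p => sq_nonneg _) (fun p => ?_) h1
  simp only [Pi.sub_apply]
  nlinarith [sq_nonneg ((f (p.1 * (p.2 : G)) - f p.1) + (u (p.1 * (p.2 : G)) - u p.1))]

/-- it suffices to treat one finite generating set -/
theorem reduction {S T : Finset G} (hS : Subgroup.closure (S : Set G) = ⊤)
    (hT : Subgroup.closure (T : Set G) = ⊤) (hHD : Amen.HD T = ⊥) (f : G → ℝ)
    (hf : Summable fun p : G × S => (f (p.1 * (p.2 : G)) - f p.1) ^ 2) (ε : ℝ) (hε : 0 < ε) :
    ∃ u : G → ℝ, (Function.support u).Finite ∧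
      ∃ E : ℝ, HasSum (fun p : G × S =>
        ((f - u) (p.1 * (p.2 : G)) - (f - u) p.1) ^ 2) E ∧ E < ε := by
  obtain ⟨C, hC0, hC⟩ := dir_transfer hS T
  obtain ⟨D, hD0, hD⟩ := dir_transfer hT S
  obtain ⟨u, hu, E, hE, hEε⟩ := Amen.approx_of_HD hT hHD f (hC f hf).1 (ε / (D + 1))
    (by positivity)
  refine ⟨u, hu, En S (f - u), ?_, ?_⟩
  · exact (Dir.sub (T := S) hf (finsupp_dir S hu)).hasSum
  · have h1 : En T (f - u) = E := hE.tsum_eq
    have h2 := (hD (f - u) hE.summable).2
    rw [h1] at h2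
    have h4 : 0 ≤ E := by rw [← h1]; exact En_nonneg _ _
    calc En S (f - u) ≤ D * E := h2
      _ ≤ (D + 1) * E := by nlinarith
      _ < (D + 1) * (ε / (D + 1)) := by
          apply mul_lt_mul_of_pos_left hEε; positivity
      _ = ε := by field_simp


/-! ### the reduction used in the final assembly -/

/-- a Dirichlet function that is square summable up to a constant is an energy limit of finitely
supported functions; in terms of `HD` -/
theorem HD_eq_bot_of_l2 {T : Finset G}
    (h : ∀ f : G → ℝ, Dir T f → ∃ c : ℝ, Summable fun x => (f x - c) ^ 2) : Amen.HD T = ⊥ := by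
  classical
  rw [eq_bot_iff]
  intro b hb
  rw [Submodule.mem_bot]
  obtain ⟨f, hf⟩ := hb.1
  have hdir : Dir T f := by
    have := Amen.memlp_iff.1 b.2
    rw [hf] at this
    exact this
  obtain ⟨c, hc⟩ := h f hdir
  -- finite truncations
  let u : Finset G → G → ℝ := fun F g => if g ∈ F then f g - c else 0
  have husupp : ∀ F, (Function.support (u F)).Finite := by
    intro F
    refine F.finite_toSet.subset ?_
    intro g hg
    by_contra hgF
    apply hg
    have hgF' : g ∉ F := fun h => hgF h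
    simp only [u]
    rw [if_neg hgF']
  let a : Finset G → Amen.L T := fun F => ⟨Amen.grad T (u F),
    Amen.memlp_of_finite (Amen.support_grad_finite (husupp F))⟩
  have ha : ∀ F, a F ∈ Amen.D0 T := fun F => ⟨u F, husupp F, rfl⟩
  have horth : ∀ F, ⟪a F, b⟫ = 0 := fun F => (Submodule.mem_orthogonal _ _).1 hb.2 _ (ha F)
  -- energy estimate
  have hen : ∀ w : G → ℝ, Summable (fun x => w x ^ 2) → ∀ B : Amen.L T,
      (B : G × T → ℝ) = Amen.grad T w → ‖B‖ ^ 2 ≤ 4 * T.card * ∑' x, w x ^ 2 := by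
    intro w hw B hB
    have h1 : ‖B‖ ^ 2 = ∑' p : G × T, (w (p.1 * (p.2 : G)) - w p.1) ^ 2 := by
      have := lp.norm_rpow_eq_tsum (p := 2) (by norm_num) B
      simp only [hB, Amen.grad] at this
      simpa using this
    have hdw : Dir T w := by
      have := Amen.memlp_iff.1 B.2
      rw [hB] at this
      exact this
    rw [h1]
    show En T w ≤ _
    rw [En_eq_sum hdw]
    have h2 : ∀ t : T, ∑' g, (w (g * (t : G)) - w g) ^ 2 ≤ 4 * ∑' x, w x ^ 2 := by
      intro t
      have h3 : Summable (fun g => w (g * (t : G)) ^ 2) :=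
        hw.comp_injective (mul_left_injective (t : G))
      have h4 : ∑' g, w (g * (t : G)) ^ 2 = ∑' x, w x ^ 2 :=
        (Equiv.mulRight (t : G)).tsum_eq (fun x => w x ^ 2)
      have h5 := (dir_elem hdw t.2).1
      have h6 : Summable (fun g => 2 * w (g * (t : G)) ^ 2 + 2 * w g ^ 2) :=
        (h3.mul_left 2).add (hw.mul_left 2)
      refine (h5.tsum_le_tsum (fun g => ?_) h6).trans ?_
      · nlinarith [sq_nonneg (w (g * (t : G)) + w g)]
      · rw [(h3.mul_left 2).tsum_add (hw.mul_left 2), tsum_mul_left, tsum_mul_left, h4]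
        linarith
    refine (Finset.sum_le_sum fun t _ => h2 t).trans ?_
    rw [Finset.sum_const, Finset.card_univ, Fintype.card_coe, nsmul_eq_mul]
    linarith
  -- tails
  have htail : Tendsto (fun F : Finset G => ∑' x, (f x - c - u F x) ^ 2) atTop (𝓝 0) := by
    have h1 : ∀ F : Finset G, ∑' x, (f x - c - u F x) ^ 2 =
        ∑' x, (f x - c) ^ 2 - ∑ x ∈ F, (f x - c) ^ 2 := by
      intro F
      have e : ∀ x, (f x - c - u F x) ^ 2 =
          (f x - c) ^ 2 - (if x ∈ F then (f x - c) ^ 2 else 0) := by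
        intro x
        simp only [u]
        split_ifs <;> simp
      have hs : Summable (fun x => if x ∈ F then (f x - c) ^ 2 else 0) :=
        summable_of_hasFiniteSupport (F.finite_toSet.subset (by
          intro x hx
          by_contra h
          apply hx
          simp only [Finset.mem_coe] at h
          simp [h]))
      simp only [e]
      rw [hc.tsum_sub hs]
      congr 1
      rw [tsum_eq_sum (s := F) (fun x (hx : x ∉ F) => if_neg hx)]
      exact Finset.sum_congr rfl fun x hx => if_pos hx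
    simp only [h1]
    have h2 : Tendsto (fun F : Finset G => ∑ x ∈ F, (f x - c) ^ 2) atTop
      (𝓝 (∑' x, (f x - c) ^ 2)) := hc.hasSum
    have h3 := (tendsto_const_nhds (x := ∑' x, (f x - c) ^ 2)).sub h2
    simpa using h3
  have hnorm : ∀ F : Finset G, ‖b‖ ^ 2 ≤ 4 * T.card * ∑' x, (f x - c - u F x) ^ 2 := by
    intro F
    have hs : Summable fun x => (f x - c - u F x) ^ 2 := by
      have h1 : Summable fun x => 2 * (f x - c) ^ 2 + 2 * (u F x) ^ 2 := by
        refine (hc.mul_left 2).add (Summable.mul_left 2 ?_)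
        refine summable_of_hasFiniteSupport ((husupp F).subset ?_)
        intro x hx h0
        apply hx
        simp only [h0]; norm_num
      refine Summable.of_nonneg_of_le (fun x => sq_nonneg _) (fun x => ?_) h1
      nlinarith [sq_nonneg ((f x - c) + u F x)]
    have h1 := hen (fun x => f x - c - u F x) hs (b - a F) (by
      rw [lp.coeFn_sub, hf]
      funext p
      show Amen.grad T f p - Amen.grad T (u F) p = _
      simp only [Amen.grad]; ring)
    refine le_trans ?_ h1
    have h2 : ⟪b - a F, b⟫ = ‖b‖ ^ 2 := by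
      rw [inner_sub_left, horth, sub_zero, real_inner_self_eq_norm_sq]
    have h3 := real_inner_le_norm (b - a F) b
    rw [h2] at h3
    by_cases hb0 : ‖b‖ = 0
    · rw [hb0]; simp only [ne_eq, OfNat.ofNat_ne_zero, not_false_eq_true, zero_pow]
      exact sq_nonneg _
    · have hbpos : 0 < ‖b‖ := lt_of_le_of_ne (norm_nonneg _) (Ne.symm hb0)
      have h4 : ‖b‖ ≤ ‖b - a F‖ := by nlinarith
      exact pow_le_pow_left₀ (norm_nonneg _) h4 2
  have hlim : Tendsto (fun F : Finset G => 4 * (T.card : ℝ) * ∑' x, (f x - c - u F x) ^ 2) atTop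
      (𝓝 (4 * (T.card : ℝ) * 0)) := htail.const_mul _
  rw [mul_zero] at hlim
  have h0 : ‖b‖ ^ 2 ≤ 0 := ge_of_tendsto' hlim hnorm
  have h1 : ‖b‖ = 0 := by
    have : ‖b‖ ^ 2 = 0 := le_antisymm h0 (sq_nonneg _)
    exact pow_eq_zero_iff (two_ne_zero) |>.1 this
  exact norm_eq_zero.1 h1

/-- vertex boundary versus edge boundary -/
theorem vbd_card_le [DecidableEq G] {T : Finset G} (hinv : ∀ s ∈ T, s⁻¹ ∈ T) (F : Finset G) :
    (Amen.bd T F).card ≤ (bd T (F : Set G)).ncard := by
  classical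
  have hex : ∀ y ∈ Amen.bd T F, ∃ g ∈ F, g⁻¹ * y ∈ T := by
    intro y hy
    rw [Amen.bd, Finset.mem_sdiff, Finset.mem_biUnion] at hy
    obtain ⟨⟨s, hs, hy1⟩, hy2⟩ := hy
    rcases Finset.mem_union.1 hy1 with h | h
    · obtain ⟨g, hg, rfl⟩ := Finset.mem_image.1 h
      exact ⟨g, hg, by simpa using hs⟩
    · obtain ⟨g, hg, rfl⟩ := Finset.mem_image.1 h
      exact ⟨g, hg, by simpa using hinv s hs⟩
  choose! p hp1 hp2 using hex
  have hfin : (bd T (F : Set G)).Finite := by
    refine ((F ×ˢ (F.biUnion fun g => T.image (g * ·))).finite_toSet).subset ?_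
    rintro ⟨a, b⟩ ⟨h1, h2, h3⟩
    simp only [Finset.coe_product, Set.mem_prod, Finset.mem_coe, Finset.mem_biUnion,
      Finset.mem_image]
    exact ⟨h2, a, h2, a⁻¹ * b, h1, by simp⟩
  have h1 : ((Amen.bd T F : Finset G) : Set G).ncard ≤ (bd T (F : Set G)).ncard := by
    refine Set.ncard_le_ncard_of_injOn (fun y => (p y, y)) ?_ ?_ hfin
    · intro y hy
      have hy' : y ∈ Amen.bd T F := hy
      refine ⟨hp2 y hy', hp1 y hy', ?_⟩
      rw [Amen.bd, Finset.mem_sdiff] at hy'
      exact hy'.2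
    · intro a _ b _ h
      simpa using (Prod.ext_iff.1 h).2
  rwa [Set.ncard_coe_finset] at h1

/-- `¬ Nonam` implies that there are no harmonic Dirichlet functions -/
theorem HD_eq_bot_of_not_nonam [Infinite G] {T : Finset G} (hT : Std T) (h : ¬ Nonam T) :
    Amen.HD T = ⊥ := by
  classical
  refine Amen.HD_eq_bot hT.gen fun ε hε => ?_
  by_contra hcon
  push Not at hcon
  apply h
  refine ⟨ε, hε, fun F => ?_⟩
  rcases F.eq_empty_or_nonempty with rfl | hF
  · simp
  · refine (hcon F hF).le.trans ?_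
    exact_mod_cast vbd_card_le hT.inv F

/-- **Reduction** of the conclusion of S0346 to the group half for one suitable finite set `T`. -/
theorem s0346_of {T : Finset G} (hT : Std T)
    (hGH : Nonam T → Infinite G → ∀ f : G → ℝ, Dir T f →
      ∃ c : ℝ, Summable fun x => (f x - c) ^ 2)
    {S : Finset G} (hS : Subgroup.closure (S : Set G) = ⊤) (f : G → ℝ)
    (hf : Summable fun p : G × S => (f (p.1 * (p.2 : G)) - f p.1) ^ 2) (ε : ℝ) (hε : 0 < ε) :
    ∃ u : G → ℝ, (Function.support u).Finite ∧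
      ∃ E : ℝ, HasSum (fun p : G × S =>
        ((f - u) (p.1 * (p.2 : G)) - (f - u) p.1) ^ 2) E ∧ E < ε := by
  rcases finite_or_infinite G with hfin | hinf
  · exact Amen.finite_case f ε hε
  · refine reduction hS hT.gen ?_ f hf ε hε
    by_cases h : Nonam T
    · exact HD_eq_bot_of_l2 (hGH h hinf)
    · exact HD_eq_bot_of_not_nonam hT h

end Crest.Agent.R224
end

-- ▼ part R224/Main

set_option autoImplicit false

open Crest.Topology

namespace Crest.Agent.R224

theorem s0346_main (hGH : GroupHalf) (hTop : T.NTop)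
    (M : Type) [TopologicalSpace M] [T2Space M] [SecondCountableTopology M] [CompactSpace M]
    [ConnectedSpace M] [ChartedSpace (EuclideanSpace ℝ (Fin 4)) M]
    (hM : HasContractibleCover M) (x : M)
    (S : Finset (FundamentalGroup M x))
    (hS : Subgroup.closure (S : Set (FundamentalGroup M x)) = ⊤)
    (f : FundamentalGroup M x → ℝ)
    (hf : Summable fun p : FundamentalGroup M x × S =>
      (f (p.1 * (p.2 : FundamentalGroup M x)) - f p.1) ^ 2)
    (ε : ℝ) (hε : 0 < ε) :
    ∃ u : FundamentalGroup M x → ℝ, (Function.support u).Finite ∧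
      ∃ E : ℝ, HasSum (fun p : FundamentalGroup M x × S =>
        ((f - u) (p.1 * (p.2 : FundamentalGroup M x)) - (f - u) p.1) ^ 2) E ∧ E < ε := by
  obtain ⟨T, top⟩ := hTop M x hM
  exact s0346_of top.toStd (fun hn hi f hf => hGH _ T top hn hi f hf) hS f hf ε hε

end Crest.Agent.R224
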