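import Crest.Agent.R224.Iface
import Crest.Agent.R224.DirB
import Crest.Agent.R224.DBas

-- ▼ part R224/Asm
section

set_option autoImplicit false

noncomputable section

open MeasureTheory Set Filter Topology

namespace Crest.Agent.R224

/-- all the nodes of part II (except `NFinal`) -/
structure AllNodes (s : Sys) : Prop where
  pconn : PConn s
  phalf : PHalf s
  palg : PAlg s
  plim : PLim s
  pbal : PBal s
  psep : PSep s
  pnull : PNullLev s
  lf : NLF s
  ctbl : NCtbl s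
  nopen : NOpen s
  nnull : NNull s
  nblock : NBlock s
  npart : NPart s
  nretr : NRetr s
  nbc : NBlkConn s
  ncofin : NCofin s
  nequiv : NEquiv s
  nspread : NSpread s
  nxb : NXB s
  norder : NOrder s
  nside : NSide s

theorem no_sys (hF : NFinal) (h : ∀ s : Sys, AllNodes s) (s : Sys) : False :=
  hF s (h s).pconn (h s).phalf (h s).palg (h s).plim (h s).pbal (h s).psep (h s).pnull (h s).lf
    (h s).ctbl (h s).nopen (h s).nnull (h s).nblock (h s).npart (h s).nretr (h s).nbc (h s).ncofin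
    (h s).nequiv (h s).nspread (h s).nxb (h s).norder (h s).nside

theorem groupHalf_of (hB : NBdry) (hH : NHarm) (hF : NFinal) (h : ∀ s : Sys, AllNodes s) :
    GroupHalf := by
  intro G _ S hT hN hI f hf
  by_contra hcon
  obtain ⟨Z, i1, i2, i3, ι, 𝓕, hb⟩ := hB G S hT hN hI ⟨f, hf, hcon⟩
  letI := i1
  letI := i2
  letI := i3
  letI : MeasurableSpace Z := borel Z
  haveI : BorelSpace Z := ⟨rfl⟩
  obtain ⟨ν, hν⟩ := hH G S Z ι 𝓕 hT hN hI hb
  exact no_sys hF h
    { G := G, grp := inferInstance, inf := hI, S := S, top := hT, non := hN, Z := Z, met := i1,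
      cpt := i2, act := i3, mea := borel Z, bor := ⟨rfl⟩, ι := ι, 𝓕 := 𝓕, bdry := hb, ν := ν,
      harm := hν }

end Crest.Agent.R224
end
end

-- ▼ part R224/HarmA
section

/-!
# R224, node NHarm, part A (helper543): elementary facts on Dirichlet functions, functions
vanishing at infinity, harmonic functions, maximum principle, Harnack inequality.
-/

set_option autoImplicit false
set_option linter.unusedSectionVars false

noncomputable section

open Set Filter Topology

namespace Crest.Agent.R224.Roy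

variable {G : Type} [Group G]

def Harm (F : Finset G) (h : G → ℝ) : Prop := ∀ x, Pop F h x = h x

def C0 (f : G → ℝ) : Prop := ∀ ε > 0, {x | ε ≤ |f x|}.Finite

def Bdd (f : G → ℝ) : Prop := ∃ C, ∀ x, |f x| ≤ C

section Dirichlet

variable {F : Finset G}

lemma dir_of_le₂ {f g k : G → ℝ} (hg : Dir F g) (hk : Dir F k) (C : ℝ)
    (h : ∀ x, ∀ s ∈ F, |f (x * s) - f x| ≤ C * (|g (x * s) - g x| + |k (x * s) - k x|)) :
    Dir F f := by
  have h1 : Summable fun p : G × F => C ^ 2 * (2 * ((g (p.1 * (p.2 : G)) - g p.1) ^ 2 +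
      (k (p.1 * (p.2 : G)) - k p.1) ^ 2)) :=
    ((hg.add hk).mul_left 2).mul_left _
  refine Summable.of_nonneg_of_le (fun p => sq_nonneg _) (fun p => ?_) h1
  have h2 := h p.1 p.2 p.2.2
  set a := g (p.1 * (p.2 : G)) - g p.1
  set b := k (p.1 * (p.2 : G)) - k p.1
  set c := f (p.1 * (p.2 : G)) - f p.1
  have h3 : c ^ 2 ≤ (C * (|a| + |b|)) ^ 2 := by
    rw [← sq_abs c]
    exact pow_le_pow_left₀ (abs_nonneg _) h2 2
  have h4 : (|a| + |b|) ^ 2 ≤ 2 * (a ^ 2 + b ^ 2) := by
    have := sq_nonneg (|a| - |b|)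
    nlinarith [sq_abs a, sq_abs b]
  calc c ^ 2 ≤ C ^ 2 * (|a| + |b|) ^ 2 := by rw [← mul_pow]; exact h3
    _ ≤ C ^ 2 * (2 * (a ^ 2 + b ^ 2)) := mul_le_mul_of_nonneg_left h4 (sq_nonneg _)


lemma dir_const (c : ℝ) : Dir F (fun _ => c) := by
  simp [Dir, summable_zero]

lemma dir_add {f g : G → ℝ} (hf : Dir F f) (hg : Dir F g) : Dir F (fun x => f x + g x) := by
  refine dir_of_le₂ hf hg 1 fun x s _ => ?_
  rw [one_mul]
  calc |f (x * s) + g (x * s) - (f x + g x)|
      = |(f (x * s) - f x) + (g (x * s) - g x)| := by ring_nf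
    _ ≤ _ := abs_add_le _ _




lemma dir_mul {f g : G → ℝ} (hf : Dir F f) (hg : Dir F g) (bf : Bdd f) (bg : Bdd g) :
    Dir F (fun x => f x * g x) := by
  obtain ⟨A, hA⟩ := bf
  obtain ⟨B, hB⟩ := bg
  refine dir_of_le₂ hf hg (|A| + |B|) fun x s _ => ?_
  have e : f (x * s) * g (x * s) - f x * g x =
      (f (x * s) - f x) * g (x * s) + f x * (g (x * s) - g x) := by ring
  rw [e]
  refine (abs_add_le _ _).trans ?_
  rw [abs_mul, abs_mul]
  have h1 : |g (x * s)| ≤ |B| := (hB _).trans (le_abs_self _)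
  have h2 : |f x| ≤ |A| := (hA _).trans (le_abs_self _)
  nlinarith [abs_nonneg (f (x * s) - f x), abs_nonneg (g (x * s) - g x), abs_nonneg A,
    abs_nonneg B, mul_le_mul_of_nonneg_left h1 (abs_nonneg (f (x * s) - f x)),
    mul_le_mul_of_nonneg_right h2 (abs_nonneg (g (x * s) - g x)),
    mul_nonneg (abs_nonneg A) (abs_nonneg (f (x * s) - f x)),
    mul_nonneg (abs_nonneg B) (abs_nonneg (g (x * s) - g x))]


/-- an `ℓ²` function is Dirichlet. -/
lemma dir_of_sq {f : G → ℝ} (hf : Summable fun x => (f x) ^ 2) : Dir F f := by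
  have h1 : Summable fun p : G × F => (f p.1) ^ 2 := by
    have : Summable fun p : F × G => (f p.2) ^ 2 := by
      rw [summable_prod_of_nonneg (fun p => sq_nonneg _)]
      exact ⟨fun _ => hf, Summable.of_finite⟩
    exact (Equiv.prodComm G F).summable_iff.2 this
  have h2 : Summable fun p : G × F => (f (p.1 * (p.2 : G))) ^ 2 := by
    have : Summable fun p : F × G => (f (p.2 * (p.1 : G))) ^ 2 := by
      rw [summable_prod_of_nonneg (fun p => sq_nonneg _)]
      refine ⟨fun s => ?_, Summable.of_finite⟩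
      exact (Equiv.mulRight (s : G)).summable_iff (f := fun x => (f x) ^ 2) |>.2 hf
    exact (Equiv.prodComm G F).summable_iff.2 this
  refine Summable.of_nonneg_of_le (fun p => sq_nonneg _) (fun p => ?_) ((h1.add h2).mul_left 2)
  nlinarith [sq_nonneg (f (p.1 * (p.2 : G)) + f p.1)]

end Dirichlet

section C0

lemma C0.of_sq {f : G → ℝ} (hf : Summable fun x => (f x) ^ 2) : C0 f := by
  intro ε hε
  have h := hf.tendsto_cofinite_zero
  have h2 : ∀ᶠ x in cofinite, (f x) ^ 2 < ε ^ 2 := h.eventually (gt_mem_nhds (by positivity))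
  rw [eventually_cofinite] at h2
  refine h2.subset fun x hx => ?_
  simp only [mem_ofPred_eq, not_lt] at *
  rw [← sq_abs (f x)]
  exact pow_le_pow_left₀ hε.le hx 2

lemma C0.add {f g : G → ℝ} (hf : C0 f) (hg : C0 g) : C0 (fun x => f x + g x) := by
  intro ε hε
  refine ((hf (ε / 2) (by positivity)).union (hg (ε / 2) (by positivity))).subset fun x hx => ?_
  simp only [mem_ofPred_eq, mem_union] at *
  by_contra hcon
  push Not at hcon
  have := abs_add_le (f x) (g x)
  linarith [hcon.1, hcon.2]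

lemma C0.const_mul {f : G → ℝ} (hf : C0 f) (c : ℝ) : C0 (fun x => c * f x) := by
  intro ε hε
  refine (hf (ε / (|c| + 1)) (by positivity)).subset fun x hx => ?_
  simp only [mem_ofPred_eq] at *
  rw [abs_mul] at hx
  rw [div_le_iff₀ (by positivity)]
  nlinarith [abs_nonneg (f x), abs_nonneg c]

lemma C0.neg {f : G → ℝ} (hf : C0 f) : C0 (fun x => - f x) := by
  simpa using hf.const_mul (-1)

lemma C0.sub {f g : G → ℝ} (hf : C0 f) (hg : C0 g) : C0 (fun x => f x - g x) := by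
  simpa [sub_eq_add_neg] using hf.add hg.neg

lemma C0.zero : C0 (fun _ : G => (0 : ℝ)) := by
  intro ε hε
  simp [hε.not_ge]

lemma C0.shift {f : G → ℝ} (hf : C0 f) (g : G) : C0 (fun x => f (g * x)) := by
  intro ε hε
  have := (hf ε hε).preimage ((mul_right_injective g).injOn)
  exact this

/-- uniform limits of `C0` functions. -/
lemma C0.of_approx {f : G → ℝ} (h : ∀ ε > 0, ∃ g, C0 g ∧ ∀ x, |f x - g x| ≤ ε) : C0 f := by
  intro ε hε
  obtain ⟨g, hg, hfg⟩ := h (ε / 2) (by positivity)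
  refine (hg (ε / 2) (by positivity)).subset fun x hx => ?_
  simp only [mem_ofPred_eq] at *
  have h1 := hfg x
  have h2 : |f x| ≤ |f x - g x| + |g x| := by
    have := abs_add_le (f x - g x) (g x)
    simpa using this
  linarith


end C0

section MaxPrinciple

variable {F : Finset G}

lemma univ_of_closed (hS : Std F) {B : Set G} (hB : B.Nonempty)
    (hcl : ∀ x ∈ B, ∀ s ∈ F, x * s ∈ B) : B = univ := by
  have key : ∀ g : G, (∀ x ∈ B, x * g ∈ B) ∧ (∀ x ∈ B, x * g⁻¹ ∈ B) := by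
    intro g
    have hg : g ∈ Subgroup.closure (F : Set G) := by rw [hS.gen]; trivial
    induction hg using Subgroup.closure_induction with
    | mem x hx =>
      exact ⟨fun y hy => hcl y hy x hx, fun y hy => hcl y hy _ (hS.inv x hx)⟩
    | one => simp
    | mul a b _ _ ha hb =>
      refine ⟨fun y hy => ?_, fun y hy => ?_⟩
      · rw [← mul_assoc]; exact hb.1 _ (ha.1 y hy)
      · rw [mul_inv_rev, ← mul_assoc]; exact ha.2 _ (hb.2 y hy)
    | inv a _ ha => exact ⟨ha.2, by simpa using ha.1⟩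
  obtain ⟨b, hb⟩ := hB
  ext g
  simp only [mem_univ, iff_true]
  have := (key (b⁻¹ * g)).1 b hb
  simpa using this

/-- maximum principle. -/
theorem max_principle [Infinite G] (hS : Std F) {w : G → ℝ}
    (hw : ∀ x, 0 < w x → w x ≤ Pop F w x) (hfin : ∀ ε > 0, {x | ε ≤ w x}.Finite) :
    ∀ x, w x ≤ 0 := by
  by_contra hcon
  push Not at hcon
  obtain ⟨x0, hx0⟩ := hcon
  obtain ⟨x1, hx1, hmax⟩ := (hfin (w x0) hx0).exists_maximalFor w _ ⟨x0, le_refl (w x0)⟩
  have hle : ∀ x, w x ≤ w x1 := by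
    intro x
    by_cases hx : w x0 ≤ w x
    · by_contra h
      exact h ((hmax hx) (le_of_lt (not_le.1 h)))
    · exact (not_le.1 hx).le.trans hx1
  have hpos : 0 < w x1 := hx0.trans_le hx1
  have hcard : (0 : ℝ) < F.card := by exact_mod_cast Finset.card_pos.2 ⟨1, hS.one⟩
  have hB : {x | w x = w x1} = univ := by
    refine univ_of_closed hS ⟨x1, rfl⟩ fun x hx s hs => ?_
    simp only [mem_ofPred_eq] at *
    have h1 := hw x (by rw [hx]; exact hpos)
    unfold Pop at h1
    rw [hx] at h1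
    by_contra hne
    have hlt : w (x * s) < w x1 := lt_of_le_of_ne (hle _) hne
    have h2 : ∑ t ∈ F, w (x * t) < ∑ _t ∈ F, w x1 :=
      Finset.sum_lt_sum (fun t _ => hle _) ⟨s, hs, hlt⟩
    rw [Finset.sum_const, nsmul_eq_mul] at h2
    have h3 : (∑ t ∈ F, w (x * t)) / (F.card : ℝ) < w x1 := by
      rw [div_lt_iff₀ hcard, mul_comm]
      exact h2
    linarith
  have : (univ : Set G).Finite := by
    refine (hfin (w x1) hpos).subset fun x _ => ?_
    have hx : x ∈ {x | w x = w x1} := by rw [hB]; trivial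
    exact le_of_eq hx.symm
  exact Set.infinite_univ this

lemma Pop_add (f g : G → ℝ) (x : G) :
    Pop F (fun x => f x + g x) x = Pop F f x + Pop F g x := by
  simp [Pop, Finset.sum_add_distrib, add_div]

lemma Pop_const_mul (c : ℝ) (f : G → ℝ) (x : G) :
    Pop F (fun x => c * f x) x = c * Pop F f x := by
  simp only [Pop, ← Finset.mul_sum, mul_div_assoc]

lemma Pop_const (hS : Std F) (c : ℝ) (x : G) : Pop F (fun _ => c) x = c := by
  have hcard : (F.card : ℝ) ≠ 0 := by exact_mod_cast (Finset.card_pos.2 ⟨1, hS.one⟩).ne'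
  simp only [Pop, Finset.sum_const, nsmul_eq_mul]
  field_simp

lemma Pop_shift (f : G → ℝ) (g x : G) :
    Pop F (fun x => f (g * x)) x = Pop F f (g * x) := by
  simp [Pop, mul_assoc]

lemma Harm.add {f g : G → ℝ} (hf : Harm F f) (hg : Harm F g) : Harm F (fun x => f x + g x) := by
  intro x; rw [Pop_add, hf x, hg x]

lemma Harm.const_mul {f : G → ℝ} (hf : Harm F f) (c : ℝ) : Harm F (fun x => c * f x) := by
  intro x; rw [Pop_const_mul, hf x]

lemma Harm.neg {f : G → ℝ} (hf : Harm F f) : Harm F (fun x => - f x) := by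
  simpa using hf.const_mul (-1)

lemma Harm.sub {f g : G → ℝ} (hf : Harm F f) (hg : Harm F g) : Harm F (fun x => f x - g x) := by
  simpa [sub_eq_add_neg] using hf.add hg.neg

lemma Harm.const (hS : Std F) (c : ℝ) : Harm F (fun _ => c) := fun x => Pop_const hS c x

lemma Harm.shift {f : G → ℝ} (hf : Harm F f) (g : G) : Harm F (fun x => f (g * x)) := by
  intro x; rw [Pop_shift, hf]

/-- harmonic + bounded below by a `C0` function implies nonnegative. -/
lemma Harm.nonneg [Infinite G] (hS : Std F) {h r : G → ℝ} (hh : Harm F h)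
    (hr : C0 r) (hle : ∀ x, r x ≤ h x) : ∀ x, 0 ≤ h x := by
  intro x
  have := max_principle hS (w := fun x => - h x) (fun y _ => (hh.neg y).ge)
    (fun ε hε => (hr ε hε).subset fun y hy => ?_) x
  · linarith
  · simp only [mem_ofPred_eq] at *
    have h1 := hle y
    have h2 := neg_abs_le (r y)
    linarith

lemma Harm.eq_zero [Infinite G] (hS : Std F) {h : G → ℝ} (hh : Harm F h)
    (h0 : C0 h) : ∀ x, h x = 0 := by
  intro x
  have h1 := hh.nonneg hS h0 (fun _ => le_rfl) x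
  have h2 := hh.neg.nonneg hS h0.neg (fun _ => le_rfl) x
  linarith

/-- Harnack inequality. -/
lemma Harm.harnack (hS : Std F) {h : G → ℝ} (hh : Harm F h) (h0 : ∀ x, 0 ≤ h x)
    (x : G) {s : G} (hs : s ∈ F) : h (x * s) ≤ F.card * h x := by
  have hcard : (0 : ℝ) < F.card := by exact_mod_cast Finset.card_pos.2 ⟨1, hS.one⟩
  have h1 := hh x
  unfold Pop at h1
  rw [← h1, mul_div_cancel₀ _ hcard.ne']
  exact Finset.single_le_sum (f := fun t => h (x * t)) (fun t _ => h0 _) hs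

end MaxPrinciple

end Crest.Agent.R224.Roy
end
end

-- ▼ part R224/HarmB
section

/-!
# R224, node NHarm, part B (helper543): the harmonic part.
-/

set_option autoImplicit false
set_option linter.unusedSectionVars false

noncomputable section

open Set Filter Topology

namespace Crest.Agent.R224.Roy

variable {G : Type} [Group G] {F : Finset G}

/-- decomposability: `f = h + (C0 function)` with `h` harmonic. -/
def Dec (F : Finset G) (f : G → ℝ) : Prop := ∃ h, Harm F h ∧ C0 (fun x => f x - h x)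

open Classical in
/-- the harmonic part. -/
def hp (F : Finset G) (f : G → ℝ) : G → ℝ :=
  if h : Dec F f then Classical.choose h else 0

lemma Dec.harm {f : G → ℝ} (hf : Dec F f) : Harm F (hp F f) := by
  unfold hp; rw [dif_pos hf]; exact (Classical.choose_spec hf).1

lemma Dec.c0 {f : G → ℝ} (hf : Dec F f) : C0 (fun x => f x - hp F f x) := by
  unfold hp; rw [dif_pos hf]; exact (Classical.choose_spec hf).2

lemma Dec.add {f g : G → ℝ} (hf : Dec F f) (hg : Dec F g) : Dec F (fun x => f x + g x) := by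
  refine ⟨_, hf.harm.add hg.harm, ?_⟩
  have := hf.c0.add hg.c0
  convert this using 2
  ring

lemma Dec.const_mul {f : G → ℝ} (hf : Dec F f) (c : ℝ) : Dec F (fun x => c * f x) := by
  refine ⟨_, hf.harm.const_mul c, ?_⟩
  have := hf.c0.const_mul c
  convert this using 2
  ring

lemma Dec.shift {f : G → ℝ} (hf : Dec F f) (g : G) : Dec F (fun x => f (g * x)) :=
  ⟨_, hf.harm.shift g, hf.c0.shift g⟩

lemma Dec.const (hS : Std F) (c : ℝ) : Dec F (fun _ => c) := by
  refine ⟨_, Harm.const hS c, ?_⟩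
  simpa using (C0.zero (G := G))


section
variable [Infinite G] (hS : Std F)
include hS

lemma hp_unique {f h : G → ℝ} (hh : Harm F h) (h0 : C0 (fun x => f x - h x)) : hp F f = h := by
  have hf : Dec F f := ⟨h, hh, h0⟩
  have h2 : C0 (fun x => hp F f x - h x) := by
    have := h0.sub hf.c0
    convert this using 2
    ring
  funext x
  have h1 := (hf.harm.sub hh).eq_zero hS h2 x
  linarith

lemma hp_add {f g : G → ℝ} (hf : Dec F f) (hg : Dec F g) :
    hp F (fun x => f x + g x) = fun x => hp F f x + hp F g x := by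
  refine hp_unique hS (hf.harm.add hg.harm) ?_
  have := hf.c0.add hg.c0
  convert this using 2
  ring

lemma hp_const_mul {f : G → ℝ} (hf : Dec F f) (c : ℝ) :
    hp F (fun x => c * f x) = fun x => c * hp F f x := by
  refine hp_unique hS (hf.harm.const_mul c) ?_
  have := hf.c0.const_mul c
  convert this using 2
  ring

lemma hp_const (c : ℝ) : hp F (fun _ : G => c) = fun _ => c := by
  refine hp_unique hS (Harm.const hS c) ?_
  simpa using (C0.zero (G := G))

lemma hp_of_c0 {f : G → ℝ} (hf : C0 f) : hp F f = fun _ => 0 := by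
  refine hp_unique hS (Harm.const hS 0) ?_
  simpa using hf


lemma hp_shift {f : G → ℝ} (hf : Dec F f) (g : G) :
    hp F (fun x => f (g * x)) = fun x => hp F f (g * x) :=
  hp_unique hS (hf.harm.shift g) (hf.c0.shift g)

lemma hp_nonneg {f : G → ℝ} (hf : Dec F f) (h0 : ∀ x, 0 ≤ f x) (x : G) : 0 ≤ hp F f x := by
  refine hf.harm.nonneg hS hf.c0.neg (fun y => ?_) x
  have := h0 y
  linarith

lemma hp_mono {f g : G → ℝ} (hf : Dec F f) (hg : Dec F g) (h : ∀ x, f x ≤ g x) (x : G) :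
    hp F f x ≤ hp F g x := by
  have h1 := hp_nonneg hS (hg.add (hf.const_mul (-1))) (fun y => by
    have := h y; linarith) x
  rw [hp_add hS hg (hf.const_mul (-1)), hp_const_mul hS hf] at h1
  simp only at h1
  linarith

lemma hp_abs_le {f : G → ℝ} (hf : Dec F f) {C : ℝ} (h : ∀ x, |f x| ≤ C) (x : G) :
    |hp F f x| ≤ C := by
  rw [abs_le]
  constructor
  · have := hp_mono hS (Dec.const hS (-C)) hf (fun y => (abs_le.1 (h y)).1) x
    rwa [hp_const hS] at this
  · have := hp_mono hS hf (Dec.const hS C) (fun y => (abs_le.1 (h y)).2) x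
    rwa [hp_const hS] at this

end

end Crest.Agent.R224.Roy
end
end

-- ▼ part R224/HarmC
section

/-!
# R224, node NHarm, part C (helper543): every continuous function on the compactification has a
harmonic part; the harmonic measures.
-/

set_option autoImplicit false
set_option linter.unusedSectionVars false

noncomputable section

open Set Filter Topology MeasureTheory
open scoped BoundedContinuousFunction CompactlySupported

namespace Crest.Agent.R224.Roy

section approx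

variable {G : Type} [Group G] {F : Finset G}

/-- `Dec` is closed under uniform limits. -/
lemma Dec.of_approx [Infinite G] (hS : Std F) {f : G → ℝ}
    (h : ∀ ε > 0, ∃ g, Dec F g ∧ ∀ x, |f x - g x| ≤ ε) : Dec F f := by
  have h1 : ∀ n : ℕ, ∃ g, Dec F g ∧ ∀ x, |f x - g x| ≤ 1 / ((n : ℝ) + 1) := fun n =>
    h _ Nat.one_div_pos_of_nat
  choose g hg hfg using h1
  have hdist : ∀ m n : ℕ, ∀ x, |hp F (g m) x - hp F (g n) x| ≤
      1 / ((m : ℝ) + 1) + 1 / ((n : ℝ) + 1) := by
    intro m n x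
    have h2 := hp_abs_le hS ((hg m).add ((hg n).const_mul (-1)))
      (C := 1 / ((m : ℝ) + 1) + 1 / ((n : ℝ) + 1)) (fun y => by
        have e : g m y + -1 * g n y = (f y - g n y) - (f y - g m y) := by ring
        rw [e]
        have h3 := hfg m y
        have h4 := hfg n y
        have h5 := abs_sub (f y - g n y) (f y - g m y)
        linarith) x
    rw [hp_add hS (hg m) ((hg n).const_mul (-1)), hp_const_mul hS (hg n)] at h2
    have e : hp F (g m) x - hp F (g n) x = hp F (g m) x + -1 * hp F (g n) x := by ring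
    rw [e]
    exact h2
  have hlim0 : Tendsto (fun n : ℕ => 1 / ((n : ℝ) + 1)) atTop (𝓝 0) :=
    tendsto_one_div_add_atTop_nhds_zero_nat
  have hcau : ∀ x, CauchySeq fun n => hp F (g n) x := by
    intro x
    refine cauchySeq_of_le_tendsto_0 (fun n : ℕ => 2 * (1 / ((n : ℝ) + 1))) ?_ ?_
    · intro n m N hn hm
      rw [Real.dist_eq]
      refine (hdist n m x).trans ?_
      have a1 : 1 / ((n : ℝ) + 1) ≤ 1 / ((N : ℝ) + 1) := Nat.one_div_le_one_div hn
      have a2 : 1 / ((m : ℝ) + 1) ≤ 1 / ((N : ℝ) + 1) := Nat.one_div_le_one_div hm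
      linarith
    · simpa using hlim0.const_mul 2
  have hex : ∀ x, ∃ l, Tendsto (fun n => hp F (g n) x) atTop (𝓝 l) := fun x =>
    cauchySeq_tendsto_of_complete (hcau x)
  choose k hk using hex
  have hkg : ∀ n x, |k x - hp F (g n) x| ≤ 1 / ((n : ℝ) + 1) := by
    intro n x
    have h3 : Tendsto (fun m => |hp F (g m) x - hp F (g n) x|) atTop
        (𝓝 |k x - hp F (g n) x|) := ((hk x).sub_const _).abs
    have h4 : Tendsto (fun m : ℕ => 1 / ((m : ℝ) + 1) + 1 / ((n : ℝ) + 1)) atTop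
        (𝓝 (0 + 1 / ((n : ℝ) + 1))) := hlim0.add_const _
    rw [zero_add] at h4
    exact le_of_tendsto_of_tendsto' h3 h4 (fun m => hdist m n x)
  refine ⟨k, ?_, ?_⟩
  · intro x
    have h3 : Tendsto (fun n => Pop F (hp F (g n)) x) atTop (𝓝 (Pop F k x)) := by
      unfold Pop
      exact (tendsto_finsetSum _ fun s _ => hk (x * s)).div_const _
    have h4 : (fun n => Pop F (hp F (g n)) x) = fun n => hp F (g n) x := by
      funext n
      exact (hg n).harm x
    rw [h4] at h3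
    exact tendsto_nhds_unique h3 (hk x)
  · refine C0.of_approx fun ε hε => ?_
    obtain ⟨n, hn⟩ := exists_nat_one_div_lt (half_pos hε)
    refine ⟨_, (hg n).c0, fun x => ?_⟩
    have e : (f x - k x) - (g n x - hp F (g n) x) =
      (f x - g n x) - (k x - hp F (g n) x) := by ring
    rw [e]
    have h3 := abs_sub (f x - g n x) (k x - hp F (g n) x)
    have h4 := hfg n x
    have h5 := hkg n x
    linarith

end approx

section cont

variable {G : Type} [Group G] {S : Finset G} {Z : Type} [MetricSpace Z] [CompactSpace Z]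
  [MulAction G Z] {ι : G → Z} {𝓕 : Set (Z → ℝ)}

open Classical in
/-- indicator of an isolated point -/
def delta (hB : IsBdry S ι 𝓕) (g : G) : C(Z, ℝ) where
  toFun := fun z => if z = ι g then 1 else 0
  continuous_toFun := by
    have h : IsClopen ({ι g} : Set Z) := ⟨isClosed_singleton, hB.isol g⟩
    have h2 : (fun z : Z => if z = ι g then (1 : ℝ) else 0) =
        ({ι g} : Set Z).indicator (fun _ => (1 : ℝ)) := by
      funext z; simp [Set.indicator_apply]
    rw [h2]
    exact continuous_const.indicator (by rw [h.frontier_eq]; simp)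

lemma delta_apply_self (hB : IsBdry S ι 𝓕) (g : G) : delta hB g (ι g) = 1 := by
  simp [delta]

lemma delta_apply_ne (hB : IsBdry S ι 𝓕) {g : G} {z : Z} (h : z ≠ ι g) : delta hB g z = 0 := by
  simp [delta, h]

lemma delta_sq_summable (hB : IsBdry S ι 𝓕) (g : G) :
    Summable fun x => (delta hB g (ι x)) ^ 2 := by
  refine summable_of_ne_finset_zero (s := {g}) fun x hx => ?_
  have : ι x ≠ ι g := fun h => hx (by simpa using hB.inj h)
  rw [delta_apply_ne hB this]
  simp

/-- the algebra of continuous functions with Dirichlet restriction. -/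
def alg (S : Finset G) (ι : G → Z) : Subalgebra ℝ C(Z, ℝ) where
  carrier := {φ | Dir S fun x => φ (ι x)}
  mul_mem' := by
    intro φ ψ hφ hψ
    have h1 : Bdd fun x => φ (ι x) := ⟨‖φ‖, fun x => φ.norm_coe_le_norm (ι x)⟩
    have h2 : Bdd fun x => ψ (ι x) := ⟨‖ψ‖, fun x => ψ.norm_coe_le_norm (ι x)⟩
    exact dir_mul (f := fun x => φ (ι x)) (g := fun x => ψ (ι x)) hφ hψ h1 h2
  add_mem' := by
    intro φ ψ hφ hψ
    exact dir_add (f := fun x => φ (ι x)) (g := fun x => ψ (ι x)) hφ hψ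
  algebraMap_mem' := by
    intro r
    exact dir_const r

lemma mem_alg {φ : C(Z, ℝ)} : φ ∈ alg S ι ↔ Dir S fun x => φ (ι x) := Iff.rfl

lemma delta_mem_alg (hB : IsBdry S ι 𝓕) (g : G) : delta hB g ∈ alg S ι :=
  mem_alg.2 (dir_of_sq (delta_sq_summable hB g))

lemma sep_of_mem {z w : Z} (φ : C(Z, ℝ)) (hφ : φ ∈ alg S ι) (h : φ z ≠ φ w) :
    ∃ f ∈ (fun f : C(Z, ℝ) => (f : Z → ℝ)) '' (alg S ι : Set C(Z, ℝ)), f z ≠ f w :=
  ⟨_, ⟨φ, hφ, rfl⟩, h⟩

lemma alg_separates (hB : IsBdry S ι 𝓕) : (alg S ι).SeparatesPoints := by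
  intro z w hzw
  by_cases hz : z ∈ T ι
  · by_cases hw : w ∈ T ι
    · obtain ⟨f, hf, hne⟩ := hB.fsep z hz w hw hzw
      exact sep_of_mem ⟨f, hB.fcont f hf⟩ (mem_alg.2 (hB.fdir f hf)) hne
    · obtain ⟨g, rfl⟩ : ∃ g, ι g = w := by simpa [T] using hw
      refine sep_of_mem _ (delta_mem_alg hB g) ?_
      rw [delta_apply_self, delta_apply_ne hB hzw]
      norm_num
  · obtain ⟨g, rfl⟩ : ∃ g, ι g = z := by simpa [T] using hz
    refine sep_of_mem _ (delta_mem_alg hB g) ?_
    rw [delta_apply_self, delta_apply_ne hB hzw.symm]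
    norm_num

/-- every continuous function has a harmonic part. -/
theorem dec_cont [Infinite G] (hD : NDecomp) (hT : TopHyp S) (hN : Nonam S)
    (hB : IsBdry S ι 𝓕) (φ : C(Z, ℝ)) : Dec S fun x => φ (ι x) := by
  refine Dec.of_approx hT.toStd fun ε hε => ?_
  obtain ⟨g, hg⟩ := ContinuousMap.exists_mem_subalgebra_near_continuousMap_of_separatesPoints
    (alg S ι) (alg_separates hB) φ ε hε
  refine ⟨fun x => (g : C(Z, ℝ)) (ι x), ?_, fun x => ?_⟩
  · obtain ⟨f0, h, hf, hf0, hh, -, -⟩ := hD G S hT.toStd hN inferInstance _ (mem_alg.1 g.2)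
    refine ⟨h, hh, ?_⟩
    have : (fun x => (g : C(Z, ℝ)) (ι x) - h x) = f0 := by
      funext x; rw [hf x]; ring
    rw [this]
    exact C0.of_sq hf0
  · have := ((g : C(Z, ℝ)) - φ).norm_coe_le_norm (ι x)
    rw [Real.norm_eq_abs, ContinuousMap.sub_apply, abs_sub_comm] at this
    linarith

end cont

end Crest.Agent.R224.Roy
end
end

-- ▼ part R224/HarmD
section

/-!
# R224, node NHarm, part D (helper543): construction of the harmonic measures by
Riesz–Markov–Kakutani; harmonicity, equivariance, support, concentration.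
-/

set_option autoImplicit false
set_option linter.unusedSectionVars false

noncomputable section

open Set Filter Topology MeasureTheory
open scoped BoundedContinuousFunction CompactlySupported

namespace Crest.Agent.R224.Roy

variable {G : Type} [Group G] {S : Finset G} {Z : Type} [MetricSpace Z] [CompactSpace Z]
  [MulAction G Z] {ι : G → Z} {𝓕 : Set (Z → ℝ)}

/-- the positive functional -/
def Lam [Infinite G] (hS : Std S) (hd : ∀ φ : C(Z, ℝ), Dec S fun x => φ (ι x)) (x : G) :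
    C_c(Z, ℝ) →ₚ[ℝ] ℝ where
  toFun φ := hp S (fun y => φ (ι y)) x
  map_add' φ ψ := congrFun (hp_add hS (hd φ.toContinuousMap) (hd ψ.toContinuousMap)) x
  map_smul' c φ := congrFun (hp_const_mul hS (hd φ.toContinuousMap) c) x
  monotone' φ ψ h := hp_mono hS (hd φ.toContinuousMap) (hd ψ.toContinuousMap) (fun y => h (ι y)) x

variable [MeasurableSpace Z] [BorelSpace Z]

/-- a family of probability measures representing the harmonic part. -/
structure Rep (S : Finset G) (ι : G → Z) (ν : G → Measure Z) : Prop where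
  prob : ∀ x, IsProbabilityMeasure (ν x)
  harm : ∀ φ : C(Z, ℝ), Harm S fun x => ∫ z, φ z ∂(ν x)
  reg : ∀ φ : C(Z, ℝ), C0 fun x => φ (ι x) - ∫ z, φ z ∂(ν x)

theorem exists_rep [Infinite G] (hS : Std S) (hd : ∀ φ : C(Z, ℝ), Dec S fun x => φ (ι x)) :
    ∃ ν : G → Measure Z, Rep S ι ν := by
  have key : ∀ (φ : C(Z, ℝ)) (x : G),
      ∫ z, φ z ∂(RealRMK.rieszMeasure (Lam hS hd x)) = hp S (fun y => φ (ι y)) x := by
    intro φ x
    let φ' : C_c(Z, ℝ) :=
      { toFun := φ
        hasCompactSupport' := HasCompactSupport.of_compactSpace _ }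
    exact RealRMK.integral_rieszMeasure (Lam hS hd x) φ'
  refine ⟨fun x => RealRMK.rieszMeasure (Lam hS hd x), ?_, ?_, ?_⟩
  · intro x
    constructor
    have h1 := key 1 x
    have h2 : hp S (fun y : G => (1 : C(Z, ℝ)) (ι y)) x = 1 := congrFun (hp_const hS 1) x
    rw [h2] at h1
    simp only [ContinuousMap.one_apply, integral_const, smul_eq_mul, mul_one] at h1
    rw [Measure.real, ENNReal.toReal_eq_one_iff] at h1
    exact h1
  · intro φ x
    have : (fun x => ∫ z, φ z ∂(RealRMK.rieszMeasure (Lam hS hd x))) =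
      hp S (fun y => φ (ι y)) := funext fun x => key φ x
    rw [this]
    exact (hd φ).harm x
  · intro φ
    have : (fun x => φ (ι x) - ∫ z, φ z ∂(RealRMK.rieszMeasure (Lam hS hd x))) =
      fun x => φ (ι x) - hp S (fun y => φ (ι y)) x := funext fun x => by rw [key φ x]
    rw [this]
    exact (hd φ).c0

namespace Rep

variable {ν : G → Measure Z}

lemma integral_eq [Infinite G] (hR : Rep S ι ν) (hS : Std S) (φ : C(Z, ℝ)) (x : G) :
    ∫ z, φ z ∂(ν x) = hp S (fun y => φ (ι y)) x := by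
  rw [hp_unique hS (hR.harm φ) (hR.reg φ)]

lemma integrable (hR : Rep S ι ν) (φ : C(Z, ℝ)) (x : G) : Integrable (fun z => φ z) (ν x) := by
  have := hR.prob x
  exact (BoundedContinuousFunction.mkOfCompact φ).integrable (ν x)

/-- uniqueness principle -/
lemma ext_measure {μ μ' : Measure Z} [IsFiniteMeasure μ] [IsFiniteMeasure μ']
    (h : ∀ φ : C(Z, ℝ), ∫ z, φ z ∂μ = ∫ z, φ z ∂μ') : μ = μ' :=
  ext_of_forall_integral_eq_of_IsFiniteMeasure fun f => h f.toContinuousMap

lemma avg_eq (hR : Rep S ι ν) (hS : Std S) (x : G) :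
    ν x = ((S.card : NNReal)⁻¹) • ∑ s ∈ S, ν (x * s) := by
  have hp := hR.prob
  have hc : (0 : ℝ) < S.card := by exact_mod_cast Finset.card_pos.2 ⟨1, hS.one⟩
  refine ext_measure fun φ => ?_
  rw [integral_smul_nnreal_measure, integral_finsetSum_measure fun s _ => hR.integrable φ _]
  have h1 := hR.harm φ x
  simp only [Pop] at h1
  rw [← h1, div_eq_inv_mul]
  simp [NNReal.smul_def]

lemma harmonic (hR : Rep S ι ν) (hS : Std S) (A : Set Z) :
    Harm S fun y => (ν y).real A := by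
  have hp := hR.prob
  intro x
  have h := hR.avg_eq hS x
  have h2 : (ν x).real A = (((S.card : NNReal)⁻¹) • ∑ s ∈ S, ν (x * s) : Measure Z).real A := by
    rw [← h]
  simp only [Pop]
  rw [h2, Measure.real, Measure.smul_apply, Measure.finsetSum_apply]
  rw [ENNReal.toReal_smul, ENNReal.toReal_sum (fun s _ => measure_ne_top _ _), div_eq_inv_mul]
  simp [NNReal.smul_def, Measure.real]

end Rep

end Crest.Agent.R224.Roy
end
end

-- ▼ part R224/HarmE
section

/-!
# R224, node NHarm, part E (helper543): support, equivariance, concentration, full support.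
-/

set_option autoImplicit false
set_option linter.unusedSectionVars false

noncomputable section

open Set Filter Topology MeasureTheory

namespace Crest.Agent.R224.Roy

variable {G : Type} [Group G] {S : Finset G} {Z : Type} [MetricSpace Z] [CompactSpace Z]
  [MulAction G Z] {ι : G → Z} {𝓕 : Set (Z → ℝ)} [MeasurableSpace Z] [BorelSpace Z]

namespace Rep

variable {ν : G → Measure Z}

lemma countable_range (hB : IsBdry S ι 𝓕) : Countable G := by
  have h : (univ : Set G).Countable := by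
    refine Set.PairwiseDisjoint.countable_of_isOpen (s := fun g : G => ({ι g} : Set Z))
      (fun a _ b _ hab => ?_) (fun g _ => hB.isol g) (fun g _ => singleton_nonempty _)
    simpa [Function.onFun] using fun h => hab (hB.inj h)
  exact countable_univ_iff.1 h

lemma measure_point [Infinite G] (hR : Rep S ι ν) (hS : Std S) (hB : IsBdry S ι 𝓕) (x g : G) :
    ν x {ι g} = 0 := by
  have hp := hR.prob x
  have h1 := hR.integral_eq hS (delta hB g) x
  have h2 : C0 fun y => delta hB g (ι y) := C0.of_sq (delta_sq_summable hB g)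
  rw [hp_of_c0 hS h2] at h1
  have h3 : (fun z => delta hB g z) = ({ι g} : Set Z).indicator (fun _ => (1 : ℝ)) := by
    funext z
    by_cases hz : z = ι g
    · subst hz; rw [delta_apply_self]; simp
    · rw [delta_apply_ne hB hz]; simp [hz]
  rw [h3, integral_indicator_const _ (measurableSet_singleton _), smul_eq_mul, mul_one] at h1
  rw [Measure.real, ENNReal.toReal_eq_zero_iff] at h1
  exact h1.resolve_right (measure_ne_top _ _)

lemma supp [Infinite G] (hR : Rep S ι ν) (hS : Std S) (hB : IsBdry S ι 𝓕) (x : G) :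
    ν x (T ι)ᶜ = 0 := by
  have hc := countable_range (Z := Z) hB
  have : (T ι)ᶜ = ⋃ g, {ι g} := by
    ext z; simp [T, eq_comm]
  rw [this, measure_iUnion_null_iff]
  exact fun g => hR.measure_point hS hB x g

lemma map_smul [Infinite G] (hR : Rep S ι ν) (hS : Std S) (hd : ∀ φ : C(Z, ℝ), Dec S fun x => φ (ι x))
    (hB : IsBdry S ι 𝓕) (g x : G) :
    (ν x).map (fun z => g • z) = ν (g * x) := by
  have hp := hR.prob
  have hm : Measurable fun z : Z => g • z := (hB.cont g).measurable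
  have : IsProbabilityMeasure ((ν x).map (fun z => g • z)) :=
    Measure.isProbabilityMeasure_map hm.aemeasurable
  refine ext_measure fun φ => ?_
  rw [integral_map hm.aemeasurable φ.continuous.aestronglyMeasurable]
  have h1 := hR.integral_eq hS (φ.comp ⟨_, hB.cont g⟩) x
  simp only [ContinuousMap.comp_apply, ContinuousMap.coe_mk] at h1
  rw [h1, hR.integral_eq hS φ (g * x)]
  have h2 : (fun y => φ (g • ι y)) = fun y => φ (ι (g * y)) := by
    funext y; rw [hB.eqv]
  rw [h2]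
  exact congrFun (hp_shift hS (hd φ) g) x

lemma smul_image_eq (g : G) (A : Set Z) :
    (fun z => g • z) '' A = (fun z => g⁻¹ • z) ⁻¹' A := by
  ext z
  simp only [mem_image, mem_preimage]
  constructor
  · rintro ⟨w, hw, rfl⟩
    simpa using hw
  · intro h
    exact ⟨_, h, by simp⟩

lemma measurable_smul_image (hB : IsBdry S ι 𝓕) (g : G) {A : Set Z} (hA : MeasurableSet A) :
    MeasurableSet ((fun z => g • z) '' A) := by
  rw [smul_image_eq]
  exact (hB.cont g⁻¹).measurable hA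

lemma equiv [Infinite G] (hR : Rep S ι ν) (hS : Std S) (hd : ∀ φ : C(Z, ℝ), Dec S fun x => φ (ι x))
    (hB : IsBdry S ι 𝓕) (g x : G) (A : Set Z) (hA : MeasurableSet A) :
    ν (g * x) ((fun z => g • z) '' A) = ν x A := by
  rw [← hR.map_smul hS hd hB g x, Measure.map_apply (hB.cont g).measurable
    (measurable_smul_image hB g hA)]
  congr 1
  ext z
  simp

/-- concentration -/
lemma conc (hR : Rep S ι ν) (ε : ℝ) (hε : 0 < ε) :
    ∃ K : Finset G, ∀ y : G, y ∉ K → (ν y).real {z | ε ≤ dist z (ι y)} ≤ ε := by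
  classical
  have hp := hR.prob
  obtain ⟨t, -, ht1, ht2⟩ := finite_cover_balls_of_compact (X := Z) isCompact_univ
    (show (0 : ℝ) < ε / 4 by positivity)
  let φ : Z → C(Z, ℝ) := fun w => ⟨fun z => max 0 (dist z w - ε / 4) * (2 / ε), by fun_prop⟩
  have hfin : ∀ w, {y | ε ≤ |φ w (ι y) - ∫ z, φ w z ∂(ν y)|}.Finite := fun w =>
    hR.reg (φ w) ε hε
  refine ⟨ht1.toFinset.biUnion fun w => (hfin w).toFinset, fun y hy => ?_⟩
  have h1 : ι y ∈ ⋃ w ∈ t, Metric.ball w (ε / 4) := ht2 (mem_univ _)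
  simp only [mem_iUnion, Metric.mem_ball] at h1
  obtain ⟨w, hw, hyw⟩ := h1
  simp only [Finset.mem_biUnion, not_exists, not_and, Set.Finite.mem_toFinset, mem_ofPred_eq,
    not_le] at hy
  have h2 := hy w hw
  have h3 : φ w (ι y) = 0 := by
    show max 0 (dist (ι y) w - ε / 4) * (2 / ε) = 0
    rw [max_eq_left (by linarith), zero_mul]
  rw [h3, zero_sub, abs_neg] at h2
  have hset : MeasurableSet {z | ε ≤ dist z (ι y)} :=
    (isClosed_le continuous_const (continuous_id.dist continuous_const)).measurableSet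
  have h4 : (ν y).real {z | ε ≤ dist z (ι y)} = ∫ z, ({z | ε ≤ dist z (ι y)}).indicator
      (fun _ => (1 : ℝ)) z ∂(ν y) := by
    rw [integral_indicator_const _ hset, smul_eq_mul, mul_one]
  rw [h4]
  refine le_trans (integral_mono ?_ (hR.integrable (φ w) y) fun z => ?_)
    ((le_abs_self _).trans h2.le)
  · exact (integrable_const (1 : ℝ)).indicator hset
  · show _ ≤ max 0 (dist z w - ε / 4) * (2 / ε)
    by_cases hz : ε ≤ dist z (ι y)
    · rw [indicator_of_mem (by exact hz)]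
      have h5 : ε / 2 ≤ max 0 (dist z w - ε / 4) := by
        refine le_trans ?_ (le_max_right _ _)
        have := dist_triangle_right z (ι y) w
        have h6 := dist_comm (ι y) w
        linarith
      calc (1 : ℝ) = ε / 2 * (2 / ε) := by field_simp
        _ ≤ _ := mul_le_mul_of_nonneg_right h5 (by positivity)
    · rw [indicator_of_notMem (by exact hz)]
      positivity

/-- positivity propagates. -/
lemma pos_of_pos (hR : Rep S ι ν) (hS : Std S) {A : Set Z} {y : G} (hy : 0 < (ν y).real A) (x : G) :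
    0 < (ν x).real A := by
  have hh := hR.harmonic hS A
  have h0 : ∀ x, 0 ≤ (ν x).real A := fun x => measureReal_nonneg
  by_contra hcon
  have hx : (ν x).real A = 0 := le_antisymm (not_lt.1 hcon) (h0 x)
  have hB : {x | (ν x).real A = 0} = univ := by
    refine univ_of_closed hS ⟨x, hx⟩ fun z hz s hs => ?_
    simp only [mem_ofPred_eq] at *
    have := hh.harnack hS h0 z hs
    rw [hz, mul_zero] at this
    exact le_antisymm this (h0 _)
  have : y ∈ {x | (ν x).real A = 0} := by rw [hB]; trivial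
  simp only [mem_ofPred_eq] at this
  linarith

/-- infinitely many vertices near a boundary point. -/
lemma infinite_near (hB : IsBdry S ι 𝓕) {θ : Z} (hθ : θ ∈ T ι) {δ : ℝ} (hδ : 0 < δ) :
    {y : G | dist (ι y) θ < δ}.Infinite := by
  intro hfin
  have h1 : IsClosed (ι '' {y : G | dist (ι y) θ < δ}) := (hfin.image ι).isClosed
  have h2 : θ ∉ ι '' {y : G | dist (ι y) θ < δ} := fun h => hθ (image_subset_range _ _ h)
  have h3 : IsOpen (Metric.ball θ δ ∩ (ι '' {y : G | dist (ι y) θ < δ})ᶜ) :=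
    Metric.isOpen_ball.inter h1.isOpen_compl
  obtain ⟨z, hz, g, rfl⟩ := hB.dense.inter_open_nonempty _ h3 ⟨θ, Metric.mem_ball_self hδ, h2⟩
  exact hz.2 ⟨g, hz.1, rfl⟩

/-- full support -/
lemma full (hR : Rep S ι ν) (hS : Std S) (hB : IsBdry S ι 𝓕) (x : G) (O : Set Z) (hO : IsOpen O)
    (hne : (O ∩ T ι).Nonempty) : 0 < (ν x).real O := by
  obtain ⟨θ, hθO, hθ⟩ := hne
  have hp := hR.prob
  obtain ⟨δ, hδ, hball⟩ := Metric.isOpen_iff.1 hO θ hθO
  let φ : C(Z, ℝ) := ⟨fun z => max 0 (1 - dist z θ / δ), by fun_prop⟩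
  have hfin := hR.reg φ (1 / 2) (by norm_num)
  obtain ⟨y, hy1, hy2⟩ := (infinite_near hB hθ (half_pos hδ)).exists_notMem_finite hfin
  simp only [mem_ofPred_eq, not_le] at hy1 hy2
  have h1 : 1 / 2 ≤ φ (ι y) := by
    refine le_trans ?_ (le_max_right _ _)
    have : dist (ι y) θ / δ ≤ 1 / 2 := by
      rw [div_le_iff₀ hδ]; linarith
    linarith
  have h2 : 0 < ∫ z, φ z ∂(ν y) := by
    have := (abs_lt.1 hy2).2
    linarith
  refine hR.pos_of_pos hS (y := y) ?_ x
  have h4 : (ν y).real O = ∫ z, O.indicator (fun _ => (1 : ℝ)) z ∂(ν y) := by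
    rw [integral_indicator_const _ hO.measurableSet, smul_eq_mul, mul_one]
  rw [h4]
  refine h2.trans_le (integral_mono (hR.integrable φ y)
    ((integrable_const (1 : ℝ)).indicator hO.measurableSet) fun z => ?_)
  show max 0 (1 - dist z θ / δ) ≤ _
  by_cases hz : z ∈ O
  · rw [indicator_of_mem hz]
    have : 0 ≤ dist z θ / δ := by positivity
    exact max_le zero_le_one (by linarith)
  · rw [indicator_of_notMem hz]
    have h5 : δ ≤ dist z θ := by
      by_contra h
      exact hz (hball (Metric.mem_ball.2 (not_le.1 h)))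
    refine max_le le_rfl ?_
    have : 1 ≤ dist z θ / δ := by rw [le_div_iff₀ hδ]; linarith
    linarith

end Rep

end Crest.Agent.R224.Roy
end
end

-- ▼ part R224/HarmF
section

/-!
# R224, node NHarm, part F (helper543): zero-one law, no atoms; the theorem `nHarm`.
-/

set_option autoImplicit false
set_option linter.unusedSectionVars false

noncomputable section

open Set Filter Topology MeasureTheory

namespace Crest.Agent.R224.Roy

variable {G : Type} [Group G] {S : Finset G} {Z : Type} [MetricSpace Z] [CompactSpace Z]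
  [MulAction G Z] {ι : G → Z} {𝓕 : Set (Z → ℝ)} [MeasurableSpace Z] [BorelSpace Z]

namespace Rep

variable {ν : G → Measure Z}

/-- key step of the 0-1 law: compact sets. -/
lemma null_of_compact [Infinite G] (hR : Rep S ι ν) (hS : Std S) {E : Set Z} (hE : IsClosed E)
    {s : ℝ} (hs : s < 1) (hle : ∀ y, (ν y).real E ≤ s) (x : G) : (ν x).real E = 0 := by
  have hp := hR.prob
  by_contra hne
  have hpos : 0 < (ν x).real E := lt_of_le_of_ne measureReal_nonneg (Ne.symm hne)
  set ε : ℝ := (1 - s) / 2 * (ν x).real E with hεdef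
  have hs' : 0 < (1 - s) / 2 := by linarith
  have hε : 0 < ε := mul_pos hs' hpos
  -- inner regularity
  obtain ⟨K, hKE, hK, hKm⟩ := hE.measurableSet.compl.exists_isClosed_sdiff_lt
    (measure_ne_top (ν x) Eᶜ) (ENNReal.ofReal_pos.2 hε).ne'
  have hKm' : (ν x).real (Eᶜ \ K) < ε := by
    rw [Measure.real]
    exact (ENNReal.lt_ofReal_iff_toReal_lt (measure_ne_top _ _)).1 hKm
  have hw := hR.harmonic hS (Eᶜ \ K)
  have hEh := hR.harmonic hS E
  -- separation
  have hdisj : Disjoint E K := by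
    rw [Set.disjoint_left]
    intro z hz hz'
    exact hKE hz' hz
  obtain ⟨ρ, hρ, hρd⟩ : ∃ ρ > 0, ∀ e ∈ E, ∀ k ∈ K, 2 * ρ ≤ dist e k := by
    obtain ⟨r, hr, hrd⟩ := hdisj.exists_thickenings hE.isCompact hK
    refine ⟨r / 2, by positivity, fun e he k hk => ?_⟩
    by_contra hcon
    push Not at hcon
    have h1 : e ∈ Metric.thickening r E := Metric.self_subset_thickening hr E he
    have h2 : e ∈ Metric.thickening r K := Metric.mem_thickening_iff.2 ⟨k, hk, by linarith⟩
    exact (Set.disjoint_left.1 hrd) h1 h2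
  have hdecomp : ∀ y, (ν y).real (Eᶜ \ K) = 1 - (ν y).real E - (ν y).real K := by
    intro y
    have h1 : (ν y).real Eᶜ = 1 - (ν y).real E := by
      rw [measureReal_compl hE.measurableSet]; simp
    rw [measureReal_sdiff hKE hK.measurableSet, h1]
  have hu : ∀ y, (1 - s) / 2 * (ν y).real E - (ν y).real (Eᶜ \ K) ≤ 0 := by
    refine max_principle hS (fun y _ => ?_) fun δ hδ => ?_
    · exact (((hEh.const_mul ((1 - s) / 2)).sub hw) y).ge
    · set ε' : ℝ := min ρ (min (δ / 2) ((1 - s) / 4)) with hε'def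
      have hε' : 0 < ε' := by
        have : 0 < (1 - s) / 4 := by linarith
        positivity
      have he1 : ε' ≤ ρ := min_le_left _ _
      have he2 : ε' ≤ δ / 2 := (min_le_right _ _).trans (min_le_left _ _)
      have he3 : ε' ≤ (1 - s) / 4 := (min_le_right _ _).trans (min_le_right _ _)
      obtain ⟨Q, hQ⟩ := hR.conc ε' hε'
      refine Q.finite_toSet.subset fun y hy => ?_
      by_contra hyQ
      have hc := hQ y hyQ
      simp only [mem_ofPred_eq] at hy
      by_cases hcase : ∀ e ∈ E, ε' ≤ dist e (ι y)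
      · have h1 : (ν y).real E ≤ ε' := (measureReal_mono (fun e he => hcase e he)).trans hc
        have h2 : 0 ≤ (ν y).real (Eᶜ \ K) := measureReal_nonneg
        have h3 : 0 ≤ (ν y).real E := measureReal_nonneg
        have h4 : 0 ≤ s := h3.trans (hle y)
        have h5 : 0 ≤ s * (ν y).real E := mul_nonneg h4 h3
        linarith
      · push Not at hcase
        obtain ⟨e, he, hed⟩ := hcase
        have h1 : (ν y).real K ≤ ε' := by
          refine (measureReal_mono (fun k hk => ?_)).trans hc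
          simp only [mem_ofPred_eq]
          have h4 := hρd e he k hk
          have h5 := dist_triangle_right e k (ι y)
          linarith
        have h3 := hdecomp y
        have h4 := hle y
        have h5 : 0 ≤ (ν y).real E := measureReal_nonneg
        nlinarith
  have := hu x
  linarith

/-- 0-1 law -/
lemma zeroone [Infinite G] (hR : Rep S ι ν) (hS : Std S) (A : Set Z) (hA : MeasurableSet A)
    (hx : ∃ x, 0 < (ν x).real A) (s : ℝ) (hs : s < 1) : ∃ y, s < (ν y).real A := by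
  have hp := hR.prob
  by_contra hcon
  push Not at hcon
  obtain ⟨x, hx⟩ := hx
  obtain ⟨E, hEA, hE, hEm⟩ := hA.exists_isClosed_sdiff_lt
    (measure_ne_top (ν x) A) (ENNReal.ofReal_pos.2 hx).ne'
  have hEm' : (ν x).real (A \ E) < (ν x).real A := by
    rw [Measure.real]
    exact (ENNReal.lt_ofReal_iff_toReal_lt (measure_ne_top _ _)).1 hEm
  have h1 := hR.null_of_compact hS hE hs
    (fun y => (measureReal_mono hEA).trans (hcon y)) x
  rw [measureReal_sdiff hEA hE.measurableSet, h1] at hEm'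
  linarith

/-- no atoms -/
lemma atomless [Infinite G] (hR : Rep S ι ν) (hS : Std S)
    (hd : ∀ φ : C(Z, ℝ), Dec S fun x => φ (ι x)) (hB : IsBdry S ι 𝓕) (x : G) (η : Z) :
    ν x {η} = 0 := by
  have hp := hR.prob
  by_contra hne
  have hpos : 0 < (ν x).real {η} := ENNReal.toReal_pos hne (measure_ne_top _ _)
  have h01 := hR.zeroone hS {η} (measurableSet_singleton _) ⟨x, hpos⟩
  -- translate to the base point
  have htr : ∀ y, (ν 1).real {y⁻¹ • η} = (ν y).real {η} := by
    intro y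
    have h1 := hR.equiv hS hd hB y⁻¹ y {η} (measurableSet_singleton _)
    simp only [inv_mul_cancel, image_singleton] at h1
    rw [Measure.real, h1, Measure.real]
  obtain ⟨y, hy⟩ := h01 (1 / 2) (by norm_num)
  rw [← htr y] at hy
  set a := y⁻¹ • η with ha
  have huniq : ∀ y' : G, 1 / 2 < (ν 1).real {y'⁻¹ • η} → y'⁻¹ • η = a := by
    intro y' hy'
    by_contra hna
    have hdis : Disjoint ({y'⁻¹ • η} : Set Z) {a} := by simpa using hna
    have h1 := measureReal_union (μ := ν 1) hdis (measurableSet_singleton a)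
    have h2 : (ν 1).real ({y'⁻¹ • η} ∪ {a}) ≤ 1 := measureReal_le_one
    linarith
  have hmass : (ν 1).real {a} = 1 := by
    refine le_antisymm measureReal_le_one ?_
    by_contra hlt
    push Not at hlt
    obtain ⟨y', hy'⟩ := h01 (max (1 / 2) ((ν 1).real {a})) (max_lt (by norm_num) hlt)
    rw [← htr y'] at hy'
    have h3 := huniq y' ((le_max_left _ _).trans_lt hy')
    rw [h3] at hy'
    exact absurd ((le_max_right _ _).trans_lt hy') (lt_irrefl _)
  obtain ⟨b, hb, c, hc, hbc⟩ := hB.two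
  have hcontra : ∀ θ ∈ T ι, θ = a := by
    intro θ hθ
    by_contra hθa
    have h1 := hR.full hS hB 1 ({a}ᶜ) (isOpen_compl_singleton) ⟨θ, hθa, hθ⟩
    rw [measureReal_compl (measurableSet_singleton a), hmass] at h1
    simp at h1
  exact hbc ((hcontra b hb).trans (hcontra c hc).symm)

/-- all properties -/
theorem isHarm [Infinite G] (hR : Rep S ι ν) (hS : Std S)
    (hd : ∀ φ : C(Z, ℝ), Dec S fun x => φ (ι x)) (hB : IsBdry S ι 𝓕) : IsHarm S ι ν where
  prob := hR.prob
  supp := hR.supp hS hB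
  equiv := hR.equiv hS hd hB
  harm := fun x A _ => ((hR.harmonic hS A) x).symm
  conc := hR.conc
  full := hR.full hS hB
  atomless := hR.atomless hS hd hB
  zeroone := hR.zeroone hS

end Rep

end Roy

/-- Node N9. -/
theorem nHarm (hD : NDecomp) : NHarm := by
  intro G _ S Z _ _ _ _ _ ι 𝓕 hT hN hI hB
  have hd := fun φ => Roy.dec_cont hD hT hN hB φ
  obtain ⟨ν, hR⟩ := Roy.exists_rep hT.toStd hd
  exact ⟨ν, hR.isHarm hT.toStd hd hB⟩

end Crest.Agent.R224
end
end

-- ▼ part R224/NMax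
section

set_option autoImplicit false

noncomputable section

open MeasureTheory Set Filter Topology Relation

namespace Crest.Agent.R224.K476

variable {G : Type} [Group G] {S : Finset G}

/-- levels near the value at `z` -/
def Nr (S : Finset G) (f : G → ℝ) (z : G) : Set ℝ := Icc (f z - Df S f z) (f z + Df S f z)

lemma mem_Nr_of_bd (hS : Std S) {f : G → ℝ} {t : ℝ} {p : G × G} (hp : p ∈ bd S {x | f x < t}) :
    t ∈ Nr S f p.1 ∧ t ∈ Nr S f p.2 := by
  obtain ⟨h1, h2, h3⟩ := hp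
  have h2 : f p.1 < t := h2
  have h3 : t ≤ f p.2 := not_lt.1 h3
  have h4 := abs_le_Df (f := f) h1
  have h5 := abs_le_Df (f := f) (adj_symm hS h1)
  rw [abs_le] at h4 h5
  have h6 := Df_nonneg (S := S) f p.1
  have h7 := Df_nonneg (S := S) f p.2
  exact ⟨⟨by linarith, by linarith⟩, ⟨by linarith, by linarith⟩⟩

lemma volume_Nr (f : G → ℝ) (z : G) : volume (Nr S f z) = ENNReal.ofReal (2 * Df S f z) := by
  rw [Nr, Real.volume_Icc]
  congr 1
  ring

lemma summable_mul_of_sq {ι : Type} {a b : ι → ℝ} (ha0 : ∀ z, 0 ≤ a z) (hb0 : ∀ z, 0 ≤ b z)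
    (ha : Summable fun z => a z ^ 2) (hb : Summable fun z => b z ^ 2) :
    Summable fun z => a z * b z := by
  refine Summable.of_nonneg_of_le (fun z => mul_nonneg (ha0 z) (hb0 z)) (fun z => ?_) (ha.add hb)
  nlinarith [sq_nonneg (a z - b z), mul_nonneg (ha0 z) (hb0 z)]

lemma volume_prod_Nr (f g : G → ℝ) (z w : G) :
    (volume : Measure (ℝ × ℝ)) (Nr S f z ×ˢ Nr S g w) =
      ENNReal.ofReal (4 * (Df S f z * Df S g w)) := by
  rw [Measure.volume_eq_prod, Measure.prod_prod, volume_Nr, volume_Nr,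
    ← ENNReal.ofReal_mul (mul_nonneg (by norm_num) (Df_nonneg f z))]
  congr 1
  ring

lemma ae_cross_finite (hS : Std S) {f g : G → ℝ} (hf : Dir S f) (hg : Dir S g) :
    ∀ᵐ p : ℝ × ℝ, {z | p.1 ∈ Nr S f z ∧ p.2 ∈ Nr S g z}.Finite := by
  have := countable hS
  have hs : Summable fun z => 4 * (Df S f z * Df S g z) :=
    (summable_mul_of_sq (Df_nonneg f) (Df_nonneg g) (Df_sq_summable hf)
      (Df_sq_summable hg)).mul_left 4
  have h : ∑' z, (volume : Measure (ℝ × ℝ)) (Nr S f z ×ˢ Nr S g z) ≠ ⊤ := by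
    simp only [volume_prod_Nr]
    exact hs.tsum_ofReal_ne_top
  filter_upwards [ae_finite_setOfPred_mem h] with p hp
  exact hp

lemma Df_neg (f : G → ℝ) (z : G) : Df S (fun x => -f x) z = Df S f z := by
  unfold Df
  refine Finset.sum_congr rfl fun s _ => ?_
  rw [show -f (z * s) - -f z = -(f (z * s) - f z) by ring, abs_neg]

lemma mem_Nr_neg {f : G → ℝ} {z : G} {t : ℝ} :
    t ∈ Nr S (fun x => -f x) z ↔ -t ∈ Nr S f z := by
  simp only [Nr, Df_neg, mem_Icc]
  constructor <;> rintro ⟨h1, h2⟩ <;> constructor <;> linarith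

lemma ae_ae_cross_finite (hS : Std S) {f g : G → ℝ} (hf : Dir S f) (hg : Dir S g) :
    ∀ᵐ s : ℝ, ∀ᵐ t : ℝ, {z | t ∈ Nr S f z ∧ t - s ∈ Nr S g z}.Finite := by
  have hg' : Dir S (fun x => -g x) := dir_of_le hg fun x y _ => by
    rw [show -g y - -g x = -(g y - g x) by ring, abs_neg]
  have h1 := ae_cross_finite hS hf hg'
  have hmp : MeasurePreserving (fun z : ℝ × ℝ => (z.2, z.1 - z.2))
      ((volume : Measure ℝ).prod volume) ((volume : Measure ℝ).prod volume) :=
    measurePreserving_prod_sub_swap volume volume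
  have h2 := hmp.quasiMeasurePreserving.ae h1
  have h3 := Measure.ae_ae_of_ae_prod h2
  filter_upwards [h3] with s hs
  filter_upwards [hs] with t ht
  refine ht.subset fun z hz => ⟨hz.1, ?_⟩
  rw [mem_Nr_neg]
  have := hz.2
  simpa using this

lemma abs_max_sub_max (a b c d : ℝ) :
    |max a b - max c d| ≤ |a - c| ∨ |max a b - max c d| ≤ |b - d| := by
  have := abs_max_sub_max_le_max a b c d
  exact le_max_iff.1 this

end Crest.Agent.R224.K476

namespace Crest.Agent.R224

open K476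

/-- Node N5. -/
theorem nMax : NMax := by
  intro G _ S hT _ f g hf hg
  have hS : Std S := hT.toStd
  filter_upwards [ae_ae_cross_finite hS hf.dir hg.dir] with s hs
  refine ⟨?_, ?_, ?_⟩
  · have hg' : Dir S (fun x => g x + s) := dir_of_le hg.dir fun x y _ => by
      rw [show g y + s - (g x + s) = g y - g x by ring]
    exact dir_of_le_add hf.dir hg' fun x y _ => abs_max_sub_max _ _ _ _
  · obtain ⟨C, hC⟩ := hf.bdd
    obtain ⟨D, hD⟩ := hg.bdd
    refine ⟨C + D + |s|, fun x => ?_⟩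
    have h1 := hC x
    have h2 := hD x
    have h3 : 0 ≤ |f x| := abs_nonneg _
    have h4 : 0 ≤ |g x| := abs_nonneg _
    have h5 : |g x + s| ≤ |g x| + |s| := abs_add_le _ _
    have h6 : 0 ≤ |s| := abs_nonneg _
    rcases max_choice (f x) (g x + s) with h | h <;> rw [h] <;> linarith
  · filter_upwards [hs, hf.fin, ae_sub_right hg.fin s] with t h1 h2 h3
    have : {x : G | max (f x) (g x + s) < t} = {x | f x < t} ∩ {x | g x < t - s} := by
      ext x
      simp only [mem_ofPred_eq, mem_inter_iff, max_lt_iff, lt_sub_iff_add_lt]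
    rw [this]
    refine finC_inter hS h2 h3 (h1.subset ?_)
    rintro x ⟨⟨y, hy⟩, z, hz⟩
    exact ⟨(mem_Nr_of_bd hS hy).1, (mem_Nr_of_bd hS hz).1⟩

end Crest.Agent.R224
end
end

-- ▼ part R224/NCP2
section

set_option autoImplicit false

noncomputable section

open MeasureTheory Set Filter Topology Relation

namespace Crest.Agent.R224.K476

variable {G : Type} [Group G] {S : Finset G}

/-! ### Correlation of square summable functions -/

lemma tail_sq {a : G → ℝ} (ha : Summable fun z => a z ^ 2) {δ : ℝ} (hδ : 0 < δ) :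
    ∃ F : Finset G, ∃ T : ℝ, T < δ ∧ ∃ a' : G → ℝ, HasSum a' T ∧ (∀ z, 0 ≤ a' z) ∧
      ∀ z, z ∉ F → a' z = a z ^ 2 := by
  classical
  have h1 : ∀ᶠ F in (atTop : Filter (Finset G)),
      (∑' z, a z ^ 2) - δ < ∑ z ∈ F, a z ^ 2 :=
    ha.hasSum.eventually (lt_mem_nhds (by linarith))
  obtain ⟨F, hF⟩ := h1.exists
  refine ⟨F, (∑' z, a z ^ 2) - ∑ z ∈ F, a z ^ 2, by linarith,
    fun z => a z ^ 2 - (if z ∈ F then a z ^ 2 else 0), ?_, ?_, ?_⟩
  · refine ha.hasSum.sub ?_
    have : ∑ z ∈ F, a z ^ 2 = ∑ z ∈ F, (if z ∈ F then a z ^ 2 else 0) :=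
      Finset.sum_congr rfl fun z hz => by rw [if_pos hz]
    rw [this]
    exact hasSum_sum_of_ne_finset_zero fun z hz => if_neg hz
  · intro z
    by_cases hz : z ∈ F
    · simp [hz]
    · simp [hz, sq_nonneg]
  · intro z hz
    simp [hz]

lemma corr {a b : G → ℝ} (ha : Summable fun z => a z ^ 2) (hb : Summable fun z => b z ^ 2)
    (ha0 : ∀ z, 0 ≤ a z) (hb0 : ∀ z, 0 ≤ b z) {ε : ℝ} (hε : 0 < ε) :
    ∃ K : Finset G, ∀ x, x ∉ K → (Summable fun z => a z * b (x⁻¹ * z)) ∧
      ∑' z, a z * b (x⁻¹ * z) < ε := by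
  classical
  set A := ∑' z, a z ^ 2 with hA
  set B := ∑' z, b z ^ 2 with hB
  have hA0 : 0 ≤ A := tsum_nonneg fun z => sq_nonneg _
  have hB0 : 0 ≤ B := tsum_nonneg fun z => sq_nonneg _
  set c := 2 * (A + B + 1) / ε with hc
  have hc0 : 0 < c := by positivity
  obtain ⟨Fa, Ta, hTa, a', ha', ha'0, ha'F⟩ := tail_sq ha (δ := ε / (4 * c)) (by positivity)
  obtain ⟨Fb, Tb, hTb, b', hb', hb'0, hb'F⟩ := tail_sq hb (δ := ε / (4 * c)) (by positivity)
  refine ⟨(Fa ×ˢ Fb).image fun p => p.1 * p.2⁻¹, fun x hx => ?_⟩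
  have hbx : HasSum (fun z => b (x⁻¹ * z) ^ 2) B :=
    (Equiv.mulLeft x⁻¹).hasSum_iff.2 hb.hasSum
  have hbx' : HasSum (fun z => b' (x⁻¹ * z)) Tb := (Equiv.mulLeft x⁻¹).hasSum_iff.2 hb'
  have hR := ((((ha'.mul_left c).add (hbx.mul_left (1 / c))).add (ha.hasSum.mul_left (1 / c))).add
    (hbx'.mul_left c)).mul_left (1 / 2)
  have hle : ∀ z, a z * b (x⁻¹ * z) ≤ 1 / 2 * (c * a' z + 1 / c * b (x⁻¹ * z) ^ 2 +
      1 / c * a z ^ 2 + c * b' (x⁻¹ * z)) := by
    intro z
    have key : ∀ u v : ℝ, u * v ≤ 1 / 2 * (c * u ^ 2 + 1 / c * v ^ 2) := by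
      intro u v
      have h1 : 1 / 2 * (c * u ^ 2 + 1 / c * v ^ 2) - u * v = 1 / (2 * c) * (c * u - v) ^ 2 := by
        field_simp
        ring
      have h2 : 0 ≤ 1 / (2 * c) * (c * u - v) ^ 2 := by positivity
      linarith
    have h1 : 0 ≤ c * a' z := mul_nonneg hc0.le (ha'0 z)
    have h2 : 0 ≤ c * b' (x⁻¹ * z) := mul_nonneg hc0.le (hb'0 _)
    have h3 : 0 ≤ 1 / c * a z ^ 2 := by positivity
    have h4 : 0 ≤ 1 / c * b (x⁻¹ * z) ^ 2 := by positivity
    by_cases hz : z ∈ Fa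
    · have hz2 : x⁻¹ * z ∉ Fb := by
        intro hz2
        refine hx (Finset.mem_image.2 ⟨(z, x⁻¹ * z), Finset.mem_product.2 ⟨hz, hz2⟩, ?_⟩)
        simp
      rw [hb'F _ hz2] at h2 ⊢
      have := key (b (x⁻¹ * z)) (a z)
      linarith
    · rw [ha'F _ hz] at h1 ⊢
      have := key (a z) (b (x⁻¹ * z))
      linarith
  have hsum : Summable fun z => a z * b (x⁻¹ * z) :=
    Summable.of_nonneg_of_le (fun z => mul_nonneg (ha0 _) (hb0 _)) hle hR.summable
  refine ⟨hsum, ?_⟩
  have h5 : ∑' z, a z * b (x⁻¹ * z) ≤ 1 / 2 * (c * Ta + 1 / c * B + 1 / c * A + c * Tb) :=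
    hasSum_le hle hsum.hasSum hR
  have h6 : c * Ta < ε / 4 := by
    have := mul_lt_mul_of_pos_left hTa hc0
    have h : c * (ε / (4 * c)) = ε / 4 := by field_simp
    linarith
  have h7 : c * Tb < ε / 4 := by
    have := mul_lt_mul_of_pos_left hTb hc0
    have h : c * (ε / (4 * c)) = ε / 4 := by field_simp
    linarith
  have h8 : 1 / c * B + 1 / c * A ≤ ε / 2 := by
    have h : 1 / c * B + 1 / c * A = ε / 2 * ((A + B) / (A + B + 1)) := by
      rw [hc]; field_simp; ring
    rw [h]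
    have h9 : (A + B) / (A + B + 1) ≤ 1 := by
      rw [div_le_one (by positivity)]; linarith
    nlinarith
  linarith

/-! ### Good levels -/

/-- levels whose walls are represented by edges in `K × K` -/
def Good (S : Finset G) (f : G → ℝ) (K : Finset G) : Set ℝ :=
  {t | ∃ F : Set (G × G), (∀ q ∈ F, q.1 ∈ K ∧ q.2 ∈ K) ∧ F ⊆ bd S {x | f x < t} ∧
    ∀ p ∈ bd S {x | f x < t}, ∃ q ∈ F, ReflTransGen (WS S {x | f x < t}) q p}

lemma good_mono {f : G → ℝ} {K K' : Finset G} (h : K ⊆ K') : Good S f K ⊆ Good S f K' := by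
  rintro t ⟨F, h1, h2, h3⟩
  exact ⟨F, fun q hq => ⟨h (h1 q hq).1, h (h1 q hq).2⟩, h2, h3⟩

lemma exists_good {f : G → ℝ} {t : ℝ} (h : FinC S {x | f x < t}) :
    ∃ K : Finset G, t ∈ Good S f K := by
  classical
  obtain ⟨F, hF, hFs, hFp⟩ := h
  refine ⟨hF.toFinset.image Prod.fst ∪ hF.toFinset.image Prod.snd, F, fun q hq => ?_, hFs, hFp⟩
  have hq' := hF.mem_toFinset.2 hq
  exact ⟨Finset.mem_union_left _ (Finset.mem_image_of_mem _ hq'),
    Finset.mem_union_right _ (Finset.mem_image_of_mem _ hq')⟩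

lemma exists_good_pos (hS : Std S) {f : G → ℝ} (hf : ClsS S f) {I : Set ℝ} (hI : volume I ≠ 0) :
    ∃ K : Finset G, volume (I ∩ Good S f K) ≠ 0 := by
  have := countable hS
  by_contra hc
  push Not at hc
  apply hI
  have h1 : volume (⋃ K : Finset G, I ∩ Good S f K) = 0 := measure_iUnion_null hc
  rw [measure_eq_zero_iff_ae_notMem] at h1 ⊢
  filter_upwards [h1, hf.fin] with t h2 h3 h4
  obtain ⟨K, hK⟩ := exists_good h3
  exact h2 (mem_iUnion.2 ⟨K, h4, hK⟩)

lemma uniform_good (hS : Std S) {f : G → ℝ} (hf : ClsS S f) {C : ℝ} {ε : ℝ} (hε : 0 < ε) :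
    ∃ K : Finset G, ∃ c : ENNReal, c ≠ 0 ∧ ∀ a, |a| ≤ C →
      c ≤ volume (Ioo (a + ε / 8) (a + ε) ∩ Good S f K) := by
  classical
  have h1 : ∀ i : ℤ, ∃ K : Finset G,
      volume (Ioo (i * (ε / 4)) ((i + 1) * (ε / 4)) ∩ Good S f K) ≠ 0 := by
    intro i
    apply exists_good_pos hS hf
    rw [Real.volume_Ioo]
    have : ((i : ℝ) + 1) * (ε / 4) - i * (ε / 4) = ε / 4 := by ring
    rw [this]
    have : 0 < ENNReal.ofReal (ε / 4) := ENNReal.ofReal_pos.2 (by positivity)
    exact this.ne'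
  choose K hK using h1
  set M : Finset ℤ := Finset.Icc ⌈(-C + ε / 8) / (ε / 4)⌉ ⌈(C + ε / 8) / (ε / 4)⌉ with hM
  have h2 : ∃ c : ENNReal, c ≠ 0 ∧ ∀ i ∈ M,
      c ≤ volume (Ioo (i * (ε / 4)) ((i + 1) * (ε / 4)) ∩ Good S f (K i)) := by
    refine ⟨M.inf fun i => volume (Ioo (i * (ε / 4)) ((i + 1) * (ε / 4)) ∩ Good S f (K i)), ?_,
      fun i hi => Finset.inf_le hi⟩
    apply ne_of_gt
    rw [Finset.lt_inf_iff (by exact ENNReal.zero_lt_top)]
    intro i _
    exact pos_iff_ne_zero.2 (hK i)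
  obtain ⟨c, hc, hcM⟩ := h2
  refine ⟨M.biUnion K, c, hc, fun a ha => ?_⟩
  obtain ⟨ha1, ha2⟩ := abs_le.1 ha
  have he : 0 < ε / 4 := by positivity
  set i : ℤ := ⌈(a + ε / 8) / (ε / 4)⌉ with hi
  have hiM : i ∈ M := by
    rw [hM, Finset.mem_Icc]
    constructor
    · apply Int.ceil_le_ceil
      exact div_le_div_of_nonneg_right (by linarith) he.le
    · apply Int.ceil_le_ceil
      exact div_le_div_of_nonneg_right (by linarith) he.le
  refine (hcM i hiM).trans (measure_mono ?_)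
  have h3 : a + ε / 8 ≤ i * (ε / 4) := by
    rw [← div_le_iff₀ he]
    exact Int.le_ceil _
  have h4 : (i : ℝ) * (ε / 4) < a + ε / 8 + ε / 4 := by
    have := Int.ceil_lt_add_one ((a + ε / 8) / (ε / 4))
    rw [← hi] at this
    have h5 := mul_lt_mul_of_pos_right this he
    rw [add_mul, div_mul_cancel₀ _ he.ne'] at h5
    linarith
  rintro t ⟨⟨h5, h6⟩, h7⟩
  refine ⟨⟨by linarith, by linarith⟩, good_mono (Finset.subset_biUnion_of_mem K hiM) h7⟩

/-! ### Two walls without crossing -/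

lemma path_in {A B : Set G} (h : ∀ p ∈ bd S A, ∀ r ∈ bd S B, r.1 ≠ p.1 ∧ r.1 ≠ p.2)
    {q p : G × G} (hq : q.1 ∈ B ∧ q.2 ∈ B) (hqp : ReflTransGen (WS S A) q p) :
    p.1 ∈ B ∧ p.2 ∈ B := by
  induction hqp with
  | refl => exact hq
  | @tail b c _ hbc ih =>
    obtain ⟨hb1, hb2⟩ := ih
    rcases hbc.1 with ⟨h1, h2⟩ | ⟨h1, h2⟩
    · refine ⟨h1 ▸ hb1, ?_⟩
      by_contra hc
      exact (h b hbc.2.1 (b.2, c.2) ⟨h2, hb2, hc⟩).2 rfl
    · refine ⟨?_, h1 ▸ hb2⟩
      by_contra hc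
      exact (h b hbc.2.1 (b.1, c.1) ⟨h2, hb1, hc⟩).1 rfl

lemma exists_noncross (hS : Std S) {f h : G → ℝ} {P Q : Set ℝ}
    (hPQ : ∑' z, ENNReal.ofReal (4 * (Df S f z * Df S h z)) < volume P * volume Q) :
    ∃ t ∈ P, ∃ s ∈ Q, ∀ z, ¬ (t ∈ Nr S f z ∧ s ∈ Nr S h z) := by
  have := countable hS
  by_contra hc
  push Not at hc
  have h1 : P ×ˢ Q ⊆ ⋃ z, Nr S f z ×ˢ Nr S h z := by
    rintro ⟨t, s⟩ ⟨ht, hs⟩
    obtain ⟨z, hz⟩ := hc t ht s hs
    exact mem_iUnion.2 ⟨z, hz⟩
  have h2 := (measure_mono (μ := (volume : Measure (ℝ × ℝ))) h1).trans (measure_iUnion_le _)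
  rw [Measure.volume_eq_prod, Measure.prod_prod] at h2
  refine absurd hPQ (not_lt.2 (h2.trans (le_of_eq ?_)))
  refine tsum_congr fun z => ?_
  rw [← Measure.volume_eq_prod, volume_prod_Nr]

/-- The core of the convergence property, for one choice of signs. -/
lemma cp_core (hS : Std S) {f g : G → ℝ} (hf : ClsS S f) (hg : ClsS S g) {ε : ℝ} (hε : 0 < ε) :
    ∃ K : Finset G, ∀ x, x ∉ K → ∀ y, ¬ (f x + ε < f y ∧ g x⁻¹ + ε < g (x⁻¹ * y)) := by
  classical
  obtain ⟨Cf, hCf⟩ := hf.bdd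
  obtain ⟨Cg, hCg⟩ := hg.bdd
  obtain ⟨K1, c1, hc1, h1⟩ := uniform_good hS hf (C := Cf) hε
  obtain ⟨K2, c2, hc2, h2⟩ := uniform_good hS hg (C := Cg) hε
  have hcc : 0 < c1 * c2 := pos_iff_ne_zero.2 (mul_ne_zero hc1 hc2)
  obtain ⟨r, hr0, hr⟩ := ENNReal.lt_iff_exists_nnreal_btwn.1 hcc
  have hr0' : 0 < (r : ℝ) := by exact_mod_cast hr0
  obtain ⟨L1, hL1⟩ := osc_finite hS hf.dir K2 (δ := ε / 8) (by positivity)
  obtain ⟨L2, hL2⟩ := osc_finite hS hg.dir K1 (δ := ε / 8) (by positivity)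
  obtain ⟨L3, hL3⟩ := corr (Df_sq_summable hf.dir) (Df_sq_summable hg.dir) (Df_nonneg f)
    (Df_nonneg g) (ε := r / 4) (by positivity)
  refine ⟨L1 ∪ L2.image (fun x => x⁻¹) ∪ L3, fun x hx y => ?_⟩
  rw [Finset.mem_union, Finset.mem_union, not_or, not_or] at hx
  obtain ⟨⟨hx1, hx2⟩, hx3⟩ := hx
  have hx2' : x⁻¹ ∉ L2 := fun h => hx2 (Finset.mem_image.2 ⟨x⁻¹, h, inv_inv x⟩)
  rintro ⟨hy1, hy2⟩
  obtain ⟨hsum, hlt⟩ := hL3 x hx3
  set h : G → ℝ := fun z => g (x⁻¹ * z) with hh
  have hm : ∑' z, ENNReal.ofReal (4 * (Df S f z * Df S h z)) <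
      volume (Ioo (f x + ε / 8) (f x + ε) ∩ Good S f K1) *
        volume (Ioo (g x⁻¹ + ε / 8) (g x⁻¹ + ε) ∩ Good S g K2) := by
    have e1 : ∀ z, Df S h z = Df S g (x⁻¹ * z) := fun z => Df_left g x⁻¹ z
    simp only [e1]
    rw [← ENNReal.ofReal_tsum_of_nonneg
      (fun z => mul_nonneg (by norm_num) (mul_nonneg (Df_nonneg _ _) (Df_nonneg _ _)))
      (hsum.mul_left 4), tsum_mul_left]
    calc ENNReal.ofReal (4 * ∑' z, Df S f z * Df S g (x⁻¹ * z))
        ≤ ENNReal.ofReal r := ENNReal.ofReal_le_ofReal (by linarith)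
      _ = (r : ENNReal) := ENNReal.ofReal_coe_nnreal
      _ < c1 * c2 := hr
      _ ≤ _ := mul_le_mul' (h1 _ (hCf x)) (h2 _ (hCg _))
  obtain ⟨t, ⟨ht, htG⟩, s, ⟨hs, hsG⟩, hts⟩ := exists_noncross hS hm
  set A : Set G := {z | f z < t} with hA
  set B : Set G := {z | h z < s} with hB
  have hno : ∀ p ∈ bd S A, ∀ q ∈ bd S B, q.1 ≠ p.1 ∧ q.1 ≠ p.2 ∧ p.1 ≠ q.2 := by
    intro p hp q hq
    obtain ⟨a1, a2⟩ := mem_Nr_of_bd hS hp
    obtain ⟨b1, b2⟩ := mem_Nr_of_bd hS hq
    refine ⟨fun e => ?_, fun e => ?_, fun e => ?_⟩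
    · exact hts _ ⟨a1, e ▸ b1⟩
    · exact hts _ ⟨a2, e ▸ b1⟩
    · exact hts _ ⟨a1, e ▸ b2⟩
  -- edges of `bd A` have their endpoints in `B`
  have hAB : ∀ p ∈ bd S A, p.1 ∈ B ∧ p.2 ∈ B := by
    intro p hp
    obtain ⟨F, hFK, hFs, hFp⟩ := htG
    obtain ⟨q, hq, hqp⟩ := hFp p hp
    refine path_in (fun p hp r hr => ⟨(hno p hp r hr).1, (hno p hp r hr).2.1⟩) ?_ hqp
    have hk : ∀ k ∈ K1, k ∈ B := by
      intro k hk
      have := (abs_lt.1 (hL2 x⁻¹ hx2' k hk)).2
      have h3 := hs.1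
      show g (x⁻¹ * k) < s
      linarith
    exact ⟨hk _ (hFK q hq).1, hk _ (hFK q hq).2⟩
  -- edges of `bd B` have their endpoints in `A`
  have hBA : ∀ p ∈ bd S B, p.1 ∈ A ∧ p.2 ∈ A := by
    intro p hp
    obtain ⟨F, hFK, hFs, hFp⟩ := hsG
    have hp' : (x⁻¹ * p.1, x⁻¹ * p.2) ∈ bd S {z | g z < s} :=
      ⟨(adj_left x⁻¹).2 hp.1, hp.2.1, hp.2.2⟩
    obtain ⟨q, hq, hqp⟩ := hFp _ hp'
    have hmem : ∀ e : G × G, e ∈ bd S {z | g z < s} → (x * e.1, x * e.2) ∈ bd S B := by
      intro e he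
      refine ⟨(adj_left x).2 he.1, ?_, ?_⟩
      · have := he.2.1
        show g (x⁻¹ * (x * e.1)) < s
        rw [inv_mul_cancel_left]
        exact this
      · have := he.2.2
        show ¬ g (x⁻¹ * (x * e.2)) < s
        rw [inv_mul_cancel_left]
        exact this
    have htr : ∀ e e' : G × G, ReflTransGen (WS S {z | g z < s}) e e' →
        ReflTransGen (WS S B) (x * e.1, x * e.2) (x * e'.1, x * e'.2) := by
      intro e e' hee
      induction hee with
      | refl => exact ReflTransGen.refl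
      | @tail b c _ hbc ih =>
        refine ih.tail ⟨?_, hmem b hbc.2.1, hmem c hbc.2.2⟩
        rcases hbc.1 with ⟨h3, h4⟩ | ⟨h3, h4⟩
        · exact Or.inl ⟨by simp [h3], (adj_left x).2 h4⟩
        · exact Or.inr ⟨by simp [h3], (adj_left x).2 h4⟩
    have hqp' := htr _ _ hqp
    simp only [mul_inv_cancel_left, Prod.mk.eta] at hqp'
    refine path_in (fun p hp r hr => ⟨((hno r hr p hp).1).symm, (hno r hr p hp).2.2⟩) ?_ hqp'
    have hk : ∀ k ∈ K2, x * k ∈ A := by
      intro k hk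
      have := (abs_lt.1 (hL1 x hx1 k hk)).2
      have h3 := ht.1
      show f (x * k) < t
      linarith
    exact ⟨hk _ (hFK q hq).1, hk _ (hFK q hq).2⟩
  have hbd : ∀ p, p ∉ bd S (A ∪ B) := by
    rintro p ⟨h3, h4 | h4, h5⟩
    · exact h5 (Or.inr (hAB p ⟨h3, h4, fun h6 => h5 (Or.inl h6)⟩).2)
    · exact h5 (Or.inl (hBA p ⟨h3, h4, fun h6 => h5 (Or.inr h6)⟩).2)
  have hxA : x ∈ A ∪ B := Or.inl (by
    show f x < t
    have := ht.1
    linarith)
  rcases mem_of_bd_empty hS hbd hxA y with h3 | h3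
  · have h3 : f y < t := h3
    have := ht.2
    linarith
  · have h3 : g (x⁻¹ * y) < s := h3
    have := hs.2
    linarith

end Crest.Agent.R224.K476

namespace Crest.Agent.R224

open K476

/-- Node N7. -/
theorem nCP2 : NCP2 := by
  classical
  intro G _ S hT _ f g hf hg ε hε
  have hS : Std S := hT.toStd
  obtain ⟨K1, h1⟩ := cp_core hS hf hg hε
  obtain ⟨K2, h2⟩ := cp_core hS hf (clsS_neg hS hg) hε
  obtain ⟨K3, h3⟩ := cp_core hS (clsS_neg hS hf) hg hε
  obtain ⟨K4, h4⟩ := cp_core hS (clsS_neg hS hf) (clsS_neg hS hg) hε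
  refine ⟨K1 ∪ K2 ∪ K3 ∪ K4, fun x hx y => ?_⟩
  simp only [Finset.mem_union, not_or] at hx
  obtain ⟨⟨⟨hx1, hx2⟩, hx3⟩, hx4⟩ := hx
  by_contra hc
  rw [not_or, not_le, not_le, lt_abs, lt_abs] at hc
  obtain ⟨ha | ha, hb | hb⟩ := hc
  · exact h1 x hx1 y ⟨by linarith, by linarith⟩
  · exact h2 x hx2 y ⟨by linarith, by linarith⟩
  · exact h3 x hx3 y ⟨by linarith, by linarith⟩
  · exact h4 x hx4 y ⟨by linarith, by linarith⟩

end Crest.Agent.R224
end
end

-- ▼ part R224/NodeLim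
section

set_option autoImplicit false

noncomputable section

open MeasureTheory Set Filter Topology

namespace Crest.Agent.R224

namespace Sys

variable (s : Sys)

theorem isClosed_T601 : IsClosed (T s.ι) := by
  unfold T
  rw [isClosed_compl_iff]
  have : Set.range s.ι = ⋃ g, {s.ι g} := by
    ext z; simp [eq_comm]
  rw [this]
  exact isOpen_iUnion fun g => s.bdry.isol g

theorem meas_T601 : MeasurableSet (T s.ι) := s.isClosed_T601.measurableSet

theorem RO.meas601 {s : Sys} {U : Set s.Z} (h : RO s.ι U) : MeasurableSet U := by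
  obtain ⟨O, hO, rfl⟩ := h
  exact hO.measurableSet.inter s.meas_T601


instance (x : s.G) : IsProbabilityMeasure (s.ν x) := s.harm.prob x

theorem hh_nonneg601 (U : Set s.Z) (x : s.G) : 0 ≤ hh s.ν U x := measureReal_nonneg


theorem hh_mono601 {U V : Set s.Z} (h : U ⊆ V) (x : s.G) : hh s.ν U x ≤ hh s.ν V x :=
  measureReal_mono h

theorem hh_T601 (x : s.G) : hh s.ν (T s.ι) x = 1 := by
  have h := s.harm.supp x
  have := prob_compl_eq_zero_iff (μ := s.ν x) s.meas_T601
  rw [this] at h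
  simp [hh, Measure.real, h]

theorem hh_inter_T601 (U : Set s.Z) (x : s.G) : hh s.ν (U ∩ T s.ι) x = hh s.ν U x := by
  unfold hh Measure.real
  congr 1
  exact measure_inter_conull (s.harm.supp x)

theorem conc_open601 {O : Set s.Z} (hO : IsOpen O) {θ : s.Z} (hθ : θ ∈ O) (hT : θ ∈ T s.ι)
    {ε : ℝ} (hε : 0 < ε) : ∃ δ : ℝ, 0 < δ ∧ ∀ x, dist (s.ι x) θ < δ → 1 - ε < hh s.ν O x := by
  obtain ⟨r, hr, hrO⟩ := Metric.isOpen_iff.1 hO θ hθ
  obtain ⟨K, hK⟩ := s.harm.conc (min (ε / 2) (r / 2)) (lt_min (by linarith) (by linarith))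
  have hKf : IsClosed (s.ι '' (K : Set s.G)) := (K.finite_toSet.image s.ι).isClosed
  have hθK : θ ∉ s.ι '' (K : Set s.G) := by
    rintro ⟨g, _, rfl⟩
    exact hT ⟨g, rfl⟩
  obtain ⟨δ, hδ, hδK⟩ := Metric.isOpen_iff.1 hKf.isOpen_compl θ hθK
  refine ⟨min δ (r / 2), lt_min hδ (by linarith), fun x hx => ?_⟩
  have hxK : x ∉ K := fun h => hδK (Metric.mem_ball.2 (hx.trans_le (min_le_left _ _))) ⟨x, h, rfl⟩
  have h1 := hK x hxK
  have hcompl : Oᶜ ⊆ {z | min (ε / 2) (r / 2) ≤ dist z (s.ι x)} := by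
    intro z hz
    by_contra hlt
    simp only [Set.mem_ofPred_eq, not_le] at hlt
    apply hz
    apply hrO
    rw [Metric.mem_ball]
    calc dist z θ ≤ dist z (s.ι x) + dist (s.ι x) θ := dist_triangle _ _ _
      _ < r / 2 + r / 2 := add_lt_add (hlt.trans_le (min_le_right _ _)) (hx.trans_le (min_le_right _ _))
      _ = r := by ring
  have h2 : (s.ν x).real Oᶜ ≤ ε / 2 :=
    (measureReal_mono hcompl).trans (h1.trans (min_le_left _ _))
  have h3 : (s.ν x).real Oᶜ = 1 - (s.ν x).real O := by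
    rw [measureReal_compl hO.measurableSet]; simp
  unfold hh
  linarith

theorem conc_RO601 {U : Set s.Z} (hU : RO s.ι U) {θ : s.Z} (hθ : θ ∈ U)
    {ε : ℝ} (hε : 0 < ε) : ∃ δ : ℝ, 0 < δ ∧ ∀ x, dist (s.ι x) θ < δ → 1 - ε < hh s.ν U x := by
  obtain ⟨O, hO, rfl⟩ := hU
  obtain ⟨δ, hδ, h⟩ := s.conc_open601 hO hθ.1 hθ.2 hε
  refine ⟨δ, hδ, fun x hx => ?_⟩
  rw [s.hh_inter_T601]
  exact h x hx

theorem hh_add_le601 {U V : Set s.Z} (hV : MeasurableSet V) (h : Disjoint U V) (x : s.G) :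
    hh s.ν U x + hh s.ν V x ≤ 1 := by
  unfold hh
  rw [← measureReal_union h hV]
  exact measureReal_le_one

/-- an infinite set of vertices accumulates at a point of the boundary -/
theorem exists_acc601 {A : Set s.G} (hA : A.Infinite) :
    ∃ θ ∈ T s.ι, ∀ δ : ℝ, 0 < δ → {x | x ∈ A ∧ dist (s.ι x) θ < δ}.Infinite := by
  have hne : (cofinite ⊓ 𝓟 A : Filter s.G).NeBot := by
    rw [cofinite_inf_principal_neBot_iff]; exact hA
  obtain ⟨θ, hθ⟩ := exists_clusterPt_of_compactSpace (map s.ι (cofinite ⊓ 𝓟 A))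
  have key : ∀ O ∈ 𝓝 θ, {x | x ∈ A ∧ s.ι x ∈ O}.Infinite := by
    intro O hO hfin
    rw [clusterPt_iff_nonempty] at hθ
    have hmem : (s.ι '' (A \ {x | x ∈ A ∧ s.ι x ∈ O})) ∈ map s.ι (cofinite ⊓ 𝓟 A) := by
      apply image_mem_map
      rw [mem_inf_principal]
      filter_upwards [hfin.compl_mem_cofinite] with x hx hxA
      exact ⟨hxA, hx⟩
    obtain ⟨z, hz1, x, hx, rfl⟩ := hθ hO hmem
    exact hx.2 ⟨hx.1, hz1⟩
  refine ⟨θ, ?_, fun δ hδ => ?_⟩
  · rintro ⟨g, rfl⟩
    have := key {s.ι g} ((s.bdry.isol g).mem_nhds rfl)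
    apply this
    apply (Set.finite_singleton g).subset
    rintro x ⟨_, hx⟩
    exact s.bdry.inj hx
  · exact key _ (Metric.ball_mem_nhds θ hδ)

end Sys

theorem pLim (s : Sys) : PLim s := by
  intro η U hU ε hε
  refine ⟨fun θ hθ => s.conc_RO601 hU.ro hθ hε, fun θ hθ => ?_⟩
  obtain ⟨δ, hδ, h⟩ := s.conc_RO601 hU.ro' hθ hε
  refine ⟨δ, hδ, fun x hx => ?_⟩
  have h1 := h x hx
  have h2 : hh s.ν U x + hh s.ν (cmp s.ι η U) x ≤ 1 :=
    s.hh_add_le601 (Sys.RO.meas601 hU.ro') (by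
      rw [Set.disjoint_left]
      intro z hz hz'
      exact hz'.2.2 hz) x
  linarith

theorem pBal (s : Sys) : PBal s := by
  intro η U hU c ε hc hε
  by_contra hinf
  obtain ⟨θ, hθT, hθ⟩ := s.exists_acc601 hinf
  have hne : θ ≠ η := by
    rintro rfl
    obtain ⟨x, ⟨⟨_, hx⟩, hx'⟩⟩ := (hθ ε hε).nonempty
    linarith
  obtain ⟨h1, h2⟩ := pLim s η U hU c hc
  by_cases hθU : θ ∈ U
  · obtain ⟨δ, hδ, h⟩ := h1 θ hθU
    obtain ⟨x, ⟨⟨hx, _⟩, hx'⟩⟩ := (hθ δ hδ).nonempty
    have := h x hx'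
    have := hx.2
    linarith
  · obtain ⟨δ, hδ, h⟩ := h2 θ ⟨hθT, hne, hθU⟩
    obtain ⟨x, ⟨⟨hx, _⟩, hx'⟩⟩ := (hθ δ hδ).nonempty
    have := h x hx'
    have := hx.1
    linarith

end Crest.Agent.R224
end
end

-- ▼ part R224/NodeBlk601
section

set_option autoImplicit false

noncomputable section

open MeasureTheory Set Filter Topology

namespace Crest.Agent.R224

namespace Sys

variable (s : Sys)

theorem mem_img601 {g : s.G} {A : Set s.Z} {z : s.Z} :
    z ∈ (fun z => g • z) '' A ↔ g⁻¹ • z ∈ A := by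
  constructor
  · rintro ⟨w, hw, rfl⟩
    simpa using hw
  · intro h
    exact ⟨g⁻¹ • z, h, by simp⟩

theorem smul_T601 {g : s.G} {θ : s.Z} (h : θ ∈ T s.ι) : g • θ ∈ T s.ι := by
  rintro ⟨x, hx⟩
  apply h
  refine ⟨g⁻¹ * x, ?_⟩
  rw [← s.bdry.eqv, hx]
  simp

theorem smul_T_iff601 {g : s.G} {θ : s.Z} : g • θ ∈ T s.ι ↔ θ ∈ T s.ι := by
  refine ⟨fun h => ?_, s.smul_T601⟩
  have := s.smul_T601 (g := g⁻¹) h
  simpa using this

variable {s}

theorem Clp.smul601 (hA : PAlg s) (g : s.G) {η : s.Z} {U : Set s.Z} (h : Clp s.ι η U) :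
    Clp s.ι (g • η) ((fun z => g • z) '' U) := (hA η U U h h).2.2.2.2 g

theorem img_cmp601 (g : s.G) (η : s.Z) (U : Set s.Z) :
    (fun z => g • z) '' cmp s.ι η U = cmp s.ι (g • η) ((fun z => g • z) '' U) := by
  ext z
  rw [mem_img601]
  unfold cmp
  simp only [Set.mem_ofPred_eq, mem_img601]
  rw [s.smul_T_iff601]
  refine and_congr Iff.rfl (and_congr ?_ Iff.rfl)
  rw [not_iff_not]
  exact inv_smul_eq_iff

theorem IsCut.smul601 (hA : PAlg s) (g : s.G) {η : s.Z} (h : IsCut s.ι η) :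
    IsCut s.ι (g • η) := by
  obtain ⟨U, hU, h1, h2⟩ := h
  refine ⟨_, Clp.smul601 hA g hU, h1.image _, ?_⟩
  rw [← img_cmp601]
  exact h2.image _


theorem compo_img_sub601 (hA : PAlg s) (g : s.G) (η θ : s.Z) :
    (fun z => g • z) '' Compo s.ι η θ ⊆ Compo s.ι (g • η) (g • θ) := by
  rintro _ ⟨z, ⟨h1, h2, h3⟩, rfl⟩
  refine ⟨s.smul_T601 h1, by simpa using h2, fun U hU hθ => ?_⟩
  have := Clp.smul601 hA g⁻¹ hU
  rw [inv_smul_smul] at this
  have h4 := h3 _ this (by rw [mem_img601]; simpa using hθ)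
  rw [mem_img601] at h4
  simpa using h4

theorem compo_img601 (hA : PAlg s) (g : s.G) (η θ : s.Z) :
    (fun z => g • z) '' Compo s.ι η θ = Compo s.ι (g • η) (g • θ) := by
  apply (compo_img_sub601 hA g η θ).antisymm
  intro z hz
  rw [mem_img601]
  have := compo_img_sub601 hA g⁻¹ (g • η) (g • θ) ⟨z, hz, rfl⟩
  simpa using this


theorem compo_eq601 (hA : PAlg s) {η θ u : s.Z} (h : θ ∈ T s.ι) (hne : θ ≠ η)
    (hu : u ∈ Compo s.ι η θ) : Compo s.ι η u = Compo s.ι η θ := by
  ext v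
  constructor
  · rintro ⟨h1, h2, h3⟩
    exact ⟨h1, h2, fun U hU hθ => h3 U hU (hu.2.2 U hU hθ)⟩
  · rintro ⟨h1, h2, h3⟩
    refine ⟨h1, h2, fun U hU hu' => h3 U hU ?_⟩
    by_contra hθ
    have := hu.2.2 _ (hA η U U hU hU).1 ⟨h, hne, hθ⟩
    exact this.2.2 hu'

theorem compo_disj601 (hA : PAlg s) {η θ θ' : s.Z} (h : θ ∈ T s.ι) (hne : θ ≠ η)
    (h' : θ' ∈ T s.ι) (hne' : θ' ≠ η) (hn : Compo s.ι η θ ≠ Compo s.ι η θ') :
    Disjoint (Compo s.ι η θ) (Compo s.ι η θ') := by
  rw [Set.disjoint_left]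
  intro u hu hu'
  exact hn ((compo_eq601 hA h hne hu).symm.trans (compo_eq601 hA h' hne' hu'))

theorem IsCut.memT601 {η : s.Z} (h : IsCut s.ι η) : η ∈ T s.ι := by
  obtain ⟨U, hU, _⟩ := h
  exact hU.mem

/-- `sel` is the component of any point of the block -/
theorem sel_eq601 (hA : PAlg s) {a b : s.Z} (hab : Unsep s.ι a b) {η z : s.Z}
    (hη : IsCut s.ι η) (hz : z ∈ Blk s.ι a b) (hne : z ≠ η) :
    sel s.ι a b η = Compo s.ι η z := by
  have h1 : z ∈ sel s.ι a b η := (hz.2 η hη).resolve_left hne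
  unfold sel at h1 ⊢
  split_ifs at h1 ⊢ with h
  · subst h
    exact (compo_eq601 hA hab.hb hab.ne.symm h1).symm
  · exact (compo_eq601 hA hab.ha (Ne.symm h) h1).symm

theorem exists_ne601 {a b : s.Z} (hab : Unsep s.ι a b)
    (ha : a ∈ Blk s.ι a b) (hb : b ∈ Blk s.ι a b) (η : s.Z) : ∃ z ∈ Blk s.ι a b, z ≠ η := by
  by_cases h : a = η
  · exact ⟨b, hb, fun h' => hab.ne (h.trans h'.symm)⟩
  · exact ⟨a, ha, h⟩

theorem sel_clp601 (hA : PAlg s) (hO : NOpen s) {a b : s.Z} (hab : Unsep s.ι a b)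
    (ha : a ∈ Blk s.ι a b) (hb : b ∈ Blk s.ι a b) {η : s.Z} (hη : IsCut s.ι η) :
    Clp s.ι η (sel s.ι a b η) := by
  obtain ⟨z, hz, hne⟩ := exists_ne601 hab ha hb η
  rw [sel_eq601 hA hab hη hz hne]
  exact hO η (IsCut.memT601 hη) z hz.1 hne

theorem img_sel601 (hA : PAlg s) {a b : s.Z} (hab : Unsep s.ι a b)
    (ha : a ∈ Blk s.ι a b) (hb : b ∈ Blk s.ι a b) {g : s.G} (hg : g ∈ s.StabB a b)
    {η : s.Z} (hη : IsCut s.ι η) :
    (fun z => g • z) '' sel s.ι a b η = sel s.ι a b (g • η) := by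
  obtain ⟨z, hz, hne⟩ := exists_ne601 hab ha hb η
  rw [sel_eq601 hA hab hη hz hne, compo_img601 hA]
  rw [sel_eq601 hA hab (IsCut.smul601 hA g hη) (z := g • z) (by
    have : g • z ∈ (fun z => g • z) '' Blk s.ι a b := ⟨z, hz, rfl⟩
    rw [hg] at this; exact this) (by simpa using hne)]

theorem img_Dn601 (hA : PAlg s) {a b : s.Z} (hab : Unsep s.ι a b)
    (ha : a ∈ Blk s.ι a b) (hb : b ∈ Blk s.ι a b) {g : s.G} (hg : g ∈ s.StabB a b)
    {η : s.Z} (hη : IsCut s.ι η) :
    (fun z => g • z) '' Dn s.ι a b η = Dn s.ι a b (g • η) := by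
  unfold Dn
  rw [img_cmp601, img_sel601 hA hab ha hb hg hη]

theorem stab_mem601 {a b : s.Z} {g : s.G} (hg : g ∈ s.StabB a b) {z : s.Z} :
    g • z ∈ Blk s.ι a b ↔ z ∈ Blk s.ι a b := by
  have h : (fun z => g • z) '' Blk s.ι a b = Blk s.ι a b := hg
  conv_lhs => rw [← h]
  rw [mem_img601]
  simp

theorem stab_inv601 {a b : s.Z} {g : s.G} (hg : g ∈ s.StabB a b) : g⁻¹ ∈ s.StabB a b := by
  show (fun z => g⁻¹ • z) '' Blk s.ι a b = Blk s.ι a b
  ext z
  rw [mem_img601, inv_inv, stab_mem601 hg]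

theorem img_sat601 (hA : PAlg s) {a b : s.Z} (hab : Unsep s.ι a b)
    (ha : a ∈ Blk s.ι a b) (hb : b ∈ Blk s.ι a b) {g : s.G} (hg : g ∈ s.StabB a b)
    (A : Set s.Z) :
    sat s.ι a b ((fun z => g • z) '' A) = (fun z => g • z) '' sat s.ι a b A := by
  ext z
  rw [mem_img601]
  unfold sat
  simp only [Set.mem_union, Set.mem_inter_iff, Set.mem_ofPred_eq, mem_img601]
  refine or_congr ?_ ?_
  · rw [stab_mem601 (stab_inv601 hg)]
  · constructor
    · rintro ⟨η, h1, h2, h3, h4⟩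
      refine ⟨g⁻¹ • η, IsCut.smul601 hA _ h1, h2, (stab_mem601 (stab_inv601 hg)).2 h3, ?_⟩
      rw [← img_Dn601 hA hab ha hb (stab_inv601 hg) h1, mem_img601]
      simpa using h4
    · rintro ⟨η, h1, h2, h3, h4⟩
      refine ⟨g • η, IsCut.smul601 hA _ h1, by simpa using h2, (stab_mem601 hg).2 h3, ?_⟩
      rw [← img_Dn601 hA hab ha hb hg h1, mem_img601]
      exact h4

theorem hh_img601 (g x : s.G) {A : Set s.Z} (hA : MeasurableSet A) :
    hh s.ν ((fun z => g • z) '' A) (g * x) = hh s.ν A x := by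
  unfold hh Measure.real
  rw [s.harm.equiv g x A hA]

theorem mem_XB601 (hA : PAlg s) (hP : NPart s) {a b : s.Z} (hab : Unsep s.ι a b)
    {g : s.G} (hg : g ∈ s.StabB a b) {c : ℝ} {x : s.G} (hx : x ∈ XB s.ι s.ν a b c) :
    g * x ∈ XB s.ι s.ν a b c := by
  obtain ⟨ha, hb, -, hD, -⟩ := hP a b hab
  intro η hη hηB
  have h1 : IsCut s.ι (g⁻¹ • η) := IsCut.smul601 hA _ hη
  have h2 : g⁻¹ • η ∈ Blk s.ι a b := (stab_mem601 (stab_inv601 hg)).2 hηB
  have h3 := hx _ h1 h2
  have h4 : (fun z => g • z) '' Dn s.ι a b (g⁻¹ • η) = Dn s.ι a b η := by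
    rw [img_Dn601 hA hab ha hb hg h1]; simp
  rw [← h4, hh_img601 g x (Sys.RO.meas601 (hD _ h1 h2).1.ro)]
  exact h3

theorem one_le_hh_sel_add601 {a b : s.Z} (η : s.Z) (x : s.G) :
    1 ≤ hh s.ν (sel s.ι a b η) x + hh s.ν (Dn s.ι a b η) x := by
  have h1 : T s.ι ⊆ (sel s.ι a b η ∪ Dn s.ι a b η) ∪ {η} := by
    intro z hz
    by_cases h : z = η
    · right; exact h
    · left
      by_cases h' : z ∈ sel s.ι a b η
      · left; exact h'
      · right; exact ⟨hz, h, h'⟩
  have h2 : (s.ν x).real {η} = 0 := by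
    simp [Measure.real, s.harm.atomless]
  calc (1 : ℝ) = hh s.ν (T s.ι) x := (s.hh_T601 x).symm
    _ ≤ (s.ν x).real ((sel s.ι a b η ∪ Dn s.ι a b η) ∪ {η}) := measureReal_mono h1
    _ ≤ (s.ν x).real (sel s.ι a b η ∪ Dn s.ι a b η) + (s.ν x).real {η} := measureReal_union_le _ _
    _ ≤ (s.ν x).real (sel s.ι a b η) + (s.ν x).real (Dn s.ι a b η) + (s.ν x).real {η} := by
        gcongr; exact measureReal_union_le _ _
    _ = hh s.ν (sel s.ι a b η) x + hh s.ν (Dn s.ι a b η) x := by rw [h2]; simp [hh]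

theorem sel_mono601 (hH : PHalf s) (hA : PAlg s) (hO : NOpen s) (hP : NPart s) {a b : s.Z}
    (hab : Unsep s.ι a b) {η η' : s.Z} (hη : IsCut s.ι η) (hη' : IsCut s.ι η')
    (hηB : η ∉ Blk s.ι a b) (hη'B : η' ∈ Blk s.ι a b) (hD : η ∈ Dn s.ι a b η') :
    sel s.ι a b η' ⊆ sel s.ι a b η := by
  obtain ⟨ha, hb, -⟩ := hP a b hab
  have hne : η' ≠ η := fun h => hηB (h ▸ hη'B)
  have hns : η ∉ sel s.ι a b η' := hD.2.2
  rcases hH η' (sel s.ι a b η') η (sel s.ι a b η) (sel_clp601 hA hO hab ha hb hη')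
    (sel_clp601 hA hO hab ha hb hη) hne hns with h | h
  · exact subset_union_left.trans h
  · exfalso
    rw [Set.disjoint_left] at h
    have h1 : a ∈ sel s.ι a b η' ∪ {η'} := by
      rcases ha.2 η' hη' with h1 | h1
      · right; exact h1
      · left; exact h1
    have h2 : a ∈ sel s.ι a b η := by
      rcases ha.2 η hη with h1 | h1
      · exact absurd ha (h1 ▸ hηB)
      · exact h1
    exact h h1 h2

theorem hh_sel_ge601 (hH : PHalf s) (hA : PAlg s) (hO : NOpen s) (hP : NPart s) {a b : s.Z}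
    (hab : Unsep s.ι a b) {c : ℝ} {x : s.G} (hx : x ∈ XB s.ι s.ν a b c) {η : s.Z}
    (hη : IsCut s.ι η) : c ≤ hh s.ν (sel s.ι a b η) x := by
  obtain ⟨ha, hb, -, -, -, h6⟩ := hP a b hab
  have key : ∀ η, IsCut s.ι η → η ∈ Blk s.ι a b → c ≤ hh s.ν (sel s.ι a b η) x := by
    intro η hη hηB
    have h1 := one_le_hh_sel_add601 (a := a) (b := b) η x
    have h2 := hx η hη hηB
    linarith
  by_cases hηB : η ∈ Blk s.ι a b
  · exact key η hη hηB
  · rcases h6 η (IsCut.memT601 hη) with h | ⟨η', h1, h2, h3⟩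
    · exact absurd h hηB
    · exact (key η' h1 h2).trans (s.hh_mono601 (sel_mono601 hH hA hO hP hab hη h1 hηB h2 h3) x)

/-- finitely many components of mass at least `c` -/
theorem fin_compo601 (hA : PAlg s) (hO : NOpen s) (x : s.G) {c : ℝ} (hc : 0 < c) (η : s.Z)
    (hη : η ∈ T s.ι) :
    {C : Set s.Z | (∃ θ ∈ T s.ι, θ ≠ η ∧ C = Compo s.ι η θ) ∧ c ≤ hh s.ν C x}.Finite := by
  let I := {C : Set s.Z // ∃ θ ∈ T s.ι, θ ≠ η ∧ C = Compo s.ι η θ}
  have h := Measure.finite_const_le_meas_of_disjoint_iUnion (s.ν x)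
    (ε := ENNReal.ofReal c) (ENNReal.ofReal_pos.2 hc) (As := fun C : I => C.1)
    (fun C => by
      obtain ⟨θ, h1, h2, h3⟩ := C.2
      rw [h3]
      exact Sys.RO.meas601 (hO η hη θ h1 h2).ro)
    (fun C C' hne => by
      obtain ⟨θ, h1, h2, h3⟩ := C.2
      obtain ⟨θ', h1', h2', h3'⟩ := C'.2
      show Disjoint C.1 C'.1
      rw [h3, h3']
      apply compo_disj601 hA h1 h2 h1' h2'
      intro h
      apply hne
      apply Subtype.ext
      rw [h3, h3', h])
    (measure_ne_top _ _)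
  refine (h.image Subtype.val).subset ?_
  rintro C ⟨h1, h2⟩
  refine ⟨⟨C, h1⟩, ?_, rfl⟩
  show ENNReal.ofReal c ≤ s.ν x C
  rw [ENNReal.ofReal_le_iff_le_toReal (measure_ne_top _ _)]
  exact h2

end Sys

open Sys

theorem nEquiv (s : Sys) (hA : PAlg s) (hP : NPart s) : NEquiv s := by
  intro a b hab γ hγ
  obtain ⟨ha, hb, -⟩ := hP a b hab
  exact ⟨stab_inv601 hγ, fun A _ => img_sat601 hA hab ha hb hγ A,
    fun c x hx => mem_XB601 hA hP hab hγ hx⟩

theorem nCofin (s : Sys) (hH : PHalf s) (hA : PAlg s) (hL : NLF s) (hO : NOpen s)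
    (hP : NPart s) : NCofin s := by
  intro a b hab c hc
  obtain ⟨ha, hb, -, -, -, -⟩ := hP a b hab
  -- the exceptional cut points
  let E : Set s.Z := {η | ∃ U, Clp s.ι η U ∧ (1 : s.G) ∈ Bal s.ν c U}
  have hE : E.Finite := hL c hc 1
  have : Finite E := hE.to_subtype
  -- the code
  let code : s.G → E → Set s.Z := fun x η =>
    (fun z => x⁻¹ • z) '' sel s.ι a b (x • (η : s.Z))
  -- selection seen from 1
  have hsel : ∀ x ∈ XB s.ι s.ν a b c, ∀ η : s.Z, IsCut s.ι η →
      (∃ θ ∈ T s.ι, θ ≠ η ∧ (fun z => x⁻¹ • z) '' sel s.ι a b (x • η) = Compo s.ι η θ) ∧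
      c ≤ hh s.ν ((fun z => x⁻¹ • z) '' sel s.ι a b (x • η)) 1 := by
    intro x hx η hη
    have hxη : IsCut s.ι (x • η) := IsCut.smul601 hA x hη
    constructor
    · obtain ⟨z, hz, hne⟩ := exists_ne601 hab ha hb (x • η)
      refine ⟨x⁻¹ • z, s.smul_T601 hz.1, ?_, ?_⟩
      · intro h; apply hne; rw [← h]; simp
      · rw [sel_eq601 hA hab hxη hz hne, compo_img601 hA]; simp
    · have h1 := hh_sel_ge601 hH hA hO hP hab hx hxη
      have h2 := hh_img601 x⁻¹ x (Sys.RO.meas601 (sel_clp601 hA hO hab ha hb hxη).ro)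
      rw [inv_mul_cancel] at h2
      rw [h2]; exact h1
  -- two codes agreeing gives equal blocks
  have hinj : ∀ x ∈ XB s.ι s.ν a b c, ∀ y ∈ XB s.ι s.ν a b c,
      (∀ η : E, IsCut s.ι (η : s.Z) → code x η = code y η) →
      ∀ η : s.Z, IsCut s.ι η → (fun z => x⁻¹ • z) '' sel s.ι a b (x • η) =
        (fun z => y⁻¹ • z) '' sel s.ι a b (y • η) := by
    intro x hx y hy hxy η hη
    by_cases hηE : η ∈ E
    · exact hxy ⟨η, hηE⟩ hη
    · obtain ⟨⟨θ, h1, h2, h3⟩, h4⟩ := hsel x hx η hη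
      obtain ⟨⟨θ', h1', h2', h3'⟩, h4'⟩ := hsel y hy η hη
      rw [h3] at h4
      rw [h3'] at h4'
      rw [h3, h3']
      by_contra hne
      have hd := compo_disj601 hA h1 h2 h1' h2' hne
      have hC := hO η (IsCut.memT601 hη) θ h1 h2
      have hC' := hO η (IsCut.memT601 hη) θ' h1' h2'
      have h5 : 1 - c < hh s.ν (Compo s.ι η θ) 1 := by
        by_contra hlt
        exact hηE ⟨_, hC, h4, not_lt.1 hlt⟩
      have h6 := s.hh_add_le601 (Sys.RO.meas601 hC'.ro) hd 1
      linarith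
  -- equal selections give equal blocks
  have hblk : ∀ x y : s.G, (∀ η : s.Z, IsCut s.ι η → (fun z => x⁻¹ • z) '' sel s.ι a b (x • η) =
        (fun z => y⁻¹ • z) '' sel s.ι a b (y • η)) →
      ∀ z, x • z ∈ Blk s.ι a b → y • z ∈ Blk s.ι a b := by
    intro x y hxy z hz
    refine ⟨s.smul_T_iff601.2 (s.smul_T_iff601.1 hz.1), fun η hη => ?_⟩
    have hη' : IsCut s.ι (y⁻¹ • η) := IsCut.smul601 hA _ hη
    rcases hz.2 (x • (y⁻¹ • η)) (IsCut.smul601 hA _ hη') with h | h
    · left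
      have : z = y⁻¹ • η := by simpa using h
      rw [this]; simp
    · right
      have h1 : z ∈ (fun z => x⁻¹ • z) '' sel s.ι a b (x • (y⁻¹ • η)) := by
        rw [mem_img601]; simpa using h
      rw [hxy _ hη', mem_img601] at h1
      simpa using h1
  -- finite set of codes
  open Classical in
  let code' : s.G → E → Set s.Z := fun x η => if IsCut s.ι (η : s.Z) then code x η else ∅
  have hfin : {k : E → Set s.Z | ∃ x ∈ XB s.ι s.ν a b c, k = code' x}.Finite := by
    have hFam : ∀ η : E, ({C : Set s.Z | (∃ θ ∈ T s.ι, θ ≠ (η : s.Z) ∧ C = Compo s.ι η θ) ∧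
        c ≤ hh s.ν C 1} ∪ {∅}).Finite := fun η =>
      (fin_compo601 hA hO 1 hc η η.2.choose_spec.1.mem).union (Set.finite_singleton _)
    refine (Set.Finite.pi hFam).subset ?_
    rintro k ⟨x, hx, rfl⟩ η -
    simp only [code']
    split_ifs with h
    · left
      exact ⟨(hsel x hx η h).1, (hsel x hx η h).2⟩
    · right; rfl
  -- representatives
  have hrep : ∀ k : {k : E → Set s.Z | ∃ x ∈ XB s.ι s.ν a b c, k = code' x},
    ∃ y ∈ XB s.ι s.ν a b c, k.1 = code' y := fun k => k.2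
  choose rep hrep1 hrep2 using hrep
  have : Finite {k : E → Set s.Z | ∃ x ∈ XB s.ι s.ν a b c, k = code' x} := hfin.to_subtype
  refine ⟨(Set.finite_range rep).toFinset, fun x hx => ?_⟩
  let k : {k : E → Set s.Z | ∃ x ∈ XB s.ι s.ν a b c, k = code' x} := ⟨code' x, x, hx, rfl⟩
  have hxk : code' x = code' (rep k) := hrep2 k
  have hcode : ∀ η : E, IsCut s.ι (η : s.Z) → code x η = code (rep k) η := by
    intro η hη
    have := congrFun hxk η
    simp only [code', if_pos hη] at this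
    exact this
  have h1 := hinj x hx (rep k) (hrep1 k) hcode
  refine ⟨x * (rep k)⁻¹, ?_, rep k, by simp, by simp⟩
  show (fun z => (x * (rep k)⁻¹) • z) '' Blk s.ι a b = Blk s.ι a b
  ext z
  rw [mem_img601, mul_inv_rev, inv_inv, mul_smul]
  constructor
  · intro h
    have := hblk (rep k) x (fun η hη => (h1 η hη).symm) (x⁻¹ • z) h
    simpa using this
  · intro h
    apply hblk x (rep k) h1
    simpa using h

/-- the block has a third point -/
theorem Sys.blk_third601 {s : Sys} (hP : NPart s) (hC : NBlkConn s) {a b : s.Z}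
    (hab : Unsep s.ι a b) (p q : s.Z) : (Blk s.ι a b \ {p, q}).Nonempty := by
  obtain ⟨ha, hb, -⟩ := hP a b hab
  by_contra hne
  rw [Set.not_nonempty_iff_eq_empty] at hne
  have hsub : Blk s.ι a b ⊆ {p, q} := by
    intro z hz
    by_contra h
    have : z ∈ Blk s.ι a b \ {p, q} := ⟨hz, h⟩
    rw [hne] at this; exact this
  obtain ⟨O, O', hO, hO', haO, hbO', hd⟩ := t2_separation hab.ne
  have hpq : Blk s.ι a b ⊆ {a, b} := by
    intro z hz
    have h1 := hsub hz
    have h2 := hsub ha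
    have h3 := hsub hb
    simp only [Set.mem_insert_iff, Set.mem_singleton_iff] at h1 h2 h3 ⊢
    have hne' := hab.ne
    rcases h1 with rfl | rfl <;> rcases h2 with rfl | rfl <;> rcases h3 with rfl | rfl <;>
      simp_all
  obtain ⟨z, ⟨h1, h2⟩, h3⟩ := hC a b hab O O' hO hO' (by
    intro z hz
    rcases hpq hz with rfl | h
    · left; exact haO
    · right; rw [Set.mem_singleton_iff] at h; rw [h]; exact hbO') ⟨a, haO, ha⟩ ⟨b, hbO', hb⟩
  exact (Set.disjoint_left.1 hd) h1 h2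

theorem nSpread (s : Sys) (hA : PAlg s) (hP : NPart s) (hR : NRetr s)
    (hC : NBlkConn s) (hF : NCofin s) : NSpread s := by
  intro a b hab c hc
  obtain ⟨ha, hb, -, hD, hdis, hcov⟩ := hP a b hab
  -- relatively open, nonempty, positive mass
  have hRO : ∀ p q : s.Z, RO s.ι (sat s.ι a b (Blk s.ι a b \ {p, q})) := by
    intro p q
    have := hR a b hab ({p, q}ᶜ) (by
      have : IsClosed ({p, q} : Set s.Z) := (Set.toFinite _).isClosed
      exact this.isOpen_compl)
    have h2 : ({p, q}ᶜ ∩ Blk s.ι a b : Set s.Z) = Blk s.ι a b \ {p, q} := by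
      ext z; simp [and_comm]
    rwa [h2] at this
  have hpos : ∀ p q : s.Z, ∀ x, 0 < hh s.ν (sat s.ι a b (Blk s.ι a b \ {p, q})) x := by
    intro p q x
    obtain ⟨O, hO, hOT⟩ := hRO p q
    obtain ⟨z, hz⟩ := Sys.blk_third601 hP hC hab p q
    have h1 : z ∈ sat s.ι a b (Blk s.ι a b \ {p, q}) := Or.inl ⟨hz, hz.1⟩
    have h2 := s.harm.full x O hO ⟨z, by rw [hOT]; exact h1⟩
    rw [← hOT, s.hh_inter_T601]
    exact h2
  -- masses of the branches
  let m : s.G → s.Z → ℝ := fun x p => open Classical in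
    if IsCut s.ι p ∧ p ∈ Blk s.ι a b then hh s.ν (Dn s.ι a b p) x else 0
  have hm_nonneg : ∀ x p, 0 ≤ m x p := by
    intro x p
    simp only [m]
    split_ifs
    · exact s.hh_nonneg601 _ _
    · exact le_rfl
  have hlow : ∀ x p q, 1 - m x p - m x q ≤ hh s.ν (sat s.ι a b (Blk s.ι a b \ {p, q})) x := by
    intro x p q
    classical
    let N : s.Z → Set s.Z := fun p => if IsCut s.ι p ∧ p ∈ Blk s.ι a b then Dn s.ι a b p else ∅
    have hN : ∀ p, (s.ν x).real (N p) = m x p := by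
      intro p
      simp only [N, m]
      split_ifs <;> simp [hh]
    have hcover : T s.ι ⊆ sat s.ι a b (Blk s.ι a b \ {p, q}) ∪ ((N p ∪ N q) ∪ {p, q}) := by
      intro z hz
      rcases hcov z hz with h | ⟨η, h1, h2, h3⟩
      · by_cases hpq : z ∈ ({p, q} : Set s.Z)
        · right; right; exact hpq
        · left; exact Or.inl ⟨⟨h, hpq⟩, h⟩
      · by_cases hpq : η ∈ ({p, q} : Set s.Z)
        · right; left
          rcases hpq with rfl | h
          · left; simp only [N, if_pos (And.intro h1 h2)]; exact h3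
          · rw [Set.mem_singleton_iff] at h; subst h
            right; simp only [N, if_pos (And.intro h1 h2)]; exact h3
        · left; exact Or.inr ⟨η, h1, ⟨h2, hpq⟩, h2, h3⟩
    have h0 : (s.ν x).real ({p, q} : Set s.Z) = 0 := by
      have : s.ν x ({p, q} : Set s.Z) = 0 := by
        rw [Set.insert_eq]
        exact measure_union_null (s.harm.atomless x p) (s.harm.atomless x q)
      simp [Measure.real, this]
    have h1 : (1 : ℝ) ≤ hh s.ν (sat s.ι a b (Blk s.ι a b \ {p, q})) x + (m x p + m x q + 0) := by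
      calc (1 : ℝ) = hh s.ν (T s.ι) x := (s.hh_T601 x).symm
        _ ≤ (s.ν x).real (sat s.ι a b (Blk s.ι a b \ {p, q}) ∪ ((N p ∪ N q) ∪ {p, q})) :=
            measureReal_mono hcover
        _ ≤ (s.ν x).real (sat s.ι a b (Blk s.ι a b \ {p, q})) +
              (s.ν x).real ((N p ∪ N q) ∪ {p, q}) := measureReal_union_le _ _
        _ ≤ (s.ν x).real (sat s.ι a b (Blk s.ι a b \ {p, q})) +
              ((s.ν x).real (N p ∪ N q) + (s.ν x).real {p, q}) := by
            gcongr; exact measureReal_union_le _ _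
        _ ≤ (s.ν x).real (sat s.ι a b (Blk s.ι a b \ {p, q})) +
              ((s.ν x).real (N p) + (s.ν x).real (N q) + (s.ν x).real {p, q}) := by
            gcongr; exact measureReal_union_le _ _
        _ = _ := by rw [hN, hN, h0]; rfl
    linarith
  -- bound at one vertex
  have hone : ∀ x ∈ XB s.ι s.ν a b c, ∃ c3 : ℝ, 0 < c3 ∧ ∀ p q : s.Z,
      c3 ≤ hh s.ν (sat s.ι a b (Blk s.ι a b \ {p, q})) x := by
    intro x hx
    set c' : ℝ := min c 1 / 4 with hc'
    have hc'0 : 0 < c' := by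
      have : 0 < min c 1 := lt_min hc one_pos
      linarith
    have hc'c : c' ≤ c / 4 := by have := min_le_left c 1; linarith
    have hc'1 : c' ≤ 1 / 4 := by have := min_le_right c 1; linarith
    let E : Set s.Z := {η | c' ≤ m x η}
    have hE : E.Finite := by
      let I := {η : s.Z // IsCut s.ι η ∧ η ∈ Blk s.ι a b}
      have h := Measure.finite_const_le_meas_of_disjoint_iUnion (s.ν x)
        (ε := ENNReal.ofReal c') (ENNReal.ofReal_pos.2 hc'0) (As := fun η : I => Dn s.ι a b η.1)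
        (fun η => Sys.RO.meas601 (hD η.1 η.2.1 η.2.2).1.ro)
        (fun η η' hne => hdis η.1 η'.1 η.2.1 η.2.2 η'.2.1 η'.2.2
          (fun h => hne (Subtype.ext h)))
        (measure_ne_top _ _)
      refine (h.image Subtype.val).subset ?_
      intro η hη
      have hη' : c' ≤ m x η := hη
      by_cases hcut : IsCut s.ι η ∧ η ∈ Blk s.ι a b
      · refine ⟨⟨η, hcut⟩, ?_, rfl⟩
        simp only [m, if_pos hcut] at hη'
        show ENNReal.ofReal c' ≤ s.ν x (Dn s.ι a b η)
        rw [ENNReal.ofReal_le_iff_le_toReal (measure_ne_top _ _)]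
        exact hη'
      · simp only [m, if_neg hcut] at hη'
        linarith
    have hmle : ∀ p, m x p ≤ 1 - c ∨ m x p = 0 := by
      intro p
      by_cases hcut : IsCut s.ι p ∧ p ∈ Blk s.ι a b
      · left; simp only [m, if_pos hcut]; exact hx p hcut.1 hcut.2
      · right; simp only [m, if_neg hcut]
    -- finite minimum over pairs in E
    obtain ⟨c1, hc1, hc1'⟩ : ∃ c1 : ℝ, 0 < c1 ∧ ∀ p ∈ E, ∀ q ∈ E,
        c1 ≤ hh s.ν (sat s.ι a b (Blk s.ι a b \ {p, q})) x := by
      by_cases hEe : E.Nonempty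
      · obtain ⟨⟨p0, q0⟩, h0, h1⟩ := Set.exists_min_image (E ×ˢ E)
          (fun r => hh s.ν (sat s.ι a b (Blk s.ι a b \ {r.1, r.2})) x) (hE.prod hE)
          (hEe.prod hEe)
        exact ⟨_, hpos p0 q0 x, fun p hp q hq => h1 (p, q) ⟨hp, hq⟩⟩
      · rw [Set.not_nonempty_iff_eq_empty] at hEe
        exact ⟨1, one_pos, fun p hp => by rw [hEe] at hp; exact absurd hp (by simp)⟩
    refine ⟨min c1 (min (1 / 2) (c / 2)), lt_min hc1 (lt_min (by norm_num) (by linarith)), ?_⟩
    intro p q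
    by_cases hp : p ∈ E
    · by_cases hq : q ∈ E
      · exact (min_le_left _ _).trans (hc1' p hp q hq)
      · have hq' : m x q < c' := not_le.1 hq
        have h1 := hlow x p q
        rcases hmle p with h2 | h2
        · have := (min_le_right c1 (min (1 / 2) (c / 2))).trans (min_le_right _ _)
          linarith
        · have := (min_le_right c1 (min (1 / 2) (c / 2))).trans (min_le_left _ _)
          linarith
    · have hp' : m x p < c' := not_le.1 hp
      have h1 := hlow x p q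
      rcases hmle q with h2 | h2
      · have := (min_le_right c1 (min (1 / 2) (c / 2))).trans (min_le_right _ _)
        linarith
      · have := (min_le_right c1 (min (1 / 2) (c / 2))).trans (min_le_left _ _)
        linarith
  -- finitely many vertices modulo the stabiliser
  obtain ⟨F, hFF⟩ := hF a b hab c hc
  classical
  choose! c3 hc3 hc3' using hone
  let F' := F.filter (fun y => y ∈ XB s.ι s.ν a b c)
  obtain ⟨cm, hcm, hcm'⟩ : ∃ cm : ℝ, 0 < cm ∧ ∀ y ∈ F', cm ≤ c3 y := by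
    by_cases hne : F'.Nonempty
    · obtain ⟨y0, hy0, hmin⟩ := F'.exists_min_image c3 hne
      exact ⟨c3 y0, hc3 y0 (Finset.mem_filter.1 hy0).2, hmin⟩
    · rw [Finset.not_nonempty_iff_eq_empty] at hne
      exact ⟨1, one_pos, fun y hy => by rw [hne] at hy; exact absurd hy (by simp)⟩
  refine ⟨cm, hcm, fun x hx p q => ?_⟩
  obtain ⟨γ, hγ, y, hy, rfl⟩ := hFF x hx
  have hyX : y ∈ XB s.ι s.ν a b c := by
    have := mem_XB601 hA hP hab (stab_inv601 hγ) hx
    simpa using this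
  have h1 := hcm' y (Finset.mem_filter.2 ⟨hy, hyX⟩)
  have h2 := hc3' y hyX (γ⁻¹ • p) (γ⁻¹ • q)
  have h3 : Blk s.ι a b \ {p, q} = (fun z => γ • z) '' (Blk s.ι a b \ {γ⁻¹ • p, γ⁻¹ • q}) := by
    ext z
    rw [mem_img601]
    simp only [Set.mem_sdiff, Set.mem_insert_iff, Set.mem_singleton_iff]
    rw [stab_mem601 (stab_inv601 hγ)]
    simp
  rw [h3, img_sat601 hA hab ha hb hγ, hh_img601 γ y (Sys.RO.meas601 (hRO _ _))]
  linarith

end Crest.Agent.R224
end
end

-- ▼ part R224/NodeLF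
section

set_option autoImplicit false

noncomputable section

open MeasureTheory Set Filter Topology

namespace Crest.Agent.R224.LF255

variable (s : Sys)

/-- separation of two arbitrary vertices -/
theorem cross_finite (hB : NThmB s) (a b : s.G) : {η | Cross s.ι s.ν a b η}.Finite := by
  have h := s.conn_univ a b
  induction h with
  | refl =>
    refine finite_empty.subset ?_
    rintro η ⟨U, _, h1, h2⟩
    exact absurd h1 (not_lt.2 h2)
  | @tail c d h1 h2 ih =>
    refine (ih.union (hB c d h2)).subset ?_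
    rintro η ⟨U, hU, k1, k2⟩
    by_cases hc : hh s.ν U c ≤ 1 / 2
    · exact Or.inl ⟨U, hU, k1, hc⟩
    · exact Or.inr ⟨U, hU, not_le.1 hc, k2⟩

/-- non-empty relatively open sets have positive mass -/
theorem hh_pos {U : Set s.Z} (h : RO s.ι U) (hne : U.Nonempty) (x : s.G) : 0 < hh s.ν U x := by
  obtain ⟨O, hO, rfl⟩ := h
  have h1 := s.harm.full x O hO hne
  have h2 : (s.ν x).real (O ∩ T s.ι) = (s.ν x).real O := by
    have h3 : (s.ν x) (O ∩ T s.ι) = s.ν x O := measure_inter_conull (s.harm.supp x)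
    simp [measureReal_def, h3]
  unfold hh
  rw [h2]; exact h1

/-- an increasing chain of clopen sets, balanced at the same vertex, is impossible -/
theorem no_chain (hB : NThmB s) {c : ℝ} (hc : 0 < c) (x : s.G) (η : ℕ → s.Z) (A : ℕ → Set s.Z)
    (hinj : Function.Injective η) (hA : ∀ n, Clp s.ι (η n) (A n)) (hmono : Monotone A)
    (h1 : ∀ n, c ≤ hh s.ν (A n) x) (h2 : ∀ n, hh s.ν (A n) x ≤ 1 - c) : False := by
  have hm : MeasurableSet (⋃ n, A n) := MeasurableSet.iUnion fun n => (hA n).meas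
  -- mass of the union
  have h3 : hh s.ν (⋃ n, A n) x ≤ 1 - c := by
    have ht : Tendsto (fun n => s.ν x (A n)) atTop (𝓝 (s.ν x (⋃ n, A n))) :=
      tendsto_measure_iUnion_atTop hmono
    have ht2 : Tendsto (fun n => hh s.ν (A n) x) atTop (𝓝 (hh s.ν (⋃ n, A n) x)) := by
      unfold hh Measure.real
      exact (ENNReal.tendsto_toReal (measure_ne_top _ _)).comp ht
    exact le_of_tendsto' ht2 h2
  have h4 : hh s.ν (⋃ n, A n)ᶜ x = 1 - hh s.ν (⋃ n, A n) x := probReal_compl_eq_one_sub hm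
  obtain ⟨a, ha⟩ := s.harm.zeroone (A 0) (hA 0).meas ⟨x, hc.trans_le (h1 0)⟩ (1 / 2) (by norm_num)
  obtain ⟨b, hb⟩ := s.harm.zeroone (⋃ n, A n)ᶜ hm.compl
    ⟨x, by have : 0 < hh s.ν (⋃ n, A n)ᶜ x := by linarith
           exact this⟩ (1 / 2) (by norm_num)
  have hb2 : hh s.ν (⋃ n, A n)ᶜ b = 1 - hh s.ν (⋃ n, A n) b := probReal_compl_eq_one_sub hm
  refine (infinite_range_of_injective hinj) ((cross_finite s hB a b).subset ?_)
  rintro _ ⟨n, rfl⟩
  refine ⟨A n, hA n, ?_, ?_⟩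
  · exact lt_of_lt_of_le ha (s.hh_mono (hmono (Nat.zero_le n)) a)
  · have h5 : hh s.ν (A n) b ≤ hh s.ν (⋃ n, A n) b := s.hh_mono (subset_iUnion A n) b
    have hb' : 1 / 2 < hh s.ν (⋃ n, A n)ᶜ b := hb
    linarith

variable {s}

/-- relation between two half-spaces which both miss `θ0` -/
theorem trichotomy (hH : PHalf s) (hAl : PAlg s) {θ0 : s.Z} (h0 : θ0 ∈ T s.ι) {η ξ : s.Z}
    {U V : Set s.Z} (hU : Clp s.ι η U) (hV : Clp s.ι ξ V) (hne : η ≠ ξ) (hη0 : θ0 ≠ η)
    (hU0 : θ0 ∉ U) (hV0 : θ0 ∉ V) :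
    U ∪ {η} ⊆ V ∨ V ∪ {ξ} ⊆ U ∨ Disjoint U V := by
  by_cases h1 : ξ ∈ U
  · by_cases h2 : η ∈ V
    · exfalso
      have hU' : Clp s.ι η (cmp s.ι η U) := (hAl η U U hU hU).1
      rcases hH η (cmp s.ι η U) ξ V hU' hV hne (fun h => h.2.2 h1) with h | h
      · exact hV0 (h (Or.inl ⟨h0, hη0, hU0⟩))
      · exact Set.disjoint_left.1 h (Or.inr rfl) h2
    · rcases hH ξ V η U hV hU hne.symm h2 with h | h
      · exact Or.inr (Or.inl h)
      · exact absurd h1 (Set.disjoint_left.1 h (Or.inr rfl))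
  · rcases hH η U ξ V hU hV hne h1 with h | h
    · exact Or.inl h
    · exact Or.inr (Or.inr (h.mono_left subset_union_left))

theorem cmp_mono {η ξ : s.Z} {U V : Set s.Z} (h : U ∪ {η} ⊆ V) : cmp s.ι ξ V ⊆ cmp s.ι η U := by
  rintro z ⟨h1, _, h3⟩
  exact ⟨h1, fun he => h3 (h (Or.inr he)), fun hz => h3 (h (Or.inl hz))⟩

end LF255

open LF255

/-- node C1 -/
theorem nLF (s : Sys) (hB : NThmB s) (hH : PHalf s) (hAl : PAlg s) : NLF s := by
  classical
  intro c hc x
  obtain ⟨θ0, h0, -⟩ := s.bdry.two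
  by_contra hinf
  have hinf2 : ({η | ∃ U, Clp s.ι η U ∧ x ∈ Bal s.ν c U} \ {θ0}).Infinite :=
    Set.Infinite.sdiff hinf (finite_singleton θ0)
  let f := hinf2.natEmbedding
  have hf : ∀ n, ∃ U, Clp s.ι (f n : s.Z) U ∧ x ∈ Bal s.ν c U ∧ θ0 ∉ U := by
    intro n
    obtain ⟨⟨U, hU, hb⟩, -⟩ := (f n).2
    by_cases hθ : θ0 ∈ U
    · refine ⟨cmp s.ι (f n) U, (hAl _ U U hU hU).1, ?_, fun h => h.2.2 hθ⟩
      have := hU.hh_add x
      obtain ⟨b1, b2⟩ := hb
      constructor <;> linarith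
    · exact ⟨U, hU, hb, hθ⟩
  choose A hA hbal hA0 using hf
  have hne0 : ∀ n, θ0 ≠ (f n : s.Z) := fun n h => (f n).2.2 h.symm
  have hinj : Function.Injective fun n => (f n : s.Z) :=
    fun m n h => f.injective (Subtype.ext h)
  let r : ℕ → ℕ → Prop := fun m n => A m ∪ {(f m : s.Z)} ⊆ A n
  have htri : ∀ m n, m ≠ n → r m n ∨ r n m ∨ Disjoint (A m) (A n) := fun m n hmn =>
    trichotomy hH hAl h0 (hA m) (hA n) (fun h => hmn (hinj h)) (hne0 m) (hA0 m) (hA0 n)
  have htr : ∀ {i j k : ℕ}, r i j → r j k → r i k := fun h1 h2 =>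
    h1.trans (subset_union_left.trans h2)
  have : IsTrans ℕ r := ⟨fun _ _ _ => htr⟩
  have : IsTrans ℕ (fun m n => r n m) := ⟨fun _ _ _ h1 h2 => htr h2 h1⟩
  obtain ⟨g, hg⟩ := exists_increasing_or_nonincreasing_subseq r id
  rcases hg with hg | hg
  · -- increasing chain
    refine no_chain s hB hc x (fun n => (f (g n) : s.Z)) (fun n => A (g n))
      (fun m n h => g.injective (hinj h)) (fun n => hA _) ?_ (fun n => (hbal _).1)
      (fun n => (hbal _).2)
    refine monotone_nat_of_le_succ fun n => ?_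
    exact subset_union_left.trans (hg n (n + 1) (Nat.lt_succ_self n))
  · obtain ⟨k, hk⟩ := exists_increasing_or_nonincreasing_subseq (fun m n => r n m) (fun n => g n)
    rcases hk with hk | hk
    · -- decreasing chain
      refine no_chain s hB hc x (fun n => (f (g (k n)) : s.Z))
        (fun n => cmp s.ι (f (g (k n)) : s.Z) (A (g (k n))))
        (fun m n h => k.injective (g.injective (hinj h)))
        (fun n => (hAl _ _ _ (hA _) (hA _)).1) ?_ ?_ ?_
      · refine monotone_nat_of_le_succ fun n => ?_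
        exact cmp_mono (hk n (n + 1) (Nat.lt_succ_self n))
      · intro n
        have := (hA (g (k n))).hh_add x
        have := (hbal (g (k n))).2
        linarith
      · intro n
        have := (hA (g (k n))).hh_add x
        have := (hbal (g (k n))).1
        linarith
    · -- pairwise disjoint
      have hdisj : ∀ m n, m < n → Disjoint (A (g (k m))) (A (g (k n))) := by
        intro m n hmn
        have h1 : ¬ r (g (k m)) (g (k n)) := hg _ _ (k.strictMono hmn)
        have h2 : ¬ r (g (k n)) (g (k m)) := hk m n hmn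
        have h3 : g (k m) ≠ g (k n) := fun h => hmn.ne (k.injective (g.injective h))
        rcases htri _ _ h3 with h | h | h
        · exact absurd h h1
        · exact absurd h h2
        · exact h
      have hpd : Pairwise (Function.onFun Disjoint fun n => A (g (k n))) := by
        intro m n hmn
        rcases lt_or_gt_of_ne hmn with h | h
        · exact hdisj m n h
        · exact (hdisj n m h).symm
      have hfin := Measure.finite_const_le_meas_of_disjoint_iUnion (s.ν x)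
        (ε := ENNReal.ofReal c) (ENNReal.ofReal_pos.2 hc) (As := fun n => A (g (k n)))
        (fun n => (hA _).meas) hpd (measure_ne_top _ _)
      refine (infinite_univ (α := ℕ)) (hfin.subset fun n _ => ?_)
      have h1 := (hbal (g (k n))).1
      unfold hh Measure.real at h1
      exact (ENNReal.ofReal_le_iff_le_toReal (measure_ne_top _ _)).2 h1

/-- node C2 -/
theorem nCtbl (s : Sys) (hL : NLF s) : NCtbl s := by
  have h : {η | IsCut s.ι η} ⊆ ⋃ k : ℕ, {η | ∃ U, Clp s.ι η U ∧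
      (1 : s.G) ∈ Bal s.ν (1 / ((k : ℝ) + 1)) U} := by
    rintro η ⟨U, hU, hne, hne'⟩
    have h1 := hh_pos s hU.ro hne 1
    have h2 := hh_pos s hU.ro' hne' 1
    have h3 := hU.hh_add 1
    obtain ⟨k, hk⟩ := exists_nat_one_div_lt (lt_min h1 h2)
    rw [lt_min_iff] at hk
    refine mem_iUnion.2 ⟨k, U, hU, hk.1.le, ?_⟩
    linarith [hk.2]
  refine Countable.mono h (countable_iUnion fun k => ?_)
  exact (hL _ (by positivity) 1).countable

end Crest.Agent.R224
end
end

-- ▼ part R224/NodeNull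

set_option autoImplicit false

noncomputable section

open MeasureTheory Set Filter Topology
open scoped Pointwise

namespace Crest.Agent.R224

namespace NodeNull

variable (s : Sys)

theorem isClosed_T : IsClosed (T s.ι) := by
  have : IsOpen (Set.range s.ι) := by
    have h : Set.range s.ι = ⋃ g, {s.ι g} := by
      ext z; simp [eq_comm]
    rw [h]
    exact isOpen_iUnion fun g => s.bdry.isol g
  exact this.isClosed_compl

theorem meas_RO {U : Set s.Z} (h : RO s.ι U) : MeasurableSet U := by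
  obtain ⟨O, hO, rfl⟩ := h
  exact hO.measurableSet.inter (isClosed_T s).measurableSet

theorem smul_mem_T (g : s.G) {z : s.Z} (hz : z ∈ T s.ι) : g • z ∈ T s.ι := by
  rintro ⟨h, hh⟩
  apply hz
  refine ⟨g⁻¹ * h, ?_⟩
  rw [← s.bdry.eqv, hh, inv_smul_smul]

theorem prob (x : s.G) : IsProbabilityMeasure (s.ν x) := s.harm.prob x



/-- translation of masses -/
theorem hh_smul (g x : s.G) {U : Set s.Z} (hU : MeasurableSet U) :
    hh s.ν (g • U) (g * x) = hh s.ν U x := by
  have := s.harm.equiv g x U hU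
  unfold hh
  simp only [Measure.real]
  congr 1

theorem bal_smul (g x : s.G) (c : ℝ) {U : Set s.Z} (hU : MeasurableSet U) :
    g * x ∈ Bal s.ν c (g • U) ↔ x ∈ Bal s.ν c U := by
  unfold Bal
  simp only [Set.mem_setOf_eq, hh_smul s g x hU]

theorem clp_smul (hA : PAlg s) {η : s.Z} {U : Set s.Z} (h : Clp s.ι η U) (g : s.G) :
    Clp s.ι (g • η) (g • U) := (hA η U U h h).2.2.2.2 g

theorem clp_cmp (hA : PAlg s) {η : s.Z} {U : Set s.Z} (h : Clp s.ι η U) :
    Clp s.ι η (cmp s.ι η U) := (hA η U U h h).1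

theorem cmp_smul (g : s.G) (η : s.Z) (U : Set s.Z) :
    cmp s.ι (g • η) (g • U) = g • cmp s.ι η U := by
  ext z
  rw [Set.mem_smul_set_iff_inv_smul_mem]
  simp only [cmp, Set.mem_setOf_eq, Set.mem_smul_set_iff_inv_smul_mem]
  constructor
  · rintro ⟨h1, h2, h3⟩
    refine ⟨smul_mem_T s g⁻¹ h1, ?_, h3⟩
    intro h; apply h2; rw [← h, smul_inv_smul]
  · rintro ⟨h1, h2, h3⟩
    refine ⟨?_, ?_, h3⟩
    · have := smul_mem_T s g h1
      rwa [smul_inv_smul] at this
    · intro h; apply h2; rw [h, inv_smul_smul]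

theorem compo_smul (hA : PAlg s) (g : s.G) (η θ : s.Z) :
    Compo s.ι (g • η) (g • θ) = g • Compo s.ι η θ := by
  have key : ∀ (g : s.G) (η θ : s.Z), g • Compo s.ι η θ ⊆ Compo s.ι (g • η) (g • θ) := by
    intro g η θ z hz
    rw [Set.mem_smul_set_iff_inv_smul_mem] at hz
    obtain ⟨h1, h2, h3⟩ := hz
    refine ⟨?_, ?_, ?_⟩
    · have := smul_mem_T s g h1
      rwa [smul_inv_smul] at this
    · intro h; apply h2; rw [h, inv_smul_smul]
    · intro U hU hθ
      have h4 := clp_smul s hA hU g⁻¹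
      rw [inv_smul_smul] at h4
      have h5 := h3 _ h4 (by
        rw [Set.mem_smul_set_iff_inv_smul_mem, inv_inv]; exact hθ)
      rw [Set.mem_smul_set_iff_inv_smul_mem, inv_inv, smul_inv_smul] at h5
      exact h5
  apply Set.Subset.antisymm _ (key g η θ)
  intro z hz
  have := key g⁻¹ (g • η) (g • θ) (Set.smul_mem_smul_set (a := g⁻¹) hz)
  rw [inv_smul_smul, inv_smul_smul] at this
  rw [Set.mem_smul_set_iff_inv_smul_mem]
  exact this

theorem isCut_smul (hA : PAlg s) {η : s.Z} (h : IsCut s.ι η) (g : s.G) : IsCut s.ι (g • η) := by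
  obtain ⟨U, hU, h1, h2⟩ := h
  refine ⟨g • U, clp_smul s hA hU g, h1.smul_set, ?_⟩
  rw [cmp_smul]
  exact h2.smul_set

theorem pairs_smul (hA : PAlg s) {q : s.Z × Set s.Z} (hq : q ∈ s.Pairs) (g : s.G) :
    g • q ∈ s.Pairs := by
  obtain ⟨h1, θ, h2, h3, h4⟩ := hq
  refine ⟨isCut_smul s hA h1 g, g • θ, smul_mem_T s g h2, ?_, ?_⟩
  · intro h
    exact h3 (MulAction.injective g h)
  · show g • q.2 = _
    rw [h4]
    exact (compo_smul s hA g q.1 θ).symm

theorem compo_symm (hA : PAlg s) {η θ z : s.Z} (hθT : θ ∈ T s.ι) (hθη : θ ≠ η)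
    (hz : z ∈ Compo s.ι η θ) : θ ∈ Compo s.ι η z := by
  refine ⟨hθT, hθη, ?_⟩
  intro U hU hzU
  by_contra hθ
  have := hz.2.2 (cmp s.ι η U) (clp_cmp s hA hU) ⟨hθT, hθη, hθ⟩
  exact this.2.2 hzU

theorem compo_trans {η θ z w : s.Z} (hz : z ∈ Compo s.ι η θ) (hw : w ∈ Compo s.ι η z) :
    w ∈ Compo s.ι η θ :=
  ⟨hw.1, hw.2.1, fun U hU hθ => hw.2.2 U hU (hz.2.2 U hU hθ)⟩

theorem compo_eq (hA : PAlg s) {η θ z : s.Z} (hθT : θ ∈ T s.ι) (hθη : θ ≠ η)
    (hz : z ∈ Compo s.ι η θ) : Compo s.ι η z = Compo s.ι η θ := by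
  ext w
  exact ⟨fun hw => compo_trans s hz hw,
    fun hw => compo_trans s (compo_symm s hA hθT hθη hz) hw⟩


theorem compo_disj (hA : PAlg s) {η θ θ' : s.Z} (hθT : θ ∈ T s.ι) (hθη : θ ≠ η)
    (hθT' : θ' ∈ T s.ι) (hθη' : θ' ≠ η) (h : Compo s.ι η θ ≠ Compo s.ι η θ') :
    Disjoint (Compo s.ι η θ) (Compo s.ι η θ') := by
  rw [Set.disjoint_left]
  intro z hz hz'
  apply h
  rw [← compo_eq s hA hθT hθη hz, ← compo_eq s hA hθT' hθη' hz']

/-- a pairwise disjoint family of measurable sets of mass at least `c` is finite -/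
theorem finite_of_mass (x : s.G) {c : ℝ} (hc : 0 < c) (F : Set (Set s.Z))
    (hm : ∀ A ∈ F, MeasurableSet A) (hd : F.PairwiseDisjoint id)
    (hF : ∀ A ∈ F, c ≤ hh s.ν A x) : F.Finite := by
  haveI := prob s x
  by_contra hinf
  obtain ⟨N, hN⟩ := exists_nat_gt (1 / c)
  obtain ⟨t, ht, hcard⟩ := Set.Infinite.exists_subset_card_eq hinf N
  have h1 : (s.ν x).real (⋃ A ∈ t, A) = ∑ A ∈ t, (s.ν x).real A := by
    apply measureReal_biUnion_finset
    · intro A hA B hB hAB
      exact hd (ht hA) (ht hB) hAB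
    · intro A hA
      exact hm A (ht hA)
    · intro A _
      exact measure_ne_top _ _
  have h2 : (N : ℝ) * c ≤ ∑ A ∈ t, (s.ν x).real A := by
    rw [← hcard, ← nsmul_eq_mul]
    apply Finset.card_nsmul_le_sum
    intro A hA
    exact hF A (ht hA)
  have h3 : (s.ν x).real (⋃ A ∈ t, A) ≤ 1 := measureReal_le_one
  have h4 : 1 < (N : ℝ) * c := by
    rwa [div_lt_iff₀ hc] at hN
  linarith

/-- only finitely many pairs are balanced at a given vertex -/
theorem finPairs (hA : PAlg s) (hLF : NLF s) (hO : NOpen s) {c : ℝ} (hc : 0 < c) (x : s.G) :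
    {q | q ∈ s.Pairs ∧ x ∈ Bal s.ν c q.2}.Finite := by
  have h1 := hLF c hc x
  apply Set.Finite.subset (s := ⋃ η ∈ {η | ∃ U, Clp s.ι η U ∧ x ∈ Bal s.ν c U},
    (fun C => (η, C)) '' {C | ∃ θ, θ ∈ T s.ι ∧ θ ≠ η ∧ C = Compo s.ι η θ ∧ η ∈ T s.ι ∧
      c ≤ hh s.ν C x})
  · apply h1.biUnion
    intro η hη
    apply Set.Finite.image
    apply finite_of_mass s x hc
    · rintro A ⟨θ, hθ, hne, rfl, hηT, -⟩
      exact meas_RO s (hO η hηT θ hθ hne).ro
    · rintro A ⟨θ, hθ, hne, rfl, hηT, -⟩ B ⟨θ', hθ', hne', rfl, -, -⟩ hAB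
      exact compo_disj s hA hθ hne hθ' hne' hAB
    · rintro A ⟨θ, hθ, hne, rfl, hηT, h⟩
      exact h
  · rintro ⟨η, C⟩ ⟨⟨h2, θ, h3, h4, h5⟩, h6⟩
    obtain ⟨U, hU, -, -⟩ := h2
    have hηT := hU.mem
    simp only [Set.mem_iUnion]
    simp only at h5 h6 h4 hηT
    have hClp : Clp s.ι η C := by rw [h5]; exact hO η hηT θ h3 h4
    exact ⟨η, ⟨C, hClp, h6⟩, C, ⟨θ, h3, h4, h5, hηT, h6.1⟩, rfl⟩

theorem near_mul (g : s.G) {ε : ℝ} (hε : 0 < ε) :
    ∃ K : Finset s.G, ∀ x : s.G, x ∉ K → dist (s.ι (x * g)) (s.ι x) ≤ ε := by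
  classical
  obtain ⟨r, hr, hball⟩ := Metric.isOpen_iff.1 (s.bdry.isol g) (s.ι g) rfl
  set ε' := min ε (r / 2) with hε'
  have hε'0 : 0 < ε' := lt_min hε (by linarith)
  obtain ⟨K, hK⟩ := s.bdry.cp ε' hε'0
  refine ⟨insert g⁻¹ K, fun x hx => ?_⟩
  rw [Finset.mem_insert, not_or] at hx
  rcases hK x hx.2 (s.ι (x * g)) with h | h
  · exact h.trans (min_le_left _ _)
  · exfalso
    rw [s.bdry.eqv] at h
    rw [← mul_assoc, inv_mul_cancel, one_mul] at h
    have h1 : s.ι x⁻¹ ∈ ({s.ι g} : Set s.Z) := by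
      apply hball
      rw [Metric.mem_ball, dist_comm]
      have : ε' ≤ r / 2 := min_le_right _ _
      linarith
    have h2 := s.bdry.inj (Set.mem_singleton_iff.1 h1)
    apply hx.1
    rw [← h2, inv_inv]

theorem tendsto_leaves {x : ℕ → s.G} {τ : s.Z} (hτ : τ ∈ T s.ι)
    (h : Tendsto (fun n => s.ι (x n)) atTop (𝓝 τ)) (K : Finset s.G) :
    ∀ᶠ n in atTop, x n ∉ K := by
  have hcl : IsClosed ((fun g => s.ι g) '' (K : Set s.G)) :=
    (K.finite_toSet.image _).isClosed
  have hmem : τ ∈ ((fun g => s.ι g) '' (K : Set s.G))ᶜ := by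
    rintro ⟨g, -, hg⟩
    exact hτ ⟨g, hg⟩
  filter_upwards [h (hcl.isOpen_compl.mem_nhds hmem)] with n hn hx
  exact hn ⟨x n, hx, rfl⟩

theorem tendsto_mul {x : ℕ → s.G} {τ : s.Z} (hτ : τ ∈ T s.ι)
    (h : Tendsto (fun n => s.ι (x n)) atTop (𝓝 τ)) (g : s.G) :
    Tendsto (fun n => s.ι (x n * g)) atTop (𝓝 τ) := by
  have h0 : Tendsto (fun n => dist (s.ι (x n * g)) (s.ι (x n))) atTop (𝓝 0) := by
    rw [Metric.tendsto_atTop]
    intro ε hε
    obtain ⟨K, hK⟩ := near_mul s g (half_pos hε)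
    obtain ⟨N, hN⟩ := eventually_atTop.1 (tendsto_leaves s hτ h K)
    refine ⟨N, fun n hn => ?_⟩
    have := hK (x n) (hN n hn)
    rw [Real.dist_eq, sub_zero, abs_of_nonneg dist_nonneg]
    linarith
  have h1 : Tendsto (fun n => dist (s.ι (x n)) τ) atTop (𝓝 0) := tendsto_iff_dist_tendsto_zero.1 h
  rw [tendsto_iff_dist_tendsto_zero]
  have h2 := h0.add h1
  rw [add_zero] at h2
  exact squeeze_zero (fun n => dist_nonneg) (fun n => dist_triangle _ _ _) h2

/-- a sequence in a finite set has a constant subsequence -/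
theorem const_subseq {α : Type*} {F : Set α} (hF : F.Finite) (r : ℕ → α) (hr : ∀ n, r n ∈ F) :
    ∃ a, ∃ φ : ℕ → ℕ, StrictMono φ ∧ ∀ n, r (φ n) = a := by
  have h1 : ∃ a ∈ F, {n | r n = a}.Infinite := by
    by_contra hcon
    push Not at hcon
    have : (Set.univ : Set ℕ) ⊆ ⋃ a ∈ F, {n | r n = a} := by
      intro n _
      simp only [Set.mem_iUnion]
      exact ⟨r n, hr n, rfl⟩
    have h2 : (⋃ a ∈ F, {n | r n = a}).Finite := hF.biUnion fun a ha => by
      first
        | exact hcon a ha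
        | exact Set.not_infinite.1 (hcon a ha)
    exact Set.infinite_univ (h2.subset this)
  obtain ⟨a, -, ha⟩ := h1
  obtain ⟨φ, hφ, hφ'⟩ := Filter.extraction_of_frequently_atTop
    (Nat.frequently_atTop_iff_infinite.2 ha)
  exact ⟨a, φ, hφ, hφ'⟩

theorem nNull (hA : PAlg s) (hLF : NLF s) (hO : NOpen s) (hD : NNullDyn s) : NNull s := by
  intro c ε hc hε
  by_contra hinf
  -- an injective sequence of pairs
  set Q := {q | q ∈ s.Pairs ∧ ∃ x ∈ Bal s.ν c q.2, ∃ x' ∈ Bal s.ν c q.2,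
    ε ≤ dist (s.ι x) (s.ι x')} with hQ
  have hinf' : Q.Infinite := hinf
  let q0 : ℕ → s.Z × Set s.Z := fun n => (hinf'.natEmbedding Q n : Q)
  have hq0inj : Function.Injective q0 := fun a b h =>
    (hinf'.natEmbedding Q).injective (Subtype.ext h)
  have hq0 : ∀ n, q0 n ∈ Q := fun n => (hinf'.natEmbedding Q n).2
  choose hq0P x0 hx0 x0' hx0' hdist0 using hq0
  -- compactness
  obtain ⟨τ, -, φ1, hφ1, hτ1⟩ := (isCompact_univ (X := s.Z)).tendsto_subseq
    (x := fun n => s.ι (x0 n)) (fun n => Set.mem_univ _)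
  obtain ⟨τ', -, φ2, hφ2, hτ2⟩ := (isCompact_univ (X := s.Z)).tendsto_subseq
    (x := fun n => s.ι (x0' (φ1 n))) (fun n => Set.mem_univ _)
  set φ := φ1 ∘ φ2 with hφ
  have hφm : StrictMono φ := hφ1.comp hφ2
  have hτx : Tendsto (fun n => s.ι (x0 (φ n))) atTop (𝓝 τ) := hτ1.comp hφ2.tendsto_atTop
  have hτx' : Tendsto (fun n => s.ι (x0' (φ n))) atTop (𝓝 τ') := hτ2
  -- limits are in T
  have hT : ∀ (y : ℕ → s.G) (σ : s.Z), (∀ n, y n ∈ Bal s.ν c (q0 (φ n)).2) →
      Tendsto (fun n => s.ι (y n)) atTop (𝓝 σ) → σ ∈ T s.ι := by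
    intro y σ hy hσ
    by_contra hnot
    have : σ ∈ Set.range s.ι := by
      by_contra h; exact hnot h
    obtain ⟨g, hg⟩ := this
    have hev : ∀ᶠ n in atTop, y n = g := by
      have hn : ({s.ι g} : Set s.Z) ∈ 𝓝 σ := by
        rw [← hg]; exact (s.bdry.isol g).mem_nhds rfl
      filter_upwards [hσ hn] with n hn
      exact s.bdry.inj (Set.mem_singleton_iff.1 hn)
    obtain ⟨N, hN⟩ := eventually_atTop.1 hev
    have hfin := finPairs s hA hLF hO hc g
    have : Set.Infinite {q | q ∈ s.Pairs ∧ g ∈ Bal s.ν c q.2} := by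
      apply Set.infinite_of_injective_forall_mem (f := fun n => q0 (φ (N + n)))
      · intro a b h
        have := hφm.injective (hq0inj h)
        omega
      · intro n
        refine ⟨hq0P _, ?_⟩
        have := hy (N + n)
        rwa [hN (N + n) (by omega)] at this
    exact this hfin
  have hτT : τ ∈ T s.ι := hT (fun n => x0 (φ n)) τ (fun n => hx0 _) hτx
  have hτT' : τ' ∈ T s.ι := hT (fun n => x0' (φ n)) τ' (fun n => hx0' _) hτx'
  have hne : τ ≠ τ' := by
    intro h
    have h1 : Tendsto (fun n => dist (s.ι (x0 (φ n))) (s.ι (x0' (φ n)))) atTop (𝓝 (dist τ τ')) :=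
      hτx.dist hτx'
    have h2 : ε ≤ dist τ τ' := ge_of_tendsto' h1 fun n => hdist0 _
    rw [h, dist_self] at h2
    linarith
  -- recentre
  have hmeas : ∀ n, MeasurableSet (q0 n).2 := by
    intro n
    obtain ⟨⟨U, hU, -, -⟩, θ, h2, h3, h4⟩ := hq0P n
    rw [h4]
    exact meas_RO s (hO _ hU.mem θ h2 h3).ro
  have hfin1 := finPairs s hA hLF hO hc 1
  have hmem : ∀ (g : s.G) n, g ∈ Bal s.ν c (q0 n).2 →
      g⁻¹ • q0 n ∈ {q | q ∈ s.Pairs ∧ (1 : s.G) ∈ Bal s.ν c q.2} := by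
    intro g n hg
    refine ⟨pairs_smul s hA (hq0P n) g⁻¹, ?_⟩
    have := (bal_smul s g⁻¹ g c (hmeas n)).2 hg
    rw [inv_mul_cancel] at this
    exact this
  obtain ⟨q1, ψ1, hψ1, hq1⟩ := const_subseq hfin1 (fun n => (x0 (φ n))⁻¹ • q0 (φ n))
    (fun n => hmem _ _ (hx0 _))
  obtain ⟨q2, ψ2, hψ2, hq2⟩ := const_subseq hfin1
    (fun n => (x0' (φ (ψ1 n)))⁻¹ • q0 (φ (ψ1 n))) (fun n => hmem _ _ (hx0' _))
  -- final sequences
  set k : ℕ → ℕ := fun n => φ (ψ1 (ψ2 n)) with hk
  have hkm : StrictMono k := hφm.comp (hψ1.comp hψ2)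
  set x : ℕ → s.G := fun n => x0 (k n) with hx
  set x' : ℕ → s.G := fun n => x0' (k n) with hx'
  have e1 : ∀ n, (x n)⁻¹ • q0 (k n) = q1 := fun n => hq1 (ψ2 n)
  have e2 : ∀ n, (x' n)⁻¹ • q0 (k n) = q2 := fun n => hq2 n
  set y : ℕ → s.G := fun n => x' n * ((x' 0)⁻¹ * x 0) with hy
  have e3 : ∀ n, (y n)⁻¹ • q0 (k n) = q1 := by
    intro n
    simp only [hy, mul_inv_rev, inv_inv, mul_smul]
    rw [e2 n, ← e2 0, smul_inv_smul]
    exact e1 0
  have t1 : Tendsto (fun n => s.ι (x n)) atTop (𝓝 τ) :=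
    hτx.comp (hψ1.comp hψ2).tendsto_atTop
  have t2 : Tendsto (fun n => s.ι (x' n)) atTop (𝓝 τ') :=
    hτx'.comp (hψ1.comp hψ2).tendsto_atTop
  have t3 : Tendsto (fun n => s.ι (y n)) atTop (𝓝 τ') := tendsto_mul s hτT' t2 _
  have hq1P : q1 ∈ s.Pairs := by
    rw [← e1 0]; exact pairs_smul s hA (hq0P _) _
  have hηT : q1.1 ∈ T s.ι := by
    obtain ⟨⟨U, hU, -, -⟩, -⟩ := hq1P
    exact hU.mem
  have hrange := hD (MulAction.stabilizer s.G q1) q1.1 hηT
    (fun g hg => by
      have h : g • q1 = q1 := hg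
      exact congrArg Prod.fst h)
    x y (fun n => by
      show ((x n)⁻¹ * y n) • q1 = q1
      have h1 : y n • q1 = q0 (k n) := by rw [← e3 n, smul_inv_smul]
      rw [mul_smul, h1, e1 n])
    τ hτT τ' hτT' hne t1 t3
  -- q0 (k n) = x n • q1 depends only on the coset
  have hinf2 : (Set.range fun n => q0 (k n)).Infinite :=
    Set.infinite_range_of_injective (hq0inj.comp hkm.injective)
  apply hinf2
  let F : s.G ⧸ (MulAction.stabilizer s.G q1) → s.Z × Set s.Z :=
    fun a => Quotient.liftOn' a (fun g => g • q1) (by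
      intro g h hgh
      rw [QuotientGroup.leftRel_apply] at hgh
      have h3 : (g⁻¹ * h) • q1 = q1 := hgh
      show g • q1 = h • q1
      rw [mul_smul] at h3
      nth_rewrite 1 [← h3]
      rw [smul_inv_smul])
  have hsub : (Set.range fun n => q0 (k n)) ⊆
      F '' (Set.range fun n => ((x n : s.G) : s.G ⧸ MulAction.stabilizer s.G q1)) := by
    rintro _ ⟨n, rfl⟩
    refine ⟨_, ⟨n, rfl⟩, ?_⟩
    show x n • q1 = q0 (k n)
    rw [← e1 n, smul_inv_smul]
  exact (hrange.image F).subset hsub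

end NodeNull

theorem nNull (s : Sys) (hA : PAlg s) (hLF : NLF s) (hO : NOpen s) (hD : NNullDyn s) : NNull s :=
  NodeNull.nNull s hA hLF hO hD

end Crest.Agent.R224
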