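import Mathlib
import Crest.Agent.R224.Iface

-- ▼ part R224/PotDefs
section

/-!
# Row 224 (S0346): potential theory on a finitely generated group — definitions

`F` is a finite symmetric generating set; neighbours of `x` are `x * s`, `s ∈ F`; left translations
are automorphisms.
-/

set_option autoImplicit false

open Classical

noncomputable section

namespace Crest.Agent.R224.Pot

variable {G : Type*} [Group G]

/-- averaging operator (simple random walk) -/
def avg (F : Finset G) (f : G → ℝ) (x : G) : ℝ := (∑ s ∈ F, f (x * s)) / F.card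

/-- finite Dirichlet energy -/
def Dir (F : Finset G) (f : G → ℝ) : Prop :=
  Summable fun p : G × F => (f (p.1 * p.2) - f p.1) ^ 2

/-- Dirichlet energy -/
def En (F : Finset G) (f : G → ℝ) : ℝ := ∑' p : G × F, (f (p.1 * p.2) - f p.1) ^ 2

/-- square summable functions -/
def L2 (f : G → ℝ) : Prop := Summable fun x => f x ^ 2

/-- finite symmetric generating set -/
structure SymGen (F : Finset G) : Prop where
  ne : F.Nonempty
  symm : ∀ s ∈ F, s⁻¹ ∈ F
  gen : Subgroup.closure (F : Set G) = ⊤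

/-- isoperimetric inequality (nonamenability) with constant `κ > 0` -/
def NA (F : Finset G) (κ : ℝ) : Prop :=
  0 < κ ∧ ∀ A : Finset G, κ * A.card ≤ ((A ×ˢ F).filter fun p => p.1 * p.2 ∉ A).card


/-- `ℓ²(G)` -/
abbrev H2 (G : Type*) := lp (fun _ : G => ℝ) 2

end Crest.Agent.R224.Pot
end
end

-- ▼ part R224/Pot1
section

/-!
# Row 224: `ℓ²(G)`, translations, the averaging operator, Cheeger inequality
-/

set_option autoImplicit false
set_option linter.unusedSectionVars false

open Set Filter Topology MeasureTheory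
open scoped InnerProductSpace

noncomputable section

namespace Crest.Agent.R224.Pot

variable {G : Type*} [Group G]

open Classical

/-! ### `ℓ²` basics -/

lemma memlp_iff {f : G → ℝ} : Memℓp (E := fun _ : G => ℝ) f 2 ↔ L2 f := by
  rw [memℓp_gen_iff (by norm_num)]
  unfold L2
  have : (fun i => ‖f i‖ ^ (2 : ENNReal).toReal) = fun x => f x ^ 2 := by
    funext x
    rw [ENNReal.toReal_ofNat]
    have : ‖f x‖ ^ (2 : ℝ) = ‖f x‖ ^ (2 : ℕ) := by exact_mod_cast Real.rpow_natCast ‖f x‖ 2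
    rw [this, Real.norm_eq_abs, sq_abs]
  rw [this]

/-- element of `ℓ²` from a square summable function -/
def toH (f : G → ℝ) (h : L2 f) : H2 G := ⟨f, memlp_iff.2 h⟩

@[simp] lemma toH_apply (f : G → ℝ) (h : L2 f) (x : G) : toH f h x = f x := rfl

lemma H2.l2 (f : H2 G) : L2 (f : G → ℝ) := memlp_iff.1 f.2

lemma H2.ext' {f g : H2 G} (h : ∀ x, f x = g x) : f = g := lp.ext (funext h)

lemma H2.norm_sq (f : H2 G) : ‖f‖ ^ 2 = ∑' x, f x ^ 2 := by
  have h := lp.norm_rpow_eq_tsum (p := 2) (by norm_num) f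
  rw [ENNReal.toReal_ofNat] at h
  have h1 : ‖f‖ ^ (2 : ℝ) = ‖f‖ ^ (2 : ℕ) := by exact_mod_cast Real.rpow_natCast ‖f‖ 2
  rw [h1] at h
  rw [h]
  refine tsum_congr fun x => ?_
  have : ‖f x‖ ^ (2 : ℝ) = ‖f x‖ ^ (2 : ℕ) := by exact_mod_cast Real.rpow_natCast ‖f x‖ 2
  rw [this, Real.norm_eq_abs, sq_abs]

lemma H2.inner_eq (f g : H2 G) : ⟪f, g⟫_ℝ = ∑' x, f x * g x := by
  rw [lp.inner_eq_tsum]
  refine tsum_congr fun x => ?_
  simp [mul_comm]

lemma H2.summable_mul (f g : H2 G) : Summable fun x => f x * g x := by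
  have := (lp.hasSum_inner (𝕜 := ℝ) f g).summable
  refine this.congr fun x => ?_
  simp [mul_comm]

lemma L2.summable_mul {f g : G → ℝ} (hf : L2 f) (hg : L2 g) : Summable fun x => f x * g x :=
  H2.summable_mul (toH f hf) (toH g hg)

lemma L2.zero : L2 (fun _ : G => (0 : ℝ)) := by unfold L2; simpa using summable_zero

lemma L2.add {f g : G → ℝ} (hf : L2 f) (hg : L2 g) : L2 (fun x => f x + g x) :=
  H2.l2 (toH f hf + toH g hg)

lemma L2.sub {f g : G → ℝ} (hf : L2 f) (hg : L2 g) : L2 (fun x => f x - g x) :=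
  H2.l2 (toH f hf - toH g hg)

lemma L2.neg {f : G → ℝ} (hf : L2 f) : L2 (fun x => - f x) := H2.l2 (-toH f hf)

lemma L2.const_mul {f : G → ℝ} (c : ℝ) (hf : L2 f) : L2 (fun x => c * f x) :=
  H2.l2 (c • toH f hf)

/-- domination -/
lemma L2.of_le {f g : G → ℝ} (hg : L2 g) (h : ∀ x, |f x| ≤ |g x|) : L2 f := by
  refine Summable.of_nonneg_of_le (fun x => sq_nonneg _) (fun x => ?_) hg
  exact sq_le_sq.2 (h x)


lemma L2.translate_right {f : G → ℝ} (hf : L2 f) (s : G) : L2 (fun x => f (x * s)) :=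
  (Equiv.mulRight s).summable_iff.2 hf


lemma L2.tendsto {f : G → ℝ} (hf : L2 f) : Tendsto f cofinite (𝓝 0) := by
  have h := Summable.tendsto_cofinite_zero hf
  have h2 := h.sqrt
  simp only [Real.sqrt_sq_eq_abs, Real.sqrt_zero] at h2
  exact (tendsto_zero_iff_abs_tendsto_zero f).2 h2

lemma L2.finite {f : G → ℝ} (hf : L2 f) {ε : ℝ} (hε : 0 < ε) : {x | ε ≤ f x}.Finite := by
  have h := hf.tendsto
  have h1 : ∀ᶠ x in cofinite, f x < ε := h (gt_mem_nhds hε)
  have h2 : {x | ¬ (f x < ε)}.Finite := h1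
  refine h2.subset fun x hx => ?_
  simpa using hx


lemma L2.of_finite_support {f : G → ℝ} (hf : (Function.support f).Finite) : L2 f := by
  refine summable_of_finite_support (hf.subset fun x hx => ?_)
  simp only [Function.mem_support] at hx ⊢
  intro h; exact hx (by simp [h])

/-! ### right translation and averaging as operators -/

/-- right translation as a linear isometry -/
def Rt (s : G) : H2 G →ₗᵢ[ℝ] H2 G where
  toFun f := toH (fun x => f (x * s)) ((H2.l2 f).translate_right s)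
  map_add' f g := H2.ext' fun x => rfl
  map_smul' c f := H2.ext' fun x => rfl
  norm_map' f := by
    have h : ‖toH (fun x => f (x * s)) ((H2.l2 f).translate_right s)‖ ^ 2 = ‖f‖ ^ 2 := by
      rw [H2.norm_sq, H2.norm_sq]
      exact (Equiv.mulRight s).tsum_eq (fun x => f x ^ 2)
    exact (sq_eq_sq₀ (norm_nonneg _) (norm_nonneg _)).1 h

@[simp] lemma Rt_apply (s : G) (f : H2 G) (x : G) : Rt s f x = f (x * s) := rfl

lemma Rt_inner (s : G) (f g : H2 G) : ⟪Rt s f, g⟫_ℝ = ⟪f, Rt s⁻¹ g⟫_ℝ := by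
  rw [H2.inner_eq, H2.inner_eq, ← (Equiv.mulRight s).tsum_eq (fun x => f x * (Rt s⁻¹ g) x)]
  refine tsum_congr fun x => ?_
  simp [mul_assoc]

/-- the averaging operator on `ℓ²` -/
def avgOp (F : Finset G) : H2 G →L[ℝ] H2 G :=
  (F.card : ℝ)⁻¹ • ∑ s ∈ F, (Rt s).toContinuousLinearMap

lemma H2.sum_apply {ι : Type*} (t : Finset ι) (f : ι → H2 G) (x : G) :
    (∑ i ∈ t, f i) x = ∑ i ∈ t, f i x := by
  induction t using Finset.induction_on with
  | empty => simp
  | insert a s ha ih => rw [Finset.sum_insert ha, Finset.sum_insert ha, ← ih]; rfl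

@[simp] lemma avgOp_apply (F : Finset G) (f : H2 G) (x : G) : avgOp F f x = avg F f x := by
  unfold avgOp avg
  rw [ContinuousLinearMap.smul_apply, ContinuousLinearMap.sum_apply]
  change (F.card : ℝ)⁻¹ * (∑ s ∈ F, (Rt s).toContinuousLinearMap f : H2 G) x = _
  rw [H2.sum_apply, div_eq_inv_mul]
  rfl

lemma avg_L2 {F : Finset G} {f : G → ℝ} (hf : L2 f) : L2 (avg F f) := by
  have h := H2.l2 (avgOp F (toH f hf))
  have : ((avgOp F (toH f hf) : H2 G) : G → ℝ) = avg F f := by
    funext x; rw [avgOp_apply]; rfl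
  rwa [this] at h

lemma avgOp_symm {F : Finset G} (hF : SymGen F) (f g : H2 G) :
    ⟪avgOp F f, g⟫_ℝ = ⟪f, avgOp F g⟫_ℝ := by
  unfold avgOp
  simp only [ContinuousLinearMap.smul_apply, ContinuousLinearMap.sum_apply, inner_smul_left,
    inner_smul_right, sum_inner, inner_sum]
  congr 1
  refine Finset.sum_bij (fun s _ => s⁻¹) (fun s hs => hF.symm s hs)
    (fun a _ b _ h => inv_injective h) (fun b hb => ⟨b⁻¹, hF.symm b hb, inv_inv b⟩) ?_
  intro s _
  exact Rt_inner s f g

/-- `1 - P` as an operator -/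
def lap (F : Finset G) : H2 G →L[ℝ] H2 G := 1 - avgOp F

lemma lap_apply (F : Finset G) (f : H2 G) (x : G) : lap F f x = f x - avg F f x := by
  unfold lap
  change f x - (avgOp F f) x = _
  rw [avgOp_apply]

/-- Dirichlet form identity: `∑_s ‖f - R_s f‖² = 2|F| ⟪(1-P) f, f⟫` -/
lemma sum_norm_sub {F : Finset G} (hF : F.Nonempty) (f : H2 G) :
    ∑ s ∈ F, ‖f - Rt s f‖ ^ 2 = 2 * F.card * ⟪lap F f, f⟫_ℝ := by
  have hc : (F.card : ℝ) ≠ 0 := by exact_mod_cast hF.card_pos.ne'
  have h1 : ∀ s, ‖f - Rt s f‖ ^ 2 = 2 * ‖f‖ ^ 2 - 2 * ⟪Rt s f, f⟫_ℝ := by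
    intro s
    rw [@norm_sub_sq_real, (Rt s).norm_map, real_inner_comm]; ring
  simp_rw [h1]
  rw [Finset.sum_sub_distrib, Finset.sum_const, nsmul_eq_mul, ← Finset.mul_sum]
  unfold lap avgOp
  rw [ContinuousLinearMap.sub_apply, inner_sub_left, ContinuousLinearMap.one_apply,
    real_inner_self_eq_norm_sq, ContinuousLinearMap.smul_apply, ContinuousLinearMap.sum_apply,
    real_inner_smul_left, sum_inner]
  simp only [LinearIsometry.coe_toContinuousLinearMap]
  field_simp

/-! ### layer cake: the `ℓ¹` isoperimetric inequality -/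

/-- For `u ≥ 0` supported in the finite set `A`:
`κ ∑ u ≤ ∑_{x ∈ A, s} (u x - u (x s))⁺`. -/
lemma iso_l1 {F : Finset G} {κ : ℝ} (hN : NA F κ) {A : Finset G} {u : G → ℝ}
    (hu : ∀ x, 0 ≤ u x) (hA : ∀ x, x ∉ A → u x = 0) :
    κ * ∑ x ∈ A, u x ≤ ∑ x ∈ A, ∑ s ∈ F, max (u x - u (x * s)) 0 := by
  -- a bound for u on A
  obtain ⟨M, hM⟩ : ∃ M : ℝ, ∀ x ∈ A, u x ≤ M := ⟨∑ x ∈ A, u x, fun x hx =>
    Finset.single_le_sum (fun y _ => hu y) hx⟩
  set M' := max M 0 with hM'
  have hxM : ∀ x, u x ≤ M' := by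
    intro x
    by_cases hx : x ∈ A
    · exact (hM x hx).trans (le_max_left _ _)
    · rw [hA x hx]; exact le_max_right _ _
  -- layer functions
  have hlayer : ∀ a b : ℝ, 0 ≤ b → b ≤ a → a ≤ M' →
      ∫ t in Ioc (0 : ℝ) M', (if b ≤ t ∧ t < a then (1 : ℝ) else 0) = a - b := by
    intro a b hb hab haM
    have h1 : (fun t : ℝ => (if b ≤ t ∧ t < a then (1 : ℝ) else 0)) =
        (Ico b a).indicator (fun _ => (1 : ℝ)) := by
      funext t; simp only [indicator, mem_Ico]
    rw [h1, setIntegral_indicator measurableSet_Ico]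
    rw [setIntegral_const, smul_eq_mul, mul_one]
    have h2 : (volume (Ioc (0 : ℝ) M' ∩ Ico b a)) = volume (Ico b a) := by
      refine le_antisymm (measure_mono inter_subset_right) ?_
      have hsub : Ioo b a ⊆ Ioc (0 : ℝ) M' ∩ Ico b a := fun t ht =>
        ⟨⟨lt_of_le_of_lt hb ht.1, (ht.2.le).trans haM⟩, ⟨ht.1.le, ht.2⟩⟩
      calc volume (Ico b a) = volume (Ioo b a) := by rw [Real.volume_Ico, Real.volume_Ioo]
        _ ≤ _ := measure_mono hsub
    rw [measureReal_def, h2, Real.volume_Ico, ENNReal.toReal_ofReal (by linarith)]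
  have hlayer' : ∀ a b : ℝ, 0 ≤ a → 0 ≤ b → a ≤ M' →
      ∫ t in Ioc (0 : ℝ) M', (if b ≤ t ∧ t < a then (1 : ℝ) else 0) = max (a - b) 0 := by
    intro a b ha hb haM
    rcases le_total b a with h | h
    · rw [hlayer a b hb h haM, max_eq_left (by linarith)]
    · rw [max_eq_right (by linarith)]
      have : (fun t : ℝ => (if b ≤ t ∧ t < a then (1 : ℝ) else 0)) = fun _ => 0 := by
        funext t
        rw [if_neg]; rintro ⟨h1, h2⟩; linarith
      rw [this]; simp
  have hint : ∀ a b : ℝ, IntegrableOn (fun t : ℝ => (if b ≤ t ∧ t < a then (1 : ℝ) else 0))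
      (Ioc (0 : ℝ) M') := by
    intro a b
    have h1 : (fun t : ℝ => (if b ≤ t ∧ t < a then (1 : ℝ) else 0)) =
        (Ico b a).indicator (fun _ => (1 : ℝ)) := by
      funext t; simp only [indicator, mem_Ico]
    rw [h1]
    exact (integrableOn_const (by simp)).indicator measurableSet_Ico
  -- write both sides as integrals
  have hL : κ * ∑ x ∈ A, u x = ∫ t in Ioc (0 : ℝ) M',
      κ * ∑ x ∈ A, (if (0 : ℝ) ≤ t ∧ t < u x then (1 : ℝ) else 0) := by
    rw [integral_const_mul, integral_finsetSum _ (fun x _ => hint _ _)]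
    congr 1
    refine Finset.sum_congr rfl fun x _ => ?_
    rw [hlayer' (u x) 0 (hu x) le_rfl (hxM x), sub_zero, max_eq_left (hu x)]
  have hR : ∑ x ∈ A, ∑ s ∈ F, max (u x - u (x * s)) 0 = ∫ t in Ioc (0 : ℝ) M',
      ∑ x ∈ A, ∑ s ∈ F, (if u (x * s) ≤ t ∧ t < u x then (1 : ℝ) else 0) := by
    rw [integral_finsetSum _ (fun x _ => integrable_finsetSum _ (fun s _ => hint _ _))]
    refine Finset.sum_congr rfl fun x _ => ?_
    rw [integral_finsetSum _ (fun s _ => hint _ _)]
    refine Finset.sum_congr rfl fun s _ => ?_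
    rw [hlayer' (u x) (u (x * s)) (hu x) (hu _) (hxM x)]
  rw [hL, hR]
  refine setIntegral_mono_on ?_ ?_ measurableSet_Ioc ?_
  · exact (integrable_finsetSum _ (fun x _ => hint _ _)).const_mul κ
  · exact integrable_finsetSum _ (fun x _ => integrable_finsetSum _ (fun s _ => hint _ _))
  · intro t ht
    -- level set
    set At := A.filter (fun x => t < u x) with hAt
    have h1 : ∑ x ∈ A, (if (0 : ℝ) ≤ t ∧ t < u x then (1 : ℝ) else 0) = At.card := by
      rw [Finset.sum_ite, Finset.sum_const_zero, add_zero, Finset.sum_const, nsmul_eq_mul, mul_one]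
      congr 2
      ext x; simp [hAt, ht.1.le]
    rw [h1]
    refine (hN.2 At).trans ?_
    have h2 : ((At ×ˢ F).filter fun p => p.1 * p.2 ∉ At) ⊆
        (A ×ˢ F).filter (fun p => u (p.1 * p.2) ≤ t ∧ t < u p.1) := by
      intro p hp
      simp only [Finset.mem_filter, Finset.mem_product, hAt] at hp ⊢
      refine ⟨⟨hp.1.1.1, hp.1.2⟩, ?_, hp.1.1.2⟩
      by_contra hlt
      push Not at hlt
      by_cases hmem : p.1 * p.2 ∈ A
      · exact hp.2 ⟨hmem, hlt⟩
      · rw [hA _ hmem] at hlt; linarith [ht.1]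
    have h3 : ∑ x ∈ A, ∑ s ∈ F, (if u (x * s) ≤ t ∧ t < u x then (1 : ℝ) else 0) =
        ((A ×ˢ F).filter (fun p => u (p.1 * p.2) ≤ t ∧ t < u p.1)).card := by
      rw [← Finset.sum_product', Finset.card_filter]
      push_cast
      rfl
    rw [h3]
    exact_mod_cast Finset.card_le_card h2

/-- Cheeger inequality for finitely supported `ℓ²` functions -/
lemma cheeger_fin {F : Finset G} (hF : SymGen F) {κ : ℝ} (hN : NA F κ) (g : H2 G) {A : Finset G}
    (hA : ∀ x, x ∉ A → g x = 0) :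
    κ ^ 2 / (8 * (F.card : ℝ) ^ 2) * ‖g‖ ^ 2 ≤ ⟪lap F g, g⟫_ℝ := by
  have hκ := hN.1
  have hc : (0 : ℝ) < F.card := by exact_mod_cast hF.ne.card_pos
  have h0 := iso_l1 hN (A := A) (u := fun x => g x ^ 2) (fun x => sq_nonneg _)
    (fun x hx => by simp [hA x hx])
  have hnorm : ‖g‖ ^ 2 = ∑ x ∈ A, g x ^ 2 := by
    rw [H2.norm_sq]
    exact tsum_eq_sum (fun x hx => by simp [hA x hx])
  -- the two sums
  have hS1 : ∑ x ∈ A, ∑ s ∈ F, (g x - g (x * s)) ^ 2 ≤ 2 * F.card * ⟪lap F g, g⟫_ℝ := by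
    rw [← sum_norm_sub hF.ne, Finset.sum_comm]
    refine Finset.sum_le_sum fun s _ => ?_
    rw [H2.norm_sq]
    exact Summable.sum_le_tsum A (fun x _ => sq_nonneg _) (H2.l2 (g - Rt s g))
  have hS2 : ∑ x ∈ A, ∑ s ∈ F, (g x + g (x * s)) ^ 2 ≤ 4 * F.card * ‖g‖ ^ 2 := by
    rw [Finset.sum_comm]
    have : ∀ s ∈ F, ∑ x ∈ A, (g x + g (x * s)) ^ 2 ≤ 4 * ‖g‖ ^ 2 := by
      intro s _
      have h1 : ∑ x ∈ A, (g x + g (x * s)) ^ 2 ≤ ‖g + Rt s g‖ ^ 2 := by
        rw [H2.norm_sq]
        exact Summable.sum_le_tsum A (fun x _ => sq_nonneg _) (H2.l2 (g + Rt s g))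
      have h2 : ‖g + Rt s g‖ ≤ 2 * ‖g‖ := by
        refine (norm_add_le _ _).trans ?_
        rw [(Rt s).norm_map]; linarith
      have h3 : ‖g + Rt s g‖ ^ 2 ≤ (2 * ‖g‖) ^ 2 := pow_le_pow_left₀ (norm_nonneg _) h2 2
      nlinarith
    calc ∑ s ∈ F, ∑ x ∈ A, (g x + g (x * s)) ^ 2 ≤ ∑ s ∈ F, 4 * ‖g‖ ^ 2 := Finset.sum_le_sum this
      _ = _ := by rw [Finset.sum_const, nsmul_eq_mul]; ring
  -- termwise bound
  have hterm : ∀ x ∈ A, ∀ s ∈ F, max (g x ^ 2 - g (x * s) ^ 2) 0 ≤
      (2 * F.card / κ) * (g x - g (x * s)) ^ 2 + (κ / (8 * F.card)) * (g x + g (x * s)) ^ 2 := by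
    intro x _ s _
    refine max_le ?_ (by positivity)
    have h1 : 0 ≤ (2 * F.card / κ) * ((g x - g (x * s)) - κ / (4 * F.card) * (g x + g (x * s))) ^ 2 := by
      positivity
    have h2 : (2 * F.card / κ) * ((g x - g (x * s)) - κ / (4 * F.card) * (g x + g (x * s))) ^ 2 =
        (2 * F.card / κ) * (g x - g (x * s)) ^ 2 + (κ / (8 * F.card)) * (g x + g (x * s)) ^ 2 -
          (g x ^ 2 - g (x * s) ^ 2) := by
      field_simp; ring
    linarith
  have hsum : ∑ x ∈ A, ∑ s ∈ F, max (g x ^ 2 - g (x * s) ^ 2) 0 ≤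
      (2 * F.card / κ) * (2 * F.card * ⟪lap F g, g⟫_ℝ) + (κ / (8 * F.card)) * (4 * F.card * ‖g‖ ^ 2) := by
    calc ∑ x ∈ A, ∑ s ∈ F, max (g x ^ 2 - g (x * s) ^ 2) 0
        ≤ ∑ x ∈ A, ∑ s ∈ F, ((2 * F.card / κ) * (g x - g (x * s)) ^ 2 +
            (κ / (8 * F.card)) * (g x + g (x * s)) ^ 2) :=
          Finset.sum_le_sum fun x hx => Finset.sum_le_sum fun s hs => hterm x hx s hs
      _ = (2 * F.card / κ) * (∑ x ∈ A, ∑ s ∈ F, (g x - g (x * s)) ^ 2) +
            (κ / (8 * F.card)) * (∑ x ∈ A, ∑ s ∈ F, (g x + g (x * s)) ^ 2) := by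
          simp_rw [Finset.sum_add_distrib, Finset.mul_sum]
      _ ≤ _ := by gcongr
  have h1 : κ * ‖g‖ ^ 2 ≤ (2 * F.card / κ) * (2 * F.card * ⟪lap F g, g⟫_ℝ) +
      (κ / (8 * F.card)) * (4 * F.card * ‖g‖ ^ 2) := by
    rw [hnorm] at *
    exact h0.trans hsum
  have h2 : (κ / (8 * F.card)) * (4 * F.card * ‖g‖ ^ 2) = κ / 2 * ‖g‖ ^ 2 := by
    field_simp; ring
  rw [h2] at h1
  have h3 : κ / 2 * ‖g‖ ^ 2 ≤ (4 * (F.card : ℝ) ^ 2 / κ) * ⟪lap F g, g⟫_ℝ := by
    have : (2 * F.card / κ) * (2 * F.card * ⟪lap F g, g⟫_ℝ) = (4 * (F.card : ℝ) ^ 2 / κ) * ⟪lap F g, g⟫_ℝ := by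
      ring
    linarith
  have h4 : κ ^ 2 / (8 * (F.card : ℝ) ^ 2) * ‖g‖ ^ 2 =
      (κ / (4 * (F.card : ℝ) ^ 2)) * (κ / 2 * ‖g‖ ^ 2) := by field_simp; ring
  rw [h4]
  calc (κ / (4 * (F.card : ℝ) ^ 2)) * (κ / 2 * ‖g‖ ^ 2)
      ≤ (κ / (4 * (F.card : ℝ) ^ 2)) * ((4 * (F.card : ℝ) ^ 2 / κ) * ⟪lap F g, g⟫_ℝ) := by gcongr
    _ = _ := by field_simp

/-- Cheeger inequality -/
theorem cheeger {F : Finset G} (hF : SymGen F) {κ : ℝ} (hN : NA F κ) (g : H2 G) :
    κ ^ 2 / (8 * (F.card : ℝ) ^ 2) * ‖g‖ ^ 2 ≤ ⟪lap F g, g⟫_ℝ := by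
  have hcl : IsClosed {g : H2 G | κ ^ 2 / (8 * (F.card : ℝ) ^ 2) * ‖g‖ ^ 2 ≤ ⟪lap F g, g⟫_ℝ} := by
    refine isClosed_le ?_ ?_
    · exact (continuous_norm.pow 2).const_mul _
    · exact (lap F).continuous.inner continuous_id
  have hsum := lp.hasSum_single (p := 2) (by norm_num) g
  refine hcl.mem_of_tendsto hsum (Eventually.of_forall fun A => ?_)
  refine cheeger_fin hF hN _ (A := A) fun x hx => ?_
  rw [H2.sum_apply]
  refine Finset.sum_eq_zero fun y hy => ?_
  have hne : x ≠ y := fun h => hx (h ▸ hy)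
  simp [lp.single_apply, hne, hne.symm]

end Crest.Agent.R224.Pot
end
end

-- ▼ part R224/Pot2
section

/-!
# Row 224: Harnack inequality, maximum principle, Dirichlet functions
-/

set_option autoImplicit false
set_option linter.unusedSectionVars false

open Set Filter Topology

noncomputable section

namespace Crest.Agent.R224.Pot

variable {G : Type*} [Group G] {F : Finset G}

open Classical

/-- connectivity of the Cayley graph -/
theorem SymGen.conn (hF : SymGen F) {p : G → Prop} (h : ∀ x, p x → ∀ s ∈ F, p (x * s)) {x0 : G}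
    (h0 : p x0) (x : G) : p x := by
  have key : ∀ g ∈ Subgroup.closure (F : Set G), ∀ y, p y → p (y * g) ∧ p (y * g⁻¹) := by
    intro g hg
    induction hg using Subgroup.closure_induction with
    | mem s hs => exact fun y hy => ⟨h y hy s hs, h y hy _ (hF.symm s hs)⟩
    | one => intro y hy; simpa using hy
    | mul a b _ _ iha ihb =>
      intro y hy
      refine ⟨?_, ?_⟩
      · rw [← mul_assoc]; exact (ihb _ (iha y hy).1).1
      · rw [mul_inv_rev, ← mul_assoc]; exact (iha _ (ihb y hy).2).2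
    | inv a _ iha => intro y hy; rw [inv_inv]; exact ⟨(iha y hy).2, (iha y hy).1⟩
  have := (key (x0⁻¹ * x) (by rw [hF.gen]; trivial) x0 h0).1
  simpa using this

lemma SymGen.card_pos (hF : SymGen F) : (0 : ℝ) < F.card := by exact_mod_cast hF.ne.card_pos

lemma card_mul_avg (hF : SymGen F) (u : G → ℝ) (x : G) :
    F.card * avg F u x = ∑ s ∈ F, u (x * s) := by
  unfold avg
  have := hF.card_pos
  field_simp

/-- Harnack inequality for nonnegative superharmonic functions -/
theorem harnack (hF : SymGen F) {u : G → ℝ} (hu : ∀ x, 0 ≤ u x) (hs : ∀ x, avg F u x ≤ u x)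
    {s : G} (hsF : s ∈ F) (x : G) : u (x * s) ≤ F.card * u x := by
  calc u (x * s) ≤ ∑ t ∈ F, u (x * t) :=
        Finset.single_le_sum (f := fun t => u (x * t)) (fun t _ => hu _) hsF
    _ = F.card * avg F u x := (card_mul_avg hF u x).symm
    _ ≤ F.card * u x := mul_le_mul_of_nonneg_left (hs x) hF.card_pos.le

theorem harnack_word (hF : SymGen F) (g : G) : ∃ C : ℝ, 0 < C ∧ ∀ u : G → ℝ, (∀ x, 0 ≤ u x) →
    (∀ x, avg F u x ≤ u x) → ∀ x, u (x * g) ≤ C * u x := by
  refine SymGen.conn hF (p := fun g => ∃ C : ℝ, 0 < C ∧ ∀ u : G → ℝ, (∀ x, 0 ≤ u x) →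
    (∀ x, avg F u x ≤ u x) → ∀ x, u (x * g) ≤ C * u x) ?_ (x0 := 1) ?_ g
  · rintro g ⟨C, hC, h⟩ s hs
    refine ⟨F.card * C, mul_pos hF.card_pos hC, fun u hu hsup x => ?_⟩
    rw [← mul_assoc]
    calc u (x * g * s) ≤ F.card * u (x * g) := harnack hF hu hsup hs _
      _ ≤ F.card * (C * u x) := mul_le_mul_of_nonneg_left (h u hu hsup x) hF.card_pos.le
      _ = _ := by ring
  · exact ⟨1, one_pos, fun u _ _ x => by simp⟩




/-- if the average reaches the upper bound then all neighbours do -/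
lemma eq_of_avg_ge (hF : SymGen F) {u : G → ℝ} {x : G} {M : ℝ} (h : ∀ y, u y ≤ M)
    (hx : M ≤ avg F u x) {s : G} (hs : s ∈ F) : u (x * s) = M := by
  by_contra hne
  have hlt : u (x * s) < M := lt_of_le_of_ne (h _) hne
  have h1 : ∑ t ∈ F, u (x * t) < ∑ t ∈ F, M :=
    Finset.sum_lt_sum (fun t _ => h _) ⟨s, hs, hlt⟩
  rw [← card_mul_avg hF, Finset.sum_const, nsmul_eq_mul] at h1
  have := lt_of_mul_lt_mul_left h1 hF.card_pos.le
  linarith

/-- maximum principle, relative to a set -/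
theorem max_principle (hF : SymGen F) [Infinite G] {w : G → ℝ} {A : Set G}
    (hA : ∀ x ∈ A, w x ≤ avg F w x) (hAc : ∀ x, x ∉ A → w x ≤ 0)
    (hfin : ∀ ε > 0, {x | ε ≤ w x}.Finite) (x : G) : w x ≤ 0 := by
  by_contra hx
  push Not at hx
  have hS := hfin (w x) hx
  obtain ⟨x1, hx1, hmax⟩ := hS.exists_maximalFor w _ ⟨x, le_refl (w x)⟩
  have hx1' : w x ≤ w x1 := hx1
  have hle : ∀ y, w y ≤ w x1 := by
    intro y
    by_contra hy
    push Not at hy
    have hyS : y ∈ {y | w x ≤ w y} := (hx1'.trans hy.le : w x ≤ w y)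
    exact absurd (hmax hyS hy.le) (not_le.2 hy)
  have hpos : 0 < w x1 := hx.trans_le hx1'
  have hstep : ∀ y, w y = w x1 → ∀ s ∈ F, w (y * s) = w x1 := by
    intro y hy s hs
    have hyA : y ∈ A := by
      by_contra h
      have := hAc y h
      linarith
    exact eq_of_avg_ge hF hle (by rw [← hy]; exact hA y hyA) hs
  have hall := SymGen.conn hF hstep (x0 := x1) rfl
  have : (univ : Set G).Finite := hS.subset fun y _ => by
    change w x ≤ w y
    rw [hall y]; exact hx1'
  exact infinite_univ this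

/-- maximum principle for globally subharmonic functions -/
theorem max_principle' (hF : SymGen F) [Infinite G] {w : G → ℝ}
    (hA : ∀ x, w x ≤ avg F w x) (hfin : ∀ ε > 0, {x | ε ≤ w x}.Finite) (x : G) : w x ≤ 0 :=
  max_principle hF (A := univ) (fun x _ => hA x) (fun x h => absurd (mem_univ x) h) hfin x

/-! ### algebra of `avg` -/

lemma avg_add (f g : G → ℝ) (x : G) : avg F (fun y => f y + g y) x = avg F f x + avg F g x := by
  simp only [avg, Finset.sum_add_distrib, add_div]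

lemma avg_sub (f g : G → ℝ) (x : G) : avg F (fun y => f y - g y) x = avg F f x - avg F g x := by
  simp only [avg, Finset.sum_sub_distrib, sub_div]

lemma avg_neg (f : G → ℝ) (x : G) : avg F (fun y => - f y) x = - avg F f x := by
  simp only [avg, Finset.sum_neg_distrib, neg_div]


lemma avg_const (hF : SymGen F) (c : ℝ) (x : G) : avg F (fun _ : G => c) x = c := by
  have := hF.card_pos
  simp only [avg, Finset.sum_const, nsmul_eq_mul]
  field_simp




/-! ### Dirichlet functions -/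

lemma sq_add_le (a b : ℝ) : (a + b) ^ 2 ≤ 2 * a ^ 2 + 2 * b ^ 2 := by nlinarith [sq_nonneg (a - b)]

/-- comparison criterion with two Dirichlet functions -/
lemma Dir.of_sq_le {f g h : G → ℝ} {A B : ℝ} (hg : Dir F g) (hh : Dir F h)
    (hle : ∀ x, ∀ s ∈ F, (f (x * s) - f x) ^ 2 ≤ A * (g (x * s) - g x) ^ 2 + B * (h (x * s) - h x) ^ 2) :
    Dir F f :=
  Summable.of_nonneg_of_le (fun _ => sq_nonneg _) (fun p => hle p.1 p.2 p.2.2)
    ((hg.mul_left A).add (hh.mul_left B))

lemma Dir.of_abs_le {f g : G → ℝ} (hg : Dir F g)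
    (hle : ∀ x, ∀ s ∈ F, |f (x * s) - f x| ≤ |g (x * s) - g x|) : Dir F f :=
  Summable.of_nonneg_of_le (fun _ => sq_nonneg _) (fun p => sq_le_sq.2 (hle p.1 p.2 p.2.2)) hg

lemma Dir.add {f g : G → ℝ} (hf : Dir F f) (hg : Dir F g) : Dir F (fun x => f x + g x) :=
  Dir.of_sq_le hf hg (A := 2) (B := 2) fun x s _ => by
    have := sq_add_le (f (x * s) - f x) (g (x * s) - g x)
    calc _ = ((f (x * s) - f x) + (g (x * s) - g x)) ^ 2 := by ring
      _ ≤ _ := this

lemma Dir.const_mul {f : G → ℝ} (c : ℝ) (hf : Dir F f) : Dir F (fun x => c * f x) := by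
  unfold Dir
  refine (hf.mul_left (c ^ 2)).congr fun p => ?_
  ring

lemma Dir.neg {f : G → ℝ} (hf : Dir F f) : Dir F (fun x => - f x) := by
  unfold Dir
  refine Summable.congr hf fun p => ?_
  ring

lemma Dir.sub {f g : G → ℝ} (hf : Dir F f) (hg : Dir F g) : Dir F (fun x => f x - g x) := by
  simpa [sub_eq_add_neg] using hf.add hg.neg

lemma Dir.const (c : ℝ) : Dir F (fun _ : G => c) := by
  unfold Dir
  simpa using summable_zero






lemma Dir.abs {f : G → ℝ} (hf : Dir F f) : Dir F (fun x => |f x|) :=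
  hf.of_abs_le fun _ _ _ => abs_abs_sub_abs_le_abs_sub _ _

lemma Dir.max {f g : G → ℝ} (hf : Dir F f) (hg : Dir F g) : Dir F (fun x => max (f x) (g x)) :=
  Dir.of_sq_le hf hg (A := 1) (B := 1) fun x s _ => by
    have h := abs_max_sub_max_le_max (f (x * s)) (g (x * s)) (f x) (g x)
    rcases le_max_iff.1 h with h | h
    · nlinarith [sq_le_sq.2 h, sq_nonneg (g (x * s) - g x)]
    · nlinarith [sq_le_sq.2 h, sq_nonneg (f (x * s) - f x)]

lemma Dir.min {f g : G → ℝ} (hf : Dir F f) (hg : Dir F g) : Dir F (fun x => min (f x) (g x)) :=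
  Dir.of_sq_le hf hg (A := 1) (B := 1) fun x s _ => by
    have h := abs_min_sub_min_le_max (f (x * s)) (g (x * s)) (f x) (g x)
    rcases le_max_iff.1 h with h | h
    · nlinarith [sq_le_sq.2 h, sq_nonneg (g (x * s) - g x)]
    · nlinarith [sq_le_sq.2 h, sq_nonneg (f (x * s) - f x)]

lemma Dir.mul {f g : G → ℝ} (hf : Dir F f) (hg : Dir F g) {C D : ℝ} (hC : ∀ x, |f x| ≤ C)
    (hD : ∀ x, |g x| ≤ D) : Dir F (fun x => f x * g x) :=
  Dir.of_sq_le hf hg (A := 2 * D ^ 2) (B := 2 * C ^ 2) fun x s _ => by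
    have h := sq_add_le ((f (x * s) - f x) * g (x * s)) (f x * (g (x * s) - g x))
    have h1 : g (x * s) ^ 2 ≤ D ^ 2 := sq_le_sq.2 ((hD _).trans (le_abs_self D))
    have h2 : f x ^ 2 ≤ C ^ 2 := sq_le_sq.2 ((hC _).trans (le_abs_self C))
    calc (f (x * s) * g (x * s) - f x * g x) ^ 2
        = ((f (x * s) - f x) * g (x * s) + f x * (g (x * s) - g x)) ^ 2 := by ring
      _ ≤ 2 * ((f (x * s) - f x) * g (x * s)) ^ 2 + 2 * (f x * (g (x * s) - g x)) ^ 2 := h
      _ = 2 * ((f (x * s) - f x) ^ 2 * g (x * s) ^ 2) +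
          2 * (f x ^ 2 * (g (x * s) - g x) ^ 2) := by ring
      _ ≤ 2 * ((f (x * s) - f x) ^ 2 * D ^ 2) + 2 * (C ^ 2 * (g (x * s) - g x) ^ 2) := by gcongr
      _ = _ := by ring

lemma Dir.sq {f : G → ℝ} (hf : Dir F f) {C : ℝ} (hC : ∀ x, |f x| ≤ C) :
    Dir F (fun x => f x ^ 2) := by
  have := hf.mul hf hC hC
  simpa [_root_.sq] using this

/-- the Dirichlet condition, generator by generator -/
lemma Dir_iff {f : G → ℝ} : Dir F f ↔ ∀ s ∈ F, L2 (fun x => f (x * s) - f x) := by
  unfold Dir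
  rw [← (Equiv.prodComm F G).summable_iff]
  change Summable (fun p : F × G => (f (p.2 * p.1) - f p.2) ^ 2) ↔ _
  rw [summable_prod_of_nonneg (fun p => sq_nonneg _)]
  constructor
  · rintro ⟨h, _⟩ s hs
    exact h ⟨s, hs⟩
  · intro h
    exact ⟨fun s => h s.1 s.2, Summable.of_finite⟩

lemma L2.finset_sum {ι : Type*} (t : Finset ι) {f : ι → G → ℝ} (h : ∀ i ∈ t, L2 (f i)) :
    L2 (fun x => ∑ i ∈ t, f i x) := by
  induction t using Finset.induction_on with
  | empty => simpa using L2.zero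
  | insert a s ha ih =>
    have h1 := (h a (Finset.mem_insert_self a s)).add
      (ih fun i hi => h i (Finset.mem_insert_of_mem hi))
    simpa [Finset.sum_insert ha] using h1

lemma L2.dir {f : G → ℝ} (hf : L2 f) : Dir F f :=
  Dir_iff.2 fun s _ => (hf.translate_right s).sub hf

lemma Dir.L2_sub_avg (hF : SymGen F) {f : G → ℝ} (hf : Dir F f) :
    L2 (fun x => f x - avg F f x) := by
  have h := (L2.finset_sum F fun s hs => Dir_iff.1 hf s hs).const_mul (-(F.card : ℝ)⁻¹)
  have h2 : (fun x => -(F.card : ℝ)⁻¹ * ∑ s ∈ F, (f (x * s) - f x)) =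
      fun x => f x - avg F f x := by
    funext x
    have := hF.card_pos
    unfold avg
    rw [Finset.sum_sub_distrib, Finset.sum_const, nsmul_eq_mul]
    field_simp
    ring
  rwa [h2] at h








end Crest.Agent.R224.Pot
end
end

-- ▼ part R224/Pot3
section

/-!
# Row 224: the Green operator
-/

set_option autoImplicit false
set_option linter.unusedSectionVars false

open Set Filter Topology
open scoped InnerProductSpace

noncomputable section

namespace Crest.Agent.R224.Pot

variable {G : Type*} [Group G] {F : Finset G} {κ : ℝ}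

open Classical

theorem NA.infinite (hN : NA F κ) : Infinite G := by
  by_contra h
  rw [not_infinite_iff_finite] at h
  have := Fintype.ofFinite G
  have h1 := hN.2 Finset.univ
  simp only [Finset.mem_univ, not_true_eq_false, Finset.filter_false, Finset.card_empty,
    Nat.cast_zero] at h1
  have h2 : (0 : ℝ) < (Finset.univ : Finset G).card := by
    exact_mod_cast Finset.card_pos.2 ⟨1, Finset.mem_univ 1⟩
  have := mul_pos hN.1 h2
  linarith

lemma lap_isUnit (hF : SymGen F) (hN : NA F κ) : IsUnit (lap F) := by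
  have hκ := hN.1
  have hc := hF.card_pos
  have hpos : 0 < κ ^ 2 / (8 * (F.card : ℝ) ^ 2) := by positivity
  refine ContinuousLinearMap.isUnit_of_forall_le_norm_inner_map (lap F)
    (c := ⟨κ ^ 2 / (8 * (F.card : ℝ) ^ 2), hpos.le⟩) hpos fun g => ?_
  have h := cheeger hF hN g
  change ‖g‖ ^ 2 * (κ ^ 2 / (8 * (F.card : ℝ) ^ 2)) ≤ _
  rw [mul_comm]
  exact h.trans (le_abs_self _)

/-- the Green operator on functions: the `ℓ²` solution `u` of `u - avg u = q`
(`0` if `q` is not in `ℓ²`) -/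
def green (F : Finset G) (q : G → ℝ) : G → ℝ :=
  if h : L2 q then ((Ring.inverse (lap F) (toH q h) : H2 G) : G → ℝ) else fun _ => 0

theorem green_L2 (q : G → ℝ) : L2 (green F q) := by
  unfold green
  split_ifs with h
  · exact H2.l2 _
  · exact L2.zero

theorem green_eq (hF : SymGen F) (hN : NA F κ) {q : G → ℝ} (hq : L2 q) (x : G) :
    green F q x - avg F (green F q) x = q x := by
  unfold green
  rw [dif_pos hq]
  rw [← lap_apply]
  have h : lap F * Ring.inverse (lap F) = 1 := Ring.mul_inverse_cancel _ (lap_isUnit hF hN)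
  have h2 : lap F (Ring.inverse (lap F) (toH q hq)) = toH q hq := by
    change (lap F * Ring.inverse (lap F)) (toH q hq) = _
    rw [h]; rfl
  rw [h2]; rfl

theorem le_green (hF : SymGen F) (hN : NA F κ) {w q : G → ℝ} (hw : L2 w) (hq : L2 q)
    (h : ∀ x, w x - avg F w x ≤ q x) (x : G) : w x ≤ green F q x := by
  have := hN.infinite
  have h1 := max_principle' hF (w := fun y => w y - green F q y) (fun y => ?_)
    (fun ε hε => (hw.sub (green_L2 q)).finite hε) x
  · linarith
  · rw [avg_sub]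
    have := h y
    have := green_eq hF hN hq y
    linarith

theorem green_le (hF : SymGen F) (hN : NA F κ) {w q : G → ℝ} (hw : L2 w) (hq : L2 q)
    (h : ∀ x, q x ≤ w x - avg F w x) (x : G) : green F q x ≤ w x := by
  have := hN.infinite
  have h1 := max_principle' hF (w := fun y => green F q y - w y) (fun y => ?_)
    (fun ε hε => ((green_L2 q).sub hw).finite hε) x
  · linarith
  · rw [avg_sub]
    have := h y
    have := green_eq hF hN hq y
    linarith

theorem green_unique (hF : SymGen F) (hN : NA F κ) {u q : G → ℝ} (hu : L2 u)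
    (h : ∀ x, u x - avg F u x = q x) : green F q = u := by
  have hq : L2 q := by
    have h1 := hu.sub (avg_L2 (F := F) hu)
    have h2 : (fun x => u x - avg F u x) = q := funext h
    rwa [h2] at h1
  funext x
  exact le_antisymm (green_le hF hN hu hq (fun y => (h y).ge) x)
    (le_green hF hN hu hq (fun y => (h y).le) x)






theorem green_nonneg (hF : SymGen F) (hN : NA F κ) {q : G → ℝ} (hq : L2 q) (h : ∀ x, 0 ≤ q x)
    (x : G) : 0 ≤ green F q x :=
  le_green hF hN L2.zero hq (fun y => by simpa [avg] using h y) x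



/-! ### the Green kernel -/

/-- the unit mass at `y` -/
def dl (y : G) : G → ℝ := fun x => if x = y then 1 else 0

lemma dl_L2 (y : G) : L2 (dl y) :=
  L2.of_finite_support ((finite_singleton y).subset fun x hx => by
    by_contra h
    exact hx (if_neg h))

lemma dl_nonneg (y x : G) : 0 ≤ dl y x := by unfold dl; split_ifs <;> norm_num

/-- the Green kernel -/
def gk (F : Finset G) (x y : G) : ℝ := green F (dl y) x

theorem gk_nonneg (hF : SymGen F) (hN : NA F κ) (x y : G) : 0 ≤ gk F x y :=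
  green_nonneg hF hN (dl_L2 y) (dl_nonneg y) x

theorem gk_eq (hF : SymGen F) (hN : NA F κ) (x y : G) :
    gk F x y - avg F (fun z => gk F z y) x = dl y x :=
  green_eq hF hN (dl_L2 y) x

lemma lap_symm (hF : SymGen F) (f g : H2 G) : ⟪lap F f, g⟫_ℝ = ⟪f, lap F g⟫_ℝ := by
  unfold lap
  simp only [ContinuousLinearMap.sub_apply, ContinuousLinearMap.one_apply, inner_sub_left,
    inner_sub_right]
  rw [avgOp_symm hF]

/-- symmetry of `1 - P` on functions -/
lemma lap_symm' (hF : SymGen F) {u v : G → ℝ} (hu : L2 u) (hv : L2 v) :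
    ∑' x, (u x - avg F u x) * v x = ∑' x, u x * (v x - avg F v x) := by
  have h := lap_symm hF (toH u hu) (toH v hv)
  rw [H2.inner_eq, H2.inner_eq] at h
  simp only [lap_apply] at h
  exact h

lemma tsum_mul_dl (u : G → ℝ) (y : G) : ∑' x, u x * dl y x = u y := by
  rw [tsum_eq_single y]
  · simp [dl]
  · intro x hx; simp [dl, hx]

theorem gk_symm (hF : SymGen F) (hN : NA F κ) (x y : G) : gk F x y = gk F y x := by
  have h := lap_symm' hF (green_L2 (F := F) (dl y)) (green_L2 (F := F) (dl x))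
  simp only [green_eq hF hN (dl_L2 _)] at h
  rw [tsum_mul_dl] at h
  simp_rw [mul_comm (dl y _)] at h
  rw [tsum_mul_dl] at h
  exact h.symm






theorem green_hasSum (hF : SymGen F) (hN : NA F κ) {q : G → ℝ} (hq : L2 q) (x : G) :
    HasSum (fun y => gk F x y * q y) (green F q x) := by
  have h := lap_symm' hF (green_L2 (F := F) q) (green_L2 (F := F) (dl x))
  simp only [green_eq hF hN (dl_L2 _), green_eq hF hN hq] at h
  rw [tsum_mul_dl] at h
  rw [← h]
  have h2 : (fun y => gk F x y * q y) = fun y => q y * green F (dl x) y := by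
    funext y
    rw [gk_symm hF hN x y, mul_comm]; rfl
  rw [h2]
  exact (hq.summable_mul (green_L2 (dl x))).hasSum

theorem green_eq_tsum (hF : SymGen F) (hN : NA F κ) {q : G → ℝ} (hq : L2 q) (x : G) :
    green F q x = ∑' y, gk F x y * q y := (green_hasSum hF hN hq x).tsum_eq.symm

theorem gk_superharm (hF : SymGen F) (hN : NA F κ) (x y : G) :
    avg F (fun z => gk F z y) x ≤ gk F x y := by
  have := gk_eq hF hN x y
  have := dl_nonneg y x
  linarith



/-- finite sources -/
theorem green_finset (hF : SymGen F) (hN : NA F κ) (V : Finset G) (c : G → ℝ) (x : G) :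
    green F (fun y => if y ∈ V then c y else 0) x = ∑ v ∈ V, c v * gk F x v := by
  have hq : L2 (fun y => if y ∈ V then c y else 0) :=
    L2.of_finite_support (V.finite_toSet.subset fun y hy => by
      by_contra h
      exact hy (if_neg h))
  have h := green_hasSum hF hN hq x
  have h2 : HasSum (fun y => gk F x y * (if y ∈ V then c y else 0)) (∑ v ∈ V, c v * gk F x v) := by
    have : ∑ v ∈ V, c v * gk F x v = ∑ v ∈ V, gk F x v * (if v ∈ V then c v else 0) :=
      Finset.sum_congr rfl fun v hv => by rw [if_pos hv, mul_comm]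
    rw [this]
    exact hasSum_sum_of_ne_finset_zero fun y hy => by rw [if_neg hy, mul_zero]
  exact h.unique h2


end Crest.Agent.R224.Pot
end
end

-- ▼ part R224/Pot4
section

/-!
# Row 224: the harmonic part of a Dirichlet function
-/

set_option autoImplicit false
set_option linter.unusedSectionVars false

open Set Filter Topology
open scoped InnerProductSpace

noncomputable section

namespace Crest.Agent.R224.Pot

variable {G : Type*} [Group G] {F : Finset G} {κ : ℝ}

open Classical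

/-- the harmonic part -/
def hpart (F : Finset G) (f : G → ℝ) (x : G) : ℝ := f x - green F (fun y => f y - avg F f y) x

theorem hpart_sub_eq (f : G → ℝ) (x : G) :
    f x - hpart F f x = green F (fun y => f y - avg F f y) x := by unfold hpart; ring

theorem hpart_sub_L2 (f : G → ℝ) : L2 (fun x => f x - hpart F f x) := by
  have h : (fun x => f x - hpart F f x) = green F (fun y => f y - avg F f y) :=
    funext fun x => hpart_sub_eq f x
  rw [h]; exact green_L2 _


theorem hpart_harm (hF : SymGen F) (hN : NA F κ) {f : G → ℝ} (hf : Dir F f) (x : G) :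
    avg F (hpart F f) x = hpart F f x := by
  have h := green_eq hF hN (hf.L2_sub_avg hF) x
  have h2 : avg F (hpart F f) x = avg F f x - avg F (green F (fun y => f y - avg F f y)) x :=
    avg_sub _ _ x
  rw [h2]
  unfold hpart
  linarith

theorem hpart_unique (hF : SymGen F) (hN : NA F κ) {f h : G → ℝ}
    (hharm : ∀ x, avg F h x = h x) (hL : L2 (fun x => f x - h x)) : hpart F f = h := by
  have h1 := green_unique hF hN (q := fun y => f y - avg F f y) hL fun x => by
    rw [avg_sub, hharm]; ring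
  funext x
  unfold hpart
  rw [h1]; ring

theorem hpart_of_harm (hF : SymGen F) (hN : NA F κ) {h : G → ℝ}
    (hharm : ∀ x, avg F h x = h x) : hpart F h = h :=
  hpart_unique hF hN hharm (by simpa using L2.zero)

theorem hpart_const (hF : SymGen F) (hN : NA F κ) (c : ℝ) : hpart F (fun _ : G => c) = fun _ => c :=
  hpart_of_harm hF hN (avg_const hF c)



theorem hpart_sub (hF : SymGen F) (hN : NA F κ) {f g : G → ℝ} (hf : Dir F f) (hg : Dir F g) :
    hpart F (fun x => f x - g x) = fun x => hpart F f x - hpart F g x := by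
  refine hpart_unique hF hN (fun x => ?_) ?_
  · rw [avg_sub, hpart_harm hF hN hf, hpart_harm hF hN hg]
  · refine ((hpart_sub_L2 (F := F) f).sub (hpart_sub_L2 (F := F) g)).congr fun x => ?_
    ring





theorem hpart_dir {f : G → ℝ} (hf : Dir F f) : Dir F (hpart F f) :=
  hf.sub (green_L2 (F := F) _).dir


/-- if `liminf f ≥ 0` at infinity then the harmonic part is nonnegative -/
theorem hpart_nonneg_of_cofinite (hF : SymGen F) (hN : NA F κ) {f : G → ℝ} (hf : Dir F f)
    (h : ∀ ε > 0, {x | f x ≤ -ε}.Finite) (x : G) : 0 ≤ hpart F f x := by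
  have := hN.infinite
  have h1 := max_principle' hF (w := fun y => - hpart F f y) (fun y => ?_) (fun ε hε => ?_) x
  · linarith
  · rw [avg_neg, hpart_harm hF hN hf]
  · refine ((h (ε / 2) (by positivity)).union
      ((hpart_sub_L2 (F := F) f).finite (ε := ε / 2) (by positivity))).subset fun y hy => ?_
    have hy' : ε ≤ - hpart F f y := hy
    by_cases h3 : f y ≤ -(ε / 2)
    · exact Or.inl h3
    · right
      change ε / 2 ≤ f y - hpart F f y
      push Not at h3
      linarith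


theorem hpart_mono_of_cofinite (hF : SymGen F) (hN : NA F κ) {f g : G → ℝ} (hf : Dir F f)
    (hg : Dir F g) (h : ∀ ε > 0, {x | g x ≤ f x - ε}.Finite) (x : G) :
    hpart F f x ≤ hpart F g x := by
  have h1 := hpart_nonneg_of_cofinite hF hN (hg.sub hf) (fun ε hε => ?_) x
  · rw [hpart_sub hF hN hg hf] at h1
    linarith
  · refine (h ε hε).subset fun y hy => ?_
    have hy' : g y - f y ≤ -ε := hy
    change g y ≤ f y - ε
    linarith

theorem hpart_mono (hF : SymGen F) (hN : NA F κ) {f g : G → ℝ} (hf : Dir F f) (hg : Dir F g)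
    (h : ∀ x, f x ≤ g x) (x : G) : hpart F f x ≤ hpart F g x := by
  refine hpart_mono_of_cofinite hF hN hf hg (fun ε hε => ?_) x
  refine (finite_empty).subset fun y hy => ?_
  have hy' : g y ≤ f y - ε := hy
  have := h y
  linarith



theorem hpart_le (hF : SymGen F) (hN : NA F κ) {f : G → ℝ} (hf : Dir F f) {M : ℝ}
    (h : ∀ x, f x ≤ M) (x : G) : hpart F f x ≤ M := by
  have h1 := hpart_mono hF hN hf (Dir.const M) h x
  rwa [hpart_const hF hN] at h1

theorem le_hpart (hF : SymGen F) (hN : NA F κ) {f : G → ℝ} (hf : Dir F f) {M : ℝ}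
    (h : ∀ x, M ≤ f x) (x : G) : M ≤ hpart F f x := by
  have h1 := hpart_mono hF hN (Dir.const M) hf h x
  rwa [hpart_const hF hN] at h1

theorem hpart_bdd (hF : SymGen F) (hN : NA F κ) {f : G → ℝ} (hf : Dir F f) {M : ℝ}
    (h : ∀ x, |f x| ≤ M) (x : G) : |hpart F f x| ≤ M :=
  abs_le.2 ⟨le_hpart hF hN hf (fun y => (abs_le.1 (h y)).1) x,
    hpart_le hF hN hf (fun y => (abs_le.1 (h y)).2) x⟩



/-! ### energy identities -/






end Crest.Agent.R224.Pot
end
end

-- ▼ part R224/PotNodes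

/-!
# Row 224: the nodes `NGreen`, `NDecomp`
-/

set_option autoImplicit false
set_option linter.unusedSectionVars false

open Set Filter Topology
open scoped InnerProductSpace

noncomputable section

namespace Crest.Agent.R224.Pot

variable {G : Type} [Group G] {F : Finset G} {κ : ℝ}

open Classical

lemma symGen_of_std (h : Std F) : SymGen F := ⟨⟨1, h.one⟩, h.inv, h.gen⟩

lemma bd_ncard (A : Finset G) : (bd F (A : Set G)).ncard =
    ((A ×ˢ F).filter fun p => p.1 * p.2 ∉ A).card := by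
  have h1 : bd F (A : Set G) =
      ((((A ×ˢ F).filter fun p => p.1 * p.2 ∉ A).image fun p => (p.1, p.1 * p.2) :
        Finset (G × G)) : Set (G × G)) := by
    ext ⟨x, y⟩
    simp only [bd, Adj, mem_setOf_eq, Finset.coe_image, mem_image, Finset.mem_coe,
      Finset.mem_filter, Finset.mem_product, Prod.mk.injEq, Prod.exists]
    constructor
    · rintro ⟨h1, h2, h3⟩
      exact ⟨x, x⁻¹ * y, ⟨⟨h2, h1⟩, by rwa [mul_inv_cancel_left]⟩, rfl, mul_inv_cancel_left x y⟩
    · rintro ⟨a, b, ⟨⟨h1, h2⟩, h3⟩, rfl, rfl⟩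
      exact ⟨by rwa [inv_mul_cancel_left], h1, h3⟩
  rw [h1, Set.ncard_coe_finset, Finset.card_image_of_injective]
  rintro ⟨a, b⟩ ⟨c, d⟩ h
  simp only [Prod.mk.injEq] at h
  obtain ⟨rfl, h⟩ := h
  simpa using h

lemma na_of_nonam (h : Nonam F) : ∃ κ, NA F κ := by
  obtain ⟨κ, hκ, h⟩ := h
  exact ⟨κ, hκ, fun A => by rw [← bd_ncard]; exact h A⟩



end Crest.Agent.R224.Pot

namespace Crest.Agent.R224

open Pot


theorem nDecomp : NDecomp := by
  intro G _ S hS hNon _ f hf
  obtain ⟨κ, hN⟩ := na_of_nonam hNon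
  have hF := symGen_of_std hS
  have hf' : Pot.Dir S f := hf
  exact ⟨fun x => f x - hpart S f x, hpart S f, fun x => by ring, hpart_sub_L2 f,
    hpart_harm hF hN hf', hpart_dir hf', fun C hC => hpart_bdd hF hN hf' hC⟩

end Crest.Agent.R224
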